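import Mathlib

/-!
Row 32 (S0042), common definitions.
Integer points are `Fin 3 → ℤ`, triples are `Matrix (Fin 3) (Fin 3) ℤ` (rows = points).
-/

namespace Crest.Agent.R032

open Matrix



/-- The box `[0,W) × [0,W) × [W,2W)`. -/
noncomputable def Box (W : ℕ) : Finset (Fin 3 → ℤ) :=
  Fintype.piFinset fun i => if i = 2 then Finset.Ico (W : ℤ) (2 * W) else Finset.Ico 0 (W : ℤ)







theorem mem_Box {W : ℕ} {u : Fin 3 → ℤ} :
    u ∈ Box W ↔ (0 ≤ u 0 ∧ u 0 < W) ∧ (0 ≤ u 1 ∧ u 1 < W) ∧ ((W : ℤ) ≤ u 2 ∧ u 2 < 2 * W) := by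
  simp [Box, Fintype.mem_piFinset, Fin.forall_fin_succ]





end Crest.Agent.R032
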