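import Mathlib
import Crest.Agent.R032.Defs

-- ▼ part R032/SL3
section

/-!
Row 32 (S0042), section 4 of note 10070: elementary counting in `SL₃(ZMod Q)`.
-/

set_option autoImplicit false

namespace Crest.Agent.R032

open Matrix Finset

/-- `SL₃` over `ZMod Q`, as a finset of matrices. -/
def SLset (Q : ℕ) [Fact Q.Prime] : Finset (Matrix (Fin 3) (Fin 3) (ZMod Q)) :=
  Finset.univ.filter fun g => g.det = 1

theorem mem_SLset {Q : ℕ} [Fact Q.Prime] {g : Matrix (Fin 3) (Fin 3) (ZMod Q)} :
    g ∈ SLset Q ↔ g.det = 1 := by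
  simp [SLset]

/-! ### fibres over three independent vectors -/

theorem fibre3 (Q : ℕ) [Fact Q.Prime] (U C : Fin 3 → Fin 3 → ZMod Q)
    (hU : Matrix.det (Matrix.of U) ≠ 0) :
    ((SLset Q).filter fun g => ∀ i, g.mulVec (U i) = C i).card ≤ 1 := by
  rw [Finset.card_le_one]
  intro g hg g' hg'
  simp only [Finset.mem_filter] at hg hg'
  have h1 : g * (Matrix.of U)ᵀ = g' * (Matrix.of U)ᵀ := by
    ext i j
    have h2 : g.mulVec (U j) i = g'.mulVec (U j) i := by rw [hg.2 j, hg'.2 j]
    simpa [Matrix.mul_apply, Matrix.mulVec, dotProduct] using h2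
  have h3 : IsUnit ((Matrix.of U)ᵀ) := by
    rw [Matrix.isUnit_iff_isUnit_det, Matrix.det_transpose]
    exact isUnit_iff_ne_zero.mpr hU
  exact h3.mul_right_cancel h1

/-! ### an affine plane has at most `Q²` points -/

theorem plane_card (Q : ℕ) [Fact Q.Prime] (n : Fin 3 → ZMod Q) (δ : ZMod Q) (hδ : δ ≠ 0) :
    (Finset.univ.filter fun x : Fin 3 → ZMod Q => n ⬝ᵥ x = δ).card ≤ Q ^ 2 := by
  by_cases hn : n = 0
  · subst hn
    have : (Finset.univ.filter fun x : Fin 3 → ZMod Q => (0 : Fin 3 → ZMod Q) ⬝ᵥ x = δ) = ∅ := by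
      apply Finset.filter_eq_empty_iff.mpr
      intro x _ hx
      rw [zero_dotProduct] at hx
      exact hδ hx.symm
    rw [this]
    simp
  · obtain ⟨k, hk⟩ : ∃ k, n k ≠ 0 := by
      by_contra hcon
      push Not at hcon
      exact hn (funext hcon)
    have hcard : (Finset.univ : Finset (Fin 2 → ZMod Q)).card = Q ^ 2 := by
      rw [Finset.card_univ, Fintype.card_fun, ZMod.card, Fintype.card_fin]
    rw [← hcard]
    apply Finset.card_le_card_of_injOn (fun x => fun i => x (k.succAbove i))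
    · intro x _
      simp
    · intro x hx y hy hxy
      simp only [Finset.coe_filter, Finset.mem_univ, true_and, Set.mem_setOf_eq] at hx hy
      have h1 : ∀ i, x (k.succAbove i) = y (k.succAbove i) := fun i => congrFun hxy i
      have h2 : n k * x k = n k * y k := by
        have hx' := hx
        have hy' := hy
        rw [dotProduct, Fin.sum_univ_succAbove _ k] at hx' hy'
        have h3 : ∑ i, n (k.succAbove i) * x (k.succAbove i)
            = ∑ i, n (k.succAbove i) * y (k.succAbove i) :=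
          Finset.sum_congr rfl fun i _ => by rw [h1 i]
        rw [h3] at hx'
        exact add_right_cancel (hx'.trans hy'.symm)
      have h4 : x k = y k := mul_left_cancel₀ hk h2
      funext i
      rcases Fin.eq_self_or_eq_succAbove k i with h | ⟨j, hj⟩
      · rw [h, h4]
      · rw [hj, h1 j]

/-! ### fibres over two independent vectors -/

theorem exists_third (Q : ℕ) [Fact Q.Prime] (u v : Fin 3 → ZMod Q)
    (h : crossProduct u v ≠ 0) :
    ∃ w : Fin 3 → ZMod Q, Matrix.det (Matrix.of ![u, v, w]) ≠ 0 := by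
  obtain ⟨k, hk⟩ : ∃ k, (crossProduct u v) k ≠ 0 := by
    by_contra hcon
    push Not at hcon
    exact h (funext hcon)
  refine ⟨Pi.single k 1, ?_⟩
  have h1 : Matrix.det (Matrix.of ![u, v, Pi.single k 1]) = (crossProduct u v) k := by
    rw [Matrix.det_fin_three, cross_apply]
    fin_cases k <;> simp <;> ring
  rw [h1]
  exact hk

theorem det_mulVec3 (Q : ℕ) [Fact Q.Prime] (g : Matrix (Fin 3) (Fin 3) (ZMod Q))
    (u v w : Fin 3 → ZMod Q) :
    Matrix.det (Matrix.of ![g.mulVec u, g.mulVec v, g.mulVec w])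
      = g.det * Matrix.det (Matrix.of ![u, v, w]) := by
  have h1 : Matrix.of ![g.mulVec u, g.mulVec v, g.mulVec w]
      = (Matrix.of ![u, v, w]) * gᵀ := by
    ext i j
    fin_cases i <;> simp [Matrix.mul_apply, Matrix.mulVec, dotProduct, mul_comm]
  rw [h1, Matrix.det_mul, Matrix.det_transpose, mul_comm]

theorem det_of_three {R : Type*} [CommRing R] (u v w : Fin 3 → R) :
    Matrix.det (Matrix.of ![u, v, w]) = crossProduct u v ⬝ᵥ w := by
  rw [Matrix.det_fin_three, cross_apply, vec3_dotProduct]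
  simp
  ring

theorem fibre2_cross (Q : ℕ) [Fact Q.Prime] (u v c d : Fin 3 → ZMod Q)
    (h : crossProduct u v ≠ 0) :
    ((SLset Q).filter fun g => g.mulVec u = c ∧ g.mulVec v = d).card ≤ Q ^ 2 := by
  obtain ⟨w, hw⟩ := exists_third Q u v h
  refine le_trans ?_ (plane_card Q (crossProduct c d) _ hw)
  apply Finset.card_le_card_of_injOn (fun g => g.mulVec w)
  · intro g hg
    simp only [Finset.coe_filter, Set.mem_setOf_eq, mem_SLset] at hg
    obtain ⟨hdet, hc, hd⟩ := hg
    simp only [Finset.coe_filter, Finset.mem_univ, true_and, Set.mem_setOf_eq]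
    rw [← det_of_three, ← hc, ← hd, det_mulVec3, hdet, one_mul]
  · intro g hg g' hg' hgg
    simp only [Finset.coe_filter, Set.mem_setOf_eq, mem_SLset] at hg hg'
    have h3 := fibre3 Q ![u, v, w] ![c, d, g.mulVec w] hw
    rw [Finset.card_le_one] at h3
    apply h3
    · simp only [Finset.mem_filter, mem_SLset]
      refine ⟨hg.1, ?_⟩
      intro i
      fin_cases i
      · exact hg.2.1
      · exact hg.2.2
      · rfl
    · simp only [Finset.mem_filter, mem_SLset]
      refine ⟨hg'.1, ?_⟩
      intro i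
      fin_cases i
      · exact hg'.2.1
      · exact hg'.2.2
      · exact hgg.symm

theorem fibre2 (Q : ℕ) [Fact Q.Prime] (u v c d : Fin 3 → ZMod Q)
    (h : LinearIndependent (ZMod Q) ![u, v]) :
    ((SLset Q).filter fun g => g.mulVec u = c ∧ g.mulVec v = d).card ≤ Q ^ 2 :=
  fibre2_cross Q u v c d (crossProduct_ne_zero_iff_linearIndependent.mpr h)

/-! ### fibres over one nonzero vector -/

theorem exists_second (Q : ℕ) [Fact Q.Prime] (u : Fin 3 → ZMod Q) (hu : u ≠ 0) :
    ∃ v : Fin 3 → ZMod Q, crossProduct u v ≠ 0 := by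
  by_contra hcon
  push Not at hcon
  apply hu
  have h1 := hcon ![0, 1, 0]
  have h2 := hcon ![1, 0, 0]
  rw [cross_apply] at h1 h2
  have h10 := congrFun h1 0
  have h12 := congrFun h1 2
  have h22 := congrFun h2 2
  simp at h10 h12 h22
  funext i
  fin_cases i
  · exact h12
  · exact h22
  · exact h10

theorem fibre1 (Q : ℕ) [Fact Q.Prime] (u c : Fin 3 → ZMod Q) (hu : u ≠ 0) :
    ((SLset Q).filter fun g => g.mulVec u = c).card ≤ Q ^ 5 := by
  obtain ⟨v, hv⟩ := exists_second Q u hu
  have h1 : ((SLset Q).filter fun g => g.mulVec u = c).card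
      = ∑ d : Fin 3 → ZMod Q,
        (((SLset Q).filter fun g => g.mulVec u = c).filter fun g => g.mulVec v = d).card :=
    Finset.card_eq_sum_card_fiberwise (fun g _ => Finset.mem_univ _)
  rw [h1]
  have h2 : ∀ d : Fin 3 → ZMod Q,
      (((SLset Q).filter fun g => g.mulVec u = c).filter fun g => g.mulVec v = d).card
        ≤ Q ^ 2 := by
    intro d
    rw [Finset.filter_filter]
    exact fibre2_cross Q u v c d hv
  refine (Finset.sum_le_sum fun d _ => h2 d).trans ?_
  rw [Finset.sum_const, Finset.card_univ, Fintype.card_fun, ZMod.card, Fintype.card_fin,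
    smul_eq_mul, ← pow_add]

/-! ### size of `SL₃` -/

theorem card_GL_le (Q : ℕ) [Fact Q.Prime] :
    Nat.card (GL (Fin 3) (ZMod Q)) ≤ (Q - 1) * (SLset Q).card := by
  classical
  have hcard : Nat.card (ZMod Q)ˣ = Q - 1 := by
    rw [Nat.card_eq_fintype_card, ZMod.card_units]
  have h1 : Nat.card ((ZMod Q)ˣ × {g // g ∈ SLset Q}) = (Q - 1) * (SLset Q).card := by
    rw [Nat.card_prod, hcard]
    congr 1
    rw [Nat.card_eq_fintype_card, Fintype.card_coe]
  rw [← h1]
  have hdet : ∀ g : GL (Fin 3) (ZMod Q), (g : Matrix (Fin 3) (Fin 3) (ZMod Q)).det ≠ 0 := by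
    intro g
    have := (Matrix.GeneralLinearGroup.det g).ne_zero
    simpa using this
  let F : GL (Fin 3) (ZMod Q) → (ZMod Q)ˣ × {g // g ∈ SLset Q} := fun g =>
    (Matrix.GeneralLinearGroup.det g,
      ⟨(g : Matrix (Fin 3) (Fin 3) (ZMod Q)).updateRow 0
        ((g : Matrix (Fin 3) (Fin 3) (ZMod Q)).det⁻¹ • (g : Matrix (Fin 3) (Fin 3) (ZMod Q)) 0), by
        rw [mem_SLset, Matrix.det_updateRow_smul, Matrix.updateRow_eq_self]
        exact inv_mul_cancel₀ (hdet g)⟩)
  apply Nat.card_le_card_of_injective F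
  intro g g' hgg
  have e1 : Matrix.GeneralLinearGroup.det g = Matrix.GeneralLinearGroup.det g' :=
    congrArg Prod.fst hgg
  have e2 : (g : Matrix (Fin 3) (Fin 3) (ZMod Q)).updateRow 0
        ((g : Matrix (Fin 3) (Fin 3) (ZMod Q)).det⁻¹ • (g : Matrix (Fin 3) (Fin 3) (ZMod Q)) 0)
      = (g' : Matrix (Fin 3) (Fin 3) (ZMod Q)).updateRow 0
        ((g' : Matrix (Fin 3) (Fin 3) (ZMod Q)).det⁻¹ •
          (g' : Matrix (Fin 3) (Fin 3) (ZMod Q)) 0) :=
    congrArg Subtype.val (congrArg Prod.snd hgg)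
  have e3 : (g : Matrix (Fin 3) (Fin 3) (ZMod Q)).det
      = (g' : Matrix (Fin 3) (Fin 3) (ZMod Q)).det := by
    have := congrArg Units.val e1
    simpa using this
  apply Units.ext
  ext i j
  by_cases hi : i = 0
  · subst hi
    have e4 := congrFun (congrFun e2 0) j
    rw [Matrix.updateRow_self, Matrix.updateRow_self, e3] at e4
    exact mul_left_cancel₀ (inv_ne_zero (hdet g')) e4
  · have e4 := congrFun (congrFun e2 i) j
    rw [Matrix.updateRow_ne hi, Matrix.updateRow_ne hi] at e4
    exact e4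

theorem card_SLset_ge (Q : ℕ) [Fact Q.Prime] : Q ^ 8 ≤ 8 * (SLset Q).card := by
  have h2 : 2 ≤ Q := (Fact.out : Q.Prime).two_le
  have h1 := card_GL_le Q
  rw [Matrix.card_GL_field, ZMod.card, Fin.prod_univ_three] at h1
  simp only [Fin.val_zero, Fin.val_one, Fin.val_two, pow_zero, pow_one] at h1
  obtain ⟨q, rfl⟩ : ∃ q, Q = q + 2 := ⟨Q - 2, by omega⟩
  set S := (SLset (q + 2)).card with hS
  have e1 : (q + 2) ^ 3 - 1 = q ^ 3 + 6 * q ^ 2 + 12 * q + 7 := by
    have : (q + 2) ^ 3 = q ^ 3 + 6 * q ^ 2 + 12 * q + 8 := by ring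
    omega
  have e2 : (q + 2) ^ 3 - (q + 2) = q ^ 3 + 6 * q ^ 2 + 11 * q + 6 := by
    have : (q + 2) ^ 3 = q ^ 3 + 6 * q ^ 2 + 12 * q + 8 := by ring
    omega
  have e3 : (q + 2) ^ 3 - (q + 2) ^ 2 = (q + 1) * (q + 2) ^ 2 := by
    have : (q + 2) ^ 3 = (q + 1) * (q + 2) ^ 2 + (q + 2) ^ 2 := by ring
    omega
  have e4 : q + 2 - 1 = q + 1 := by omega
  rw [e1, e2, e3, e4] at h1
  have h3 : (q ^ 3 + 6 * q ^ 2 + 12 * q + 7) * (q ^ 3 + 6 * q ^ 2 + 11 * q + 6) * (q + 2) ^ 2
      ≤ S := by
    have h4 : (q + 1) * ((q ^ 3 + 6 * q ^ 2 + 12 * q + 7) * (q ^ 3 + 6 * q ^ 2 + 11 * q + 6)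
        * (q + 2) ^ 2) ≤ (q + 1) * S := by
      calc _ = (q ^ 3 + 6 * q ^ 2 + 12 * q + 7) * (q ^ 3 + 6 * q ^ 2 + 11 * q + 6)
            * ((q + 1) * (q + 2) ^ 2) := by ring
        _ ≤ _ := h1
    exact Nat.le_of_mul_le_mul_left h4 (Nat.succ_pos q)
  have h5 : (q + 2) ^ 3 ≤ 2 * (q ^ 3 + 6 * q ^ 2 + 12 * q + 7) := by
    have : (q + 2) ^ 3 = q ^ 3 + 6 * q ^ 2 + 12 * q + 8 := by ring
    omega
  have h6 : (q + 2) ^ 3 ≤ 2 * (q ^ 3 + 6 * q ^ 2 + 11 * q + 6) := by
    have : (q + 2) ^ 3 = q ^ 3 + 6 * q ^ 2 + 12 * q + 8 := by ring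
    omega
  calc (q + 2) ^ 8 = (q + 2) ^ 3 * (q + 2) ^ 3 * (q + 2) ^ 2 := by ring
    _ ≤ (2 * (q ^ 3 + 6 * q ^ 2 + 12 * q + 7)) * (2 * (q ^ 3 + 6 * q ^ 2 + 11 * q + 6))
        * (q + 2) ^ 2 := Nat.mul_le_mul_right _ (Nat.mul_le_mul h5 h6)
    _ = 4 * ((q ^ 3 + 6 * q ^ 2 + 12 * q + 7) * (q ^ 3 + 6 * q ^ 2 + 11 * q + 6)
        * (q + 2) ^ 2) := by ring
    _ ≤ 4 * S := Nat.mul_le_mul_left _ h3
    _ ≤ 8 * S := Nat.mul_le_mul_right _ (by norm_num)

/-! ### lattice points of the box in the preimage of a set -/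

theorem count_Ico (Q : ℕ) [Fact Q.Prime] (a : ℤ) (k : ℕ) (v : ZMod Q) :
    ((Finset.Ico a (a + k * Q)).filter fun x : ℤ => (x : ZMod Q) = v).card = k := by
  have hQ : 0 < (Q : ℤ) := by exact_mod_cast (Fact.out : Q.Prime).pos
  have hQ' : (Q : ℚ) ≠ 0 := by exact_mod_cast (Fact.out : Q.Prime).ne_zero
  have h1 : (Finset.Ico a (a + k * Q)).filter (fun x : ℤ => (x : ZMod Q) = v)
      = (Finset.Ico a (a + k * Q)).filter (fun x : ℤ => x ≡ (v.val : ℤ) [ZMOD Q]) := by
    apply Finset.filter_congr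
    intro x _
    rw [← ZMod.intCast_eq_intCast_iff]
    simp
  rw [h1]
  have h2 := Int.Ico_filter_modEq_card a (a + k * Q) hQ (v.val : ℤ)
  have h3 : (((a + k * Q : ℤ) : ℚ) - ((v.val : ℤ) : ℚ)) / ((Q : ℤ) : ℚ)
      = ((a : ℚ) - ((v.val : ℤ) : ℚ)) / ((Q : ℤ) : ℚ) + (k : ℚ) := by
    push_cast
    field_simp
    ring
  rw [h3, Int.ceil_add_natCast, add_sub_cancel_left, max_eq_left (Int.natCast_nonneg k)] at h2
  exact_mod_cast h2

theorem count_cast (Q W : ℕ) [Fact Q.Prime] (hQW : Q ∣ W) (v : Fin 3 → ZMod Q) :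
    ((Box W).filter fun u => (fun i => ((u i : ℤ) : ZMod Q)) = v).card = (W / Q) ^ 3 := by
  obtain ⟨k, rfl⟩ := hQW
  have hQ0 : 0 < Q := (Fact.out : Q.Prime).pos
  rw [Nat.mul_div_cancel_left _ hQ0]
  have h1 : (Box (Q * k)).filter (fun u => (fun i => ((u i : ℤ) : ZMod Q)) = v)
      = Fintype.piFinset fun i => (if i = 2 then
          Finset.Ico ((Q * k : ℕ) : ℤ) (2 * ((Q * k : ℕ) : ℤ)) else
          Finset.Ico 0 ((Q * k : ℕ) : ℤ)).filter fun x : ℤ => (x : ZMod Q) = v i := by
    ext u
    simp only [Box, Finset.mem_filter, Fintype.mem_piFinset, funext_iff]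
    exact (forall_and).symm
  rw [h1, Fintype.card_piFinset]
  have h2 : ∀ i : Fin 3, ((if i = 2 then
          Finset.Ico ((Q * k : ℕ) : ℤ) (2 * ((Q * k : ℕ) : ℤ)) else
          Finset.Ico 0 ((Q * k : ℕ) : ℤ)).filter fun x : ℤ => (x : ZMod Q) = v i).card = k := by
    intro i
    split_ifs with hi
    · have := count_Ico Q ((Q * k : ℕ) : ℤ) k (v i)
      have e : (2 * ((Q * k : ℕ) : ℤ)) = ((Q * k : ℕ) : ℤ) + k * Q := by push_cast; ring
      rw [e]
      exact this
    · have := count_Ico Q 0 k (v i)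
      have e : ((Q * k : ℕ) : ℤ) = 0 + k * Q := by push_cast; ring
      rw [e]
      exact this
  rw [Finset.prod_congr rfl fun i _ => h2 i, Finset.prod_const, Finset.card_univ,
    Fintype.card_fin]

theorem count_box (Q W : ℕ) [Fact Q.Prime] (hQW : Q ∣ W) (C : Finset (Fin 3 → ZMod Q))
    (g : Matrix (Fin 3) (Fin 3) (ZMod Q)) (hg : g ∈ SLset Q) :
    ((Box W).filter fun u => g.mulVec (fun i => ((u i : ℤ) : ZMod Q)) ∈ C).card
      = C.card * (W / Q) ^ 3 := by
  rw [mem_SLset] at hg
  have hu : IsUnit g.det := by rw [hg]; exact isUnit_one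
  have h1 : ((Box W).filter fun u => g.mulVec (fun i => ((u i : ℤ) : ZMod Q)) ∈ C).card
      = ∑ c ∈ C, (((Box W).filter fun u => g.mulVec (fun i => ((u i : ℤ) : ZMod Q)) ∈ C).filter
          fun u => g.mulVec (fun i => ((u i : ℤ) : ZMod Q)) = c).card := by
    apply Finset.card_eq_sum_card_fiberwise
    intro u hu
    simp only [Finset.coe_filter, Set.mem_setOf_eq] at hu
    exact hu.2
  rw [h1]
  have h2 : ∀ c ∈ C,
      (((Box W).filter fun u => g.mulVec (fun i => ((u i : ℤ) : ZMod Q)) ∈ C).filter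
          fun u => g.mulVec (fun i => ((u i : ℤ) : ZMod Q)) = c).card = (W / Q) ^ 3 := by
    intro c hc
    rw [← count_cast Q W hQW (g⁻¹.mulVec c)]
    congr 1
    rw [Finset.filter_filter]
    apply Finset.filter_congr
    intro u _
    constructor
    · rintro ⟨_, h⟩
      rw [← h, Matrix.mulVec_mulVec, Matrix.nonsing_inv_mul _ hu, Matrix.one_mulVec]
    · intro h
      have h' : g.mulVec (fun i => ((u i : ℤ) : ZMod Q)) = c := by
        rw [h, Matrix.mulVec_mulVec, Matrix.mul_nonsing_inv _ hu, Matrix.one_mulVec]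
      exact ⟨h' ▸ hc, h'⟩
  rw [Finset.sum_congr rfl h2, Finset.sum_const, smul_eq_mul]

end Crest.Agent.R032
end

-- ▼ part R032/FirstMom

/-!
Row 32 (Heilbronn), section 4 of note 10070: first moment bound over random `g` in `SL_3(F_Q)`
(helper973).
-/

set_option autoImplicit false

namespace Crest.Agent.R032.FM

open Finset

/-- reduction of an integer vector modulo `Q` -/
abbrev castv (Q : ℕ) (u : Fin 3 → ℤ) : Fin 3 → ZMod Q := fun i => ((u i : ℤ) : ZMod Q)

variable {Q : ℕ} [Fact Q.Prime]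

theorem det_castv (U : Fin 3 → Fin 3 → ℤ) :
    Matrix.det (Matrix.of fun i => castv Q (U i)) = ((Matrix.det (Matrix.of U) : ℤ) : ZMod Q) := by
  simp only [Matrix.det_fin_three, Matrix.of_apply, castv]
  push_cast
  ring

theorem det_image (g : Matrix (Fin 3) (Fin 3) (ZMod Q)) (w : Fin 3 → Fin 3 → ZMod Q) :
    Matrix.det (Matrix.of fun i => g.mulVec (w i)) = Matrix.det (Matrix.of w) * g.det := by
  have h : (Matrix.of fun i => g.mulVec (w i)) = Matrix.of w * g.transpose := by
    ext i j
    simp [Matrix.mul_apply, Matrix.mulVec, dotProduct, Matrix.transpose_apply, mul_comm]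
  rw [h, Matrix.det_mul, Matrix.det_transpose]

theorem mulVec_inj {g : Matrix (Fin 3) (Fin 3) (ZMod Q)} (hg : g.det = 1)
    {v : Fin 3 → ZMod Q} (h : g.mulVec v = 0) : v = 0 := by
  have h1 : (g.adjugate * g).mulVec v = 0 := by
    rw [← Matrix.mulVec_mulVec, h, Matrix.mulVec_zero]
  rw [Matrix.adjugate_mul, hg, one_smul, Matrix.one_mulVec] at h1
  exact h1

theorem image_rel (g : Matrix (Fin 3) (Fin 3) (ZMod Q)) (w : Fin 3 → Fin 3 → ZMod Q)
    (l : Fin 3 → ZMod Q) :
    g.mulVec (∑ i, l i • w i) = ∑ i, l i • g.mulVec (w i) := by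
  simp only [Fin.sum_univ_three, Matrix.mulVec_add, Matrix.mulVec_smul]

/-- a relation of three vectors of which two are independent is unique up to scaling -/
theorem rel_unique {w : Fin 3 → Fin 3 → ZMod Q} {l m : Fin 3 → ZMod Q}
    (hl : ∑ i, l i • w i = 0) (hm : ∑ i, m i • w i = 0) (hl0 : l ≠ 0)
    {i j : Fin 3} (hij : LinearIndependent (ZMod Q) ![w i, w j]) :
    ∃ s : ZMod Q, ∀ k, m k = s * l k := by
  have hne : i ≠ j := by
    intro h
    subst h
    have := LinearIndependent.pair_iff.1 hij 1 (-1) (by simp)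
    exact one_ne_zero this.1
  -- third index
  obtain ⟨k, hki, hkj, hk⟩ : ∃ k : Fin 3, k ≠ i ∧ k ≠ j ∧ ∀ a : Fin 3, a = i ∨ a = j ∨ a = k := by
    have h3 : ∀ i j : Fin 3, i ≠ j →
        ∃ k : Fin 3, k ≠ i ∧ k ≠ j ∧ ∀ a : Fin 3, a = i ∨ a = j ∨ a = k := by decide
    exact h3 i j hne
  have hsum : ∀ f : Fin 3 → (Fin 3 → ZMod Q), ∑ a, f a = f i + f j + f k := by
    intro f
    rw [← Finset.sum_subset (Finset.subset_univ ({i, j, k} : Finset (Fin 3)))]
    · rw [Finset.sum_insert (by simp [hne, hki.symm]), Finset.sum_insert (by simp [hkj.symm]),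
        Finset.sum_singleton, add_assoc]
    · intro a _ ha
      exfalso
      apply ha
      rcases hk a with h | h | h <;> simp [h]
  rw [hsum] at hl hm
  have key := LinearIndependent.pair_iff.1 hij
  have hlk : l k ≠ 0 := by
    intro h0
    rw [h0, zero_smul, add_zero] at hl
    have h2 := key (l i) (l j) hl
    apply hl0
    funext a
    rcases hk a with h | h | h
    · rw [h]; exact h2.1
    · rw [h]; exact h2.2
    · rw [h]; exact h0
  refine ⟨m k / l k, ?_⟩
  have h3 := key (m i - m k / l k * l i) (m j - m k / l k * l j) (by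
    have e : m k • w k = (m k / l k * l k) • w k := by rw [div_mul_cancel₀ _ hlk]
    have : (m i - m k / l k * l i) • w i + (m j - m k / l k * l j) • w j
        = (m i • w i + m j • w j + m k • w k) - (m k / l k) • (l i • w i + l j • w j + l k • w k) := by
      rw [e]
      simp only [sub_smul, smul_add, mul_smul]
      abel
    rw [this, hm, hl, smul_zero, sub_zero])
  intro a
  rcases hk a with h | h | h
  · rw [h]; exact sub_eq_zero.1 h3.1
  · rw [h]; exact sub_eq_zero.1 h3.2
  · rw [h, div_mul_cancel₀ _ hlk]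

/-- the pattern of a triple of type (B): determinant zero, and modulo `Q` every relation is
proportional to `l` -/
def RelB (Q : ℕ) (l : Fin 3 → ZMod Q) (U : Fin 3 → Fin 3 → ℤ) : Prop :=
  Matrix.det (Matrix.of U) = 0 ∧ ∀ m : Fin 3 → ZMod Q,
    (∀ j, ∑ i, m i * (U i j : ZMod Q) = 0) → ∃ s : ZMod Q, ∀ i, m i = s * l i

/-- the pattern of a triple of type (C) -/
def RelC (Q : ℕ) (U : Fin 3 → Fin 3 → ℤ) : Prop :=
  Matrix.det (Matrix.of U) = 0 ∧ ∀ i, castv Q (U i) = castv Q (U 0)

/-- number of pairs `(U, g)` with `g U = c` -/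
noncomputable def pairs (T : Finset (Fin 3 → Fin 3 → ℤ)) (c : Fin 3 → Fin 3 → ZMod Q) : ℕ :=
  ∑ U ∈ T, ((SLset Q).filter fun g => ∀ i, g.mulVec (castv Q (U i)) = c i).card

theorem pairs_le_of (T : Finset (Fin 3 → Fin 3 → ℤ)) (c : Fin 3 → Fin 3 → ZMod Q)
    (p : (Fin 3 → Fin 3 → ℤ) → Prop) [DecidablePred p] (B : ℕ)
    (h : ∀ U ∈ T, ∀ g ∈ SLset Q, (∀ i, g.mulVec (castv Q (U i)) = c i) → p U)
    (hB : ∀ U ∈ T, ∀ g ∈ SLset Q, (∀ i, g.mulVec (castv Q (U i)) = c i) →
      ((SLset Q).filter fun g => ∀ i, g.mulVec (castv Q (U i)) = c i).card ≤ B) :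
    pairs T c ≤ (T.filter p).card * B := by
  unfold pairs
  rw [← Finset.sum_filter_add_sum_filter_not T p]
  have h0 : ∑ U ∈ T.filter (fun U => ¬ p U),
      ((SLset Q).filter fun g => ∀ i, g.mulVec (castv Q (U i)) = c i).card = 0 := by
    apply Finset.sum_eq_zero
    intro U hU
    rw [Finset.mem_filter] at hU
    rw [Finset.card_eq_zero, Finset.filter_eq_empty_iff]
    intro g hg hcon
    exact hU.2 (h U hU.1 g hg hcon)
  rw [h0, add_zero]
  calc _ ≤ ∑ U ∈ T.filter p, B := by
        apply Finset.sum_le_sum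
        intro U hU
        rw [Finset.mem_filter] at hU
        by_cases hex : ∃ g ∈ SLset Q, ∀ i, g.mulVec (castv Q (U i)) = c i
        · obtain ⟨g, hg, hcon⟩ := hex
          exact hB U hU.1 g hg hcon
        · have : ((SLset Q).filter fun g => ∀ i, g.mulVec (castv Q (U i)) = c i) = ∅ := by
            rw [Finset.filter_eq_empty_iff]
            intro g hg hcon
            exact hex ⟨g, hg, hcon⟩
          rw [this]; simp
    _ = _ := by rw [Finset.sum_const, smul_eq_mul]

section Main

variable (K : ℤ) (hK : 2 * K < Q)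
  (C : Finset (Fin 3 → ZMod Q)) {ι : Type} (lab : (Fin 3 → ZMod Q) → ι)
  (T : Finset (Fin 3 → Fin 3 → ℤ))
  (hT : ∀ U ∈ T, |Matrix.det (Matrix.of U)| ≤ K)

theorem det_of_image {U : Fin 3 → Fin 3 → ℤ} {g : Matrix (Fin 3) (Fin 3) (ZMod Q)}
    {c : Fin 3 → Fin 3 → ZMod Q} (hg : g ∈ SLset Q)
    (hcon : ∀ i, g.mulVec (castv Q (U i)) = c i) :
    ((Matrix.det (Matrix.of U) : ℤ) : ZMod Q) = Matrix.det (Matrix.of c) := by
  rw [← det_castv]
  have h1 := det_image g (fun i => castv Q (U i))
  rw [mem_SLset.1 hg, mul_one] at h1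
  rw [← h1]
  congr 1
  ext i j
  simp only [Matrix.of_apply, hcon i]

include hT in
theorem pairs_inj
    (hi : ∀ c : Fin 3 → Fin 3 → ZMod Q, (∀ i, c i ∈ C) → Function.Injective (fun i => lab (c i)) →
      ∀ d : ℤ, |d| ≤ K → Matrix.det (Matrix.of c) ≠ (d : ZMod Q))
    (c : Fin 3 → Fin 3 → ZMod Q) (hc : ∀ i, c i ∈ C)
    (hinj : Function.Injective (fun i => lab (c i))) : pairs T c = 0 := by
  unfold pairs
  apply Finset.sum_eq_zero
  intro U hU
  rw [Finset.card_eq_zero, Finset.filter_eq_empty_iff]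
  intro g hg hcon
  exact hi c hc hinj _ (hT U hU) (det_of_image hg hcon).symm

include hK hT in
open Classical in
theorem pairs_rep
    (hii : ∀ c : Fin 3 → Fin 3 → ZMod Q, (∀ i, c i ∈ C) →
      ¬ Function.Injective (fun i => lab (c i)) →
      ∀ l : Fin 3 → ZMod Q, (∑ i, l i • c i = 0) → ∑ i, l i = 0)
    (M : ℝ) (hM : 0 ≤ M)
    (hA : ∀ d : ℤ, d ≠ 0 → ((T.filter fun U => Matrix.det (Matrix.of U) = d).card : ℝ) ≤ M)
    (hB : ∀ l : Fin 3 → ZMod Q, ∑ i, l i = 0 →
      ((T.filter fun U => RelB Q l U).card : ℝ) * (Q : ℝ)^2 ≤ M)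
    (hC : ((T.filter fun U => RelC Q U).card : ℝ) * (Q : ℝ)^4 ≤ M)
    (c : Fin 3 → Fin 3 → ZMod Q) (hc : ∀ i, c i ∈ C)
    (hrep : ¬ Function.Injective (fun i => lab (c i))) :
    (pairs T c : ℝ) ≤ M ∨ ((∀ i, c i = c 0) ∧ (pairs T c : ℝ) ≤ Q * M) := by
  have hQ : (1 : ℕ) < Q := (Fact.out : Q.Prime).one_lt
  by_cases hdet : Matrix.det (Matrix.of c) = 0
  · -- determinant zero
    have hU0 : ∀ U ∈ T, ∀ g ∈ SLset Q, (∀ i, g.mulVec (castv Q (U i)) = c i) →
        Matrix.det (Matrix.of U) = 0 := by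
      intro U hU g hg hcon
      have h1 := det_of_image hg hcon
      rw [hdet, ZMod.intCast_zmod_eq_zero_iff_dvd] at h1
      have h2 := hT U hU
      apply Int.eq_zero_of_abs_lt_dvd h1
      have : (0 : ℤ) ≤ K := le_trans (abs_nonneg _) h2
      linarith
    obtain ⟨l, hl0, hlc⟩ : ∃ l : Fin 3 → ZMod Q, l ≠ 0 ∧ ∑ i, l i • c i = 0 := by
      obtain ⟨l, hl0, hl⟩ := Matrix.exists_vecMul_eq_zero_iff.2 hdet
      refine ⟨l, hl0, ?_⟩
      funext j
      have hj := congrFun hl j
      simpa [Matrix.vecMul, dotProduct, Fin.sum_univ_three] using hj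
    by_cases hind : ∃ i j : Fin 3, LinearIndependent (ZMod Q) ![c i, c j]
    · -- rank two
      obtain ⟨i, j, hij⟩ := hind
      left
      have hle : pairs T c ≤ (T.filter (RelB Q l)).card * Q^2 := by
        refine pairs_le_of T c (RelB Q l) (Q^2) ?_ ?_
        · intro U hU g hg hcon
          refine ⟨hU0 U hU g hg hcon, ?_⟩
          intro m hm
          have hmc : ∑ i, m i • c i = 0 := by
            have h1 : ∑ i, m i • castv Q (U i) = 0 := by
              funext j
              simpa [Fin.sum_univ_three, castv] using hm j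
            have h2 := image_rel g (fun i => castv Q (U i)) m
            rw [h1, Matrix.mulVec_zero] at h2
            rw [h2]
            apply Finset.sum_congr rfl
            intro k _
            rw [hcon k]
          exact rel_unique hlc hmc hl0 hij
        · intro U hU g hg hcon
          have hUij : LinearIndependent (ZMod Q) ![castv Q (U i), castv Q (U j)] := by
            rw [LinearIndependent.pair_iff] at hij ⊢
            intro a b hab
            apply hij a b
            rw [← hcon i, ← hcon j, ← Matrix.mulVec_smul, ← Matrix.mulVec_smul,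
              ← Matrix.mulVec_add, hab, Matrix.mulVec_zero]
          refine le_trans (Finset.card_le_card ?_) (fibre2 Q _ _ (c i) (c j) hUij)
          intro g' hg'
          rw [Finset.mem_filter] at hg' ⊢
          exact ⟨hg'.1, hg'.2 i, hg'.2 j⟩
      have h1 : (pairs T c : ℝ) ≤ ((T.filter (RelB Q l)).card : ℝ) * (Q : ℝ)^2 := by
        exact_mod_cast hle
      exact le_trans h1 (hB l (hii c hc hrep l hlc))
    · -- rank one
      right
      push Not at hind
      have hne : ∀ k, c k ≠ 0 := by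
        intro k hk
        have := hii c hc hrep (fun a => if a = k then 1 else 0) (by
          simp [hk])
        simp at this
      have hall : ∀ k, c k = c 0 := by
        intro k
        by_cases hk0 : k = 0
        · rw [hk0]
        have h1 := hind 0 k
        rw [LinearIndependent.pair_iff' (hne 0)] at h1
        push Not at h1
        obtain ⟨a, ha⟩ := h1
        have h2 := hii c hc hrep (fun b => if b = 0 then a else if b = k then -1 else 0) (by
          rw [Finset.sum_eq_add (0 : Fin 3) k (Ne.symm hk0)]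
          · simp [hk0, ha]
          · intro b _ hb
            simp [hb.1, hb.2]
          · simp
          · simp)
        rw [Finset.sum_eq_add (0 : Fin 3) k (Ne.symm hk0) (by
          intro b _ hb
          simp [hb.1, hb.2]) (by simp) (by simp)] at h2
        simp only [if_true, if_neg hk0] at h2
        have ha1 : a = 1 := by linear_combination h2
        rw [← ha, ha1, one_smul]
      refine ⟨hall, ?_⟩
      have hle : pairs T c ≤ (T.filter (RelC Q)).card * Q^5 := by
        refine pairs_le_of T c (RelC Q) (Q^5) ?_ ?_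
        · intro U hU g hg hcon
          refine ⟨hU0 U hU g hg hcon, ?_⟩
          intro i
          have hgd := mem_SLset.1 hg
          have : g.mulVec (castv Q (U i) - castv Q (U 0)) = 0 := by
            rw [Matrix.mulVec_sub, hcon i, hcon 0, hall i, sub_self]
          exact sub_eq_zero.1 (mulVec_inj hgd this)
        · intro U hU g hg hcon
          have h0 : castv Q (U 0) ≠ 0 := by
            intro h0
            have := hcon 0
            rw [h0, Matrix.mulVec_zero] at this
            exact hne 0 this.symm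
          refine le_trans (Finset.card_le_card ?_) (fibre1 Q (castv Q (U 0)) (c 0) h0)
          intro g' hg'
          rw [Finset.mem_filter] at hg' ⊢
          exact ⟨hg'.1, hg'.2 0⟩
      have h1 : (pairs T c : ℝ) ≤ ((T.filter (RelC Q)).card : ℝ) * (Q : ℝ)^5 := by
        exact_mod_cast hle
      have hQ0 : (0 : ℝ) ≤ Q := Nat.cast_nonneg Q
      calc (pairs T c : ℝ) ≤ ((T.filter (RelC Q)).card : ℝ) * (Q : ℝ)^5 := h1
        _ = Q * (((T.filter (RelC Q)).card : ℝ) * (Q : ℝ)^4) := by ring
        _ ≤ Q * M := mul_le_mul_of_nonneg_left hC hQ0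
  · -- determinant non-zero
    left
    by_cases hex : ∃ U ∈ T, ∃ g ∈ SLset Q, ∀ i, g.mulVec (castv Q (U i)) = c i
    · obtain ⟨U₀, hU₀, g₀, hg₀, hcon₀⟩ := hex
      have hd := det_of_image hg₀ hcon₀
      have hd0 : Matrix.det (Matrix.of U₀) ≠ 0 := by
        intro h0
        rw [h0, Int.cast_zero] at hd
        exact hdet hd.symm
      have hle : pairs T c ≤ (T.filter
          (fun U => Matrix.det (Matrix.of U) = Matrix.det (Matrix.of U₀))).card * 1 := by
        refine pairs_le_of T c
          (fun U => Matrix.det (Matrix.of U) = Matrix.det (Matrix.of U₀)) 1 ?_ ?_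
        · intro U hU g hg hcon
          have h1 := det_of_image hg hcon
          rw [← hd] at h1
          have h2 : (((Matrix.det (Matrix.of U) - Matrix.det (Matrix.of U₀) : ℤ)) : ZMod Q)
              = 0 := by
            rw [Int.cast_sub, h1, sub_self]
          rw [ZMod.intCast_zmod_eq_zero_iff_dvd] at h2
          have h3 : Matrix.det (Matrix.of U) - Matrix.det (Matrix.of U₀) = 0 := by
            apply Int.eq_zero_of_abs_lt_dvd h2
            calc |Matrix.det (Matrix.of U) - Matrix.det (Matrix.of U₀)|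
                ≤ |Matrix.det (Matrix.of U)| + |Matrix.det (Matrix.of U₀)| := abs_sub _ _
              _ ≤ K + K := add_le_add (hT U hU) (hT U₀ hU₀)
              _ < Q := by linarith
          exact sub_eq_zero.1 h3
        · intro U hU g hg hcon
          apply fibre3 Q
          intro h0
          have h1 : ((Matrix.det (Matrix.of U) : ℤ) : ZMod Q) = 0 := by
            rw [← det_castv]; exact h0
          rw [det_of_image hg hcon] at h1
          exact hdet h1
      have h1 : (pairs T c : ℝ) ≤ ((T.filter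
          (fun U => Matrix.det (Matrix.of U) = Matrix.det (Matrix.of U₀))).card : ℝ) := by
        rw [mul_one] at hle
        exact_mod_cast hle
      exact le_trans h1 (hA _ hd0)
    · have : pairs T c = 0 := by
        unfold pairs
        apply Finset.sum_eq_zero
        intro U hU
        rw [Finset.card_eq_zero, Finset.filter_eq_empty_iff]
        intro g hg hcon
        exact hex ⟨U, hU, g, hg, hcon⟩
      rw [this]; simpa using hM

include hK hT in
open Classical in
/-- FIRST MOMENT BOUND (section 4 of note 10070). -/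
theorem firstMoment
    (hi : ∀ c : Fin 3 → Fin 3 → ZMod Q, (∀ i, c i ∈ C) → Function.Injective (fun i => lab (c i)) →
      ∀ d : ℤ, |d| ≤ K → Matrix.det (Matrix.of c) ≠ (d : ZMod Q))
    (hii : ∀ c : Fin 3 → Fin 3 → ZMod Q, (∀ i, c i ∈ C) →
      ¬ Function.Injective (fun i => lab (c i)) →
      ∀ l : Fin 3 → ZMod Q, (∑ i, l i • c i = 0) → ∑ i, l i = 0)
    (M : ℝ) (hM : 0 ≤ M)
    (hA : ∀ d : ℤ, d ≠ 0 → ((T.filter fun U => Matrix.det (Matrix.of U) = d).card : ℝ) ≤ M)
    (hB : ∀ l : Fin 3 → ZMod Q, ∑ i, l i = 0 →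
      ((T.filter fun U => RelB Q l U).card : ℝ) * (Q : ℝ)^2 ≤ M)
    (hC : ((T.filter fun U => RelC Q U).card : ℝ) * (Q : ℝ)^4 ≤ M) :
    (∑ g ∈ SLset Q, ((T.filter fun U => ∀ i, g.mulVec (castv Q (U i)) ∈ C).card : ℝ)) ≤
      (((Fintype.piFinset fun _ : Fin 3 => C).filter
        fun c => ¬ Function.Injective (fun i => lab (c i))).card : ℝ) * M
        + (C.card : ℝ) * (Q * M) := by
  have hQ0 : (0 : ℝ) ≤ Q := Nat.cast_nonneg Q
  set C3 := Fintype.piFinset fun _ : Fin 3 => C with hC3
  have h1 : ∀ g ∈ SLset Q, ((T.filter fun U => ∀ i, g.mulVec (castv Q (U i)) ∈ C).card : ℝ)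
      = ∑ c ∈ C3, ((T.filter fun U => ∀ i, g.mulVec (castv Q (U i)) = c i).card : ℝ) := by
    intro g _
    rw [Finset.card_eq_sum_card_fiberwise
      (f := fun (U : Fin 3 → Fin 3 → ℤ) => fun i => g.mulVec (castv Q (U i))) (t := C3)]
    · rw [Nat.cast_sum]
      apply Finset.sum_congr rfl
      intro c hc
      congr 2
      ext U
      simp only [Finset.mem_filter]
      constructor
      · rintro ⟨⟨hU, _⟩, h⟩
        exact ⟨hU, fun i => congrFun h i⟩
      · rintro ⟨hU, h⟩
        refine ⟨⟨hU, fun i => ?_⟩, funext h⟩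
        rw [h i]
        exact Fintype.mem_piFinset.1 hc i
    · intro U hU
      simp only [Finset.coe_filter, Set.mem_ofPred_eq] at hU
      simp only [hC3, Finset.mem_coe, Fintype.mem_piFinset]
      exact hU.2
  rw [Finset.sum_congr rfl h1, Finset.sum_comm]
  have h2 : ∀ c ∈ C3, ∑ g ∈ SLset Q,
      ((T.filter fun U => ∀ i, g.mulVec (castv Q (U i)) = c i).card : ℝ)
      = (pairs T c : ℝ) := by
    intro c _
    unfold pairs
    rw [← Nat.cast_sum]
    congr 1
    simp only [Finset.card_filter]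
    rw [Finset.sum_comm]
  rw [Finset.sum_congr rfl h2]
  rw [← Finset.sum_filter_add_sum_filter_not C3
    (fun c => ¬ Function.Injective (fun i => lab (c i)))]
  have h3 : ∑ c ∈ C3.filter (fun c => ¬ ¬ Function.Injective (fun i => lab (c i))),
      (pairs T c : ℝ) = 0 := by
    apply Finset.sum_eq_zero
    intro c hc
    rw [Finset.mem_filter, not_not] at hc
    rw [pairs_inj K C lab T hT hi c (Fintype.mem_piFinset.1 hc.1) hc.2, Nat.cast_zero]
  rw [h3, add_zero]
  have h4 : ∀ c ∈ C3.filter (fun c => ¬ Function.Injective (fun i => lab (c i))),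
      (pairs T c : ℝ) ≤ M + (if ∀ i, c i = c 0 then Q * M else 0) := by
    intro c hc
    rw [Finset.mem_filter] at hc
    have hQM : 0 ≤ (Q : ℝ) * M := mul_nonneg hQ0 hM
    rcases pairs_rep K hK C lab T hT hii M hM hA hB hC c (Fintype.mem_piFinset.1 hc.1) hc.2 with
      h | ⟨h, h'⟩
    · refine le_trans h (le_add_of_nonneg_right ?_)
      split_ifs
      · exact hQM
      · exact le_refl _
    · rw [if_pos h]
      exact le_trans h' (le_add_of_nonneg_left hM)
  refine le_trans (Finset.sum_le_sum h4) ?_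
  rw [Finset.sum_add_distrib, Finset.sum_const, nsmul_eq_mul]
  apply add_le_add_right
  rw [← Finset.sum_filter, Finset.sum_const, nsmul_eq_mul]
  apply mul_le_mul_of_nonneg_right _ (mul_nonneg hQ0 hM)
  norm_cast
  apply Finset.card_le_card_of_injOn (fun c => c 0)
  · intro c hc
    simp only [Finset.coe_filter, Finset.mem_filter, Set.mem_ofPred_eq] at hc
    exact Fintype.mem_piFinset.1 hc.1.1 0
  · intro c hc c' hc' h
    simp only [Finset.coe_filter, Finset.mem_filter, Set.mem_ofPred_eq] at hc hc'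
    funext i
    rw [hc.2 i, hc'.2 i]
    exact h

end Main

/-- number of triples with a repeated label -/
theorem card_rep_le (C : Finset (Fin 3 → ZMod Q)) {ι : Type} [DecidableEq ι]
    (lab : (Fin 3 → ZMod Q) → ι) (N : ℕ) (hN : ∀ t, (C.filter fun c => lab c = t).card ≤ N)
    [DecidablePred fun c : Fin 3 → Fin 3 → ZMod Q => ¬ Function.Injective (fun i => lab (c i))] :
    ((Fintype.piFinset fun _ : Fin 3 => C).filter
        fun c => ¬ Function.Injective (fun i => lab (c i))).card ≤ 3 * (C.card ^ 2 * N) := by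
  classical
  -- one pair of equal labels
  have key : ∀ i j k : Fin 3, i ≠ j → i ≠ k → j ≠ k →
      ((Fintype.piFinset fun _ : Fin 3 => C).filter fun c => lab (c i) = lab (c j)).card
        ≤ C.card ^ 2 * N := by
    intro i j k hij hik hjk
    have hk : ∀ a : Fin 3, a = i ∨ a = j ∨ a = k := by
      have h3 : ∀ i j k : Fin 3, i ≠ j → i ≠ k → j ≠ k →
        ∀ a : Fin 3, a = i ∨ a = j ∨ a = k := by decide
      exact h3 i j k hij hik hjk
    calc ((Fintype.piFinset fun _ : Fin 3 => C).filter fun c => lab (c i) = lab (c j)).card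
        ≤ ((C ×ˢ C).biUnion fun x => (C.filter fun y => lab y = lab x.1).image
            fun y => (x.1, x.2, y)).card := by
          apply Finset.card_le_card_of_injOn (fun c => (c i, c k, c j))
          · intro c hc
            simp only [Finset.coe_filter, Set.mem_ofPred_eq, Fintype.mem_piFinset] at hc
            simp only [Finset.coe_biUnion, Finset.coe_image, Set.mem_iUnion, Finset.mem_coe,
              Finset.mem_product, Set.mem_image, Finset.mem_filter]
            exact ⟨(c i, c k), ⟨hc.1 i, hc.1 k⟩, c j, ⟨hc.1 j, hc.2.symm⟩, rfl⟩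
          · intro c _ c' _ h
            simp only [Prod.mk.injEq] at h
            funext a
            rcases hk a with h1 | h1 | h1
            · rw [h1]; exact h.1
            · rw [h1]; exact h.2.2
            · rw [h1]; exact h.2.1
      _ ≤ (C ×ˢ C).card * N := by
          apply Finset.card_biUnion_le_card_mul
          intro x _
          exact le_trans Finset.card_image_le (hN _)
      _ = C.card ^ 2 * N := by rw [Finset.card_product]; ring
  have hsub : (Fintype.piFinset fun _ : Fin 3 => C).filter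
        (fun c => ¬ Function.Injective (fun i => lab (c i)))
      ⊆ ((Fintype.piFinset fun _ : Fin 3 => C).filter fun c => lab (c 0) = lab (c 1)) ∪
        (((Fintype.piFinset fun _ : Fin 3 => C).filter fun c => lab (c 0) = lab (c 2)) ∪
        ((Fintype.piFinset fun _ : Fin 3 => C).filter fun c => lab (c 1) = lab (c 2))) := by
    intro c hc
    rw [Finset.mem_filter] at hc
    obtain ⟨hc1, hc2⟩ := hc
    simp only [Finset.mem_union, Finset.mem_filter]
    by_contra hcon
    push Not at hcon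
    obtain ⟨h01, h02, h12⟩ := hcon
    have h01 := h01 hc1
    have h02 := h02 hc1
    have h12 := h12 hc1
    apply hc2
    intro a b hab
    simp only at hab
    fin_cases a <;> fin_cases b <;> simp_all
  refine le_trans (Finset.card_le_card hsub) ?_
  refine le_trans (Finset.card_union_le _ _) ?_
  refine le_trans (Nat.add_le_add_left (Finset.card_union_le _ _) _) ?_
  have h1 := key 0 1 2 (by decide) (by decide) (by decide)
  have h2 := key 0 2 1 (by decide) (by decide) (by decide)
  have h3 := key 1 2 0 (by decide) (by decide) (by decide)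
  omega

/-- bridge: affine independence by cross product implies the plain form used in `countB` -/
theorem aff_of_cross {U : Fin 3 → Fin 3 → ℤ}
    (h : crossProduct (U 1 - U 0) (U 2 - U 0) ≠ 0) :
    ∀ c : Fin 3 → ℤ, ∑ i, c i = 0 → (∀ j, ∑ i, c i * U i j = 0) → c = 0 := by
  intro c hc hU
  have hc0 : c 0 = -(c 1 + c 2) := by
    simp only [Fin.sum_univ_three] at hc
    linarith
  have hrel : ∀ j, c 1 * (U 1 j - U 0 j) + c 2 * (U 2 j - U 0 j) = 0 := by
    intro j
    have := hU j
    simp only [Fin.sum_univ_three] at this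
    rw [hc0] at this
    linarith
  set a := U 1 - U 0 with ha
  set b := U 2 - U 0 with hb
  have hrel' : ∀ j, c 1 * a j + c 2 * b j = 0 := fun j => by
    simpa [ha, hb] using hrel j
  have h1 : ∀ k, c 1 * crossProduct a b k = 0 := by
    intro k
    have h0 := hrel' 0
    have h1 := hrel' 1
    have h2 := hrel' 2
    fin_cases k
    · simp only [cross_apply, Fin.zero_eta, Fin.isValue, Matrix.cons_val_zero]
      linear_combination b 2 * h1 - b 1 * h2
    · simp only [cross_apply, Fin.mk_one, Fin.isValue, Matrix.cons_val_one, Matrix.cons_val_zero]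
      linear_combination b 0 * h2 - b 2 * h0
    · simp only [cross_apply, Fin.reduceFinMk, Fin.isValue, Matrix.cons_val]
      linear_combination b 1 * h0 - b 0 * h1
  have h2 : ∀ k, c 2 * crossProduct a b k = 0 := by
    intro k
    have h0 := hrel' 0
    have h1 := hrel' 1
    have h2 := hrel' 2
    fin_cases k
    · simp only [cross_apply, Fin.zero_eta, Fin.isValue, Matrix.cons_val_zero]
      linear_combination a 1 * h2 - a 2 * h1
    · simp only [cross_apply, Fin.mk_one, Fin.isValue, Matrix.cons_val_one, Matrix.cons_val_zero]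
      linear_combination a 2 * h0 - a 0 * h2
    · simp only [cross_apply, Fin.reduceFinMk, Fin.isValue, Matrix.cons_val]
      linear_combination a 0 * h1 - a 1 * h0
  obtain ⟨k, hk⟩ : ∃ k, crossProduct a b k ≠ 0 := by
    by_contra hcon
    push Not at hcon
    exact h (funext hcon)
  have e1 : c 1 = 0 := (mul_eq_zero.1 (h1 k)).resolve_right hk
  have e2 : c 2 = 0 := (mul_eq_zero.1 (h2 k)).resolve_right hk
  funext i
  fin_cases i
  · simp [hc0, e1, e2]
  · exact e1
  · exact e2

omit [Fact Q.Prime] in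
/-- bridge: type (C) pattern implies divisibility -/
theorem RelC.dvd {U : Fin 3 → Fin 3 → ℤ} (h : RelC Q U) (i j : Fin 3) :
    (Q : ℤ) ∣ U i j - U 0 j := by
  have h1 := congrFun (h.2 i) j
  rw [← ZMod.intCast_zmod_eq_zero_iff_dvd, Int.cast_sub]
  exact sub_eq_zero.2 h1

end Crest.Agent.R032.FM
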