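import Mathlib
import Crest.Agent.R032.Defs

-- ▼ part R032/Deletion
section

/-!
Row 32 (Heilbronn), section 6a of blueprint 10070: averaging and deletion.
-/

set_option autoImplicit false

namespace Crest.Agent.R032

open Finset

/-- The ordered bad triples of distinct points of `S`. -/
noncomputable def badTriples {α : Type*} (S : Finset α) (Bad : α → α → α → Prop) :
    Finset (α × α × α) := by
  classical
  exact (S ×ˢ S ×ˢ S).filter
    (fun t => t.1 ≠ t.2.1 ∧ t.1 ≠ t.2.2 ∧ t.2.1 ≠ t.2.2 ∧ Bad t.1 t.2.1 t.2.2)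

theorem mem_badTriples {α : Type*} {S : Finset α} {Bad : α → α → α → Prop} {t : α × α × α} :
    t ∈ badTriples S Bad ↔ (t.1 ∈ S ∧ t.2.1 ∈ S ∧ t.2.2 ∈ S) ∧
      (t.1 ≠ t.2.1 ∧ t.1 ≠ t.2.2 ∧ t.2.1 ≠ t.2.2 ∧ Bad t.1 t.2.1 t.2.2) := by
  classical
  unfold badTriples
  rw [mem_filter, mem_product, mem_product]

/-- Deterministic deletion: remove the first point of each bad triple. -/
theorem exists_delete {α : Type*} (S : Finset α) (Bad : α → α → α → Prop) :
    ∃ T ⊆ S, S.card ≤ T.card + (badTriples S Bad).card ∧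
      ∀ u ∈ T, ∀ v ∈ T, ∀ w ∈ T, u ≠ v → u ≠ w → v ≠ w → ¬ Bad u v w := by
  classical
  refine ⟨S \ (badTriples S Bad).image Prod.fst, sdiff_subset, ?_, ?_⟩
  · have h1 : S.card ≤ (S \ (badTriples S Bad).image Prod.fst).card
        + ((badTriples S Bad).image Prod.fst).card := by
      exact Finset.card_le_card_sdiff_add_card
    exact h1.trans (Nat.add_le_add_left card_image_le _)
  · intro u hu v hv w hw huv huw hvw hbad
    rw [mem_sdiff] at hu hv hw
    apply hu.2
    rw [mem_image]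
    exact ⟨(u, v, w), mem_badTriples.2 ⟨⟨hu.1, hv.1, hw.1⟩, huv, huw, hvw, hbad⟩, rfl⟩

/-- Averaging plus deletion over a finite sample space. -/
theorem exists_delete_avg {Ω α : Type*} [Fintype Ω] [Nonempty Ω] (S : Ω → Finset α)
    (Bad : α → α → α → Prop) (X : ℝ)
    (h : X * (Fintype.card Ω : ℝ) ≤ (∑ ω, ((S ω).card : ℝ)) - ∑ ω, ((badTriples (S ω) Bad).card : ℝ)) :
    ∃ ω, ∃ T ⊆ S ω, X ≤ (T.card : ℝ) ∧
      ∀ u ∈ T, ∀ v ∈ T, ∀ w ∈ T, u ≠ v → u ≠ w → v ≠ w → ¬ Bad u v w := by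
  classical
  have hex : ∃ ω, X ≤ ((S ω).card : ℝ) - ((badTriples (S ω) Bad).card : ℝ) := by
    by_contra hcon
    push Not at hcon
    have hlt : ∑ ω, (((S ω).card : ℝ) - ((badTriples (S ω) Bad).card : ℝ))
        < ∑ _ω : Ω, X := by
      refine sum_lt_sum_of_nonempty univ_nonempty (fun ω _ => hcon ω)
    rw [sum_sub_distrib, sum_const, card_univ, nsmul_eq_mul, mul_comm] at hlt
    linarith
  obtain ⟨ω, hω⟩ := hex
  obtain ⟨T, hTS, hcard, hT⟩ := exists_delete (S ω) Bad
  refine ⟨ω, T, hTS, ?_, hT⟩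
  have : ((S ω).card : ℝ) ≤ (T.card : ℝ) + ((badTriples (S ω) Bad).card : ℝ) := by
    exact_mod_cast hcard
  linarith

/-- The form used in the row: the bad triples are at most half of the points on average. -/
theorem exists_delete_half {Ω α : Type*} [Fintype Ω] [Nonempty Ω] (S : Ω → Finset α)
    (Bad : α → α → α → Prop) (M : ℝ)
    (hS : M * (Fintype.card Ω : ℝ) ≤ ∑ ω, ((S ω).card : ℝ))
    (hB : ∑ ω, ((badTriples (S ω) Bad).card : ℝ) ≤ (M / 2) * (Fintype.card Ω : ℝ)) :
    ∃ ω, ∃ T ⊆ S ω, M / 2 ≤ (T.card : ℝ) ∧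
      ∀ u ∈ T, ∀ v ∈ T, ∀ w ∈ T, u ≠ v → u ≠ w → v ≠ w → ¬ Bad u v w := by
  apply exists_delete_avg S Bad (M / 2)
  have : M / 2 * (Fintype.card Ω : ℝ) = M * (Fintype.card Ω : ℝ) - (M / 2) * (Fintype.card Ω : ℝ) := by
    ring
  rw [this]
  linarith

/-! ### Two independent sources of randomness -/

section TwoFold

variable {G H α : Type*} [Fintype G] [Fintype H]

/-- The pool for the pair `(g,h)`: points `u` of the box `B` with `A g u` and `E h u`. -/
noncomputable def pool (B : Finset α) (A : G → α → Prop) (E : H → α → Prop) (gh : G × H) :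
    Finset α := by
  classical
  exact B.filter (fun u => A gh.1 u ∧ E gh.2 u)

omit [Fintype G] [Fintype H] in
theorem mem_pool {B : Finset α} {A : G → α → Prop} {E : H → α → Prop} {gh : G × H} {u : α} :
    u ∈ pool B A E gh ↔ u ∈ B ∧ A gh.1 u ∧ E gh.2 u := by
  classical
  unfold pool
  rw [mem_filter]

open Classical in
/-- Expectation of the size: if every point `u` of the box satisfies `E h u` for exactly `a`
elements `h`, then the total size is `a` times the total size for `g`. -/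
theorem sum_card_pool (B : Finset α) (A : G → α → Prop) (E : H → α → Prop) (a : ℕ)
    (ha : ∀ u ∈ B, (univ.filter (fun h : H => E h u)).card = a) :
    ∑ gh : G × H, (pool B A E gh).card
      = a * ∑ g : G, (B.filter (fun u => A g u)).card := by
  have h1 : ∀ gh : G × H, (pool B A E gh).card
      = ∑ u ∈ B, if A gh.1 u ∧ E gh.2 u then 1 else 0 := by
    intro gh
    rw [← card_filter]
    congr 1
  simp_rw [h1]
  rw [Fintype.sum_prod_type]
  rw [mul_sum]
  refine sum_congr rfl (fun g _ => ?_)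
  simp only
  rw [sum_comm]
  have h2 : ∀ u ∈ B, (∑ h : H, if A g u ∧ E h u then 1 else 0)
      = if A g u then a else 0 := by
    intro u hu
    by_cases hA : A g u
    · simp only [hA, true_and, if_true]
      rw [← card_filter]
      exact ha u hu
    · simp [hA]
  rw [sum_congr rfl h2, ← sum_filter, sum_const, smul_eq_mul, mul_comm]

open Classical in
/-- Expectation of the number of bad triples: if every distinct triple of the box which is
`Bad` satisfies `E h` simultaneously for at most `b` elements `h`, then the number of bad triples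
is at most `b` times the number for `g`. Triples for which no `h` works can be discarded: `Rel`
is any property which must hold as soon as some `h` works. -/
theorem sum_bad_pool (B : Finset α) (A : G → α → Prop) (E : H → α → Prop)
    (Bad Rel : α → α → α → Prop) (b : ℕ)
    (hRel : ∀ u ∈ B, ∀ v ∈ B, ∀ w ∈ B, u ≠ v → u ≠ w → v ≠ w →
      ∀ h : H, E h u → E h v → E h w → Rel u v w)
    (hb : ∀ u ∈ B, ∀ v ∈ B, ∀ w ∈ B, u ≠ v → u ≠ w → v ≠ w → Rel u v w →
      (univ.filter (fun h : H => E h u ∧ E h v ∧ E h w)).card ≤ b) :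
    ∑ gh : G × H, (badTriples (pool B A E gh) Bad).card
      ≤ b * ∑ g : G, (badTriples (B.filter (fun u => A g u))
          (fun u v w => Rel u v w ∧ Bad u v w)).card := by
  rw [Fintype.sum_prod_type, mul_sum]
  refine sum_le_sum (fun g _ => ?_)
  -- count pairs (h, t)
  set T := badTriples (B.filter (fun u => A g u)) (fun u v w => Rel u v w ∧ Bad u v w) with hT
  have h1 : ∀ h : H, (badTriples (pool B A E (g, h)) Bad).card
      ≤ ∑ t ∈ T, if E h t.1 ∧ E h t.2.1 ∧ E h t.2.2 then 1 else 0 := by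
    intro h
    rw [← card_filter]
    refine card_le_card (fun t ht => ?_)
    obtain ⟨⟨hm1, hm2, hm3⟩, hd1, hd2, hd3, hbad⟩ := mem_badTriples.1 ht
    rw [mem_pool] at hm1 hm2 hm3
    rw [mem_filter, hT, mem_badTriples]
    refine ⟨⟨⟨mem_filter.2 ⟨hm1.1, hm1.2.1⟩, mem_filter.2 ⟨hm2.1, hm2.2.1⟩,
      mem_filter.2 ⟨hm3.1, hm3.2.1⟩⟩, hd1, hd2, hd3, ?_, hbad⟩, hm1.2.2, hm2.2.2, hm3.2.2⟩
    exact hRel _ hm1.1 _ hm2.1 _ hm3.1 hd1 hd2 hd3 h hm1.2.2 hm2.2.2 hm3.2.2
  calc ∑ h : H, (badTriples (pool B A E (g, h)) Bad).card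
      ≤ ∑ h : H, ∑ t ∈ T, (if E h t.1 ∧ E h t.2.1 ∧ E h t.2.2 then 1 else 0) :=
        sum_le_sum (fun h _ => h1 h)
    _ = ∑ t ∈ T, ∑ h : H, (if E h t.1 ∧ E h t.2.1 ∧ E h t.2.2 then 1 else 0) := sum_comm
    _ ≤ ∑ _t ∈ T, b := by
        refine sum_le_sum (fun t ht => ?_)
        rw [← card_filter]
        obtain ⟨⟨hm1, hm2, hm3⟩, hd1, hd2, hd3, hrel, _⟩ := mem_badTriples.1 ht
        exact hb _ (mem_filter.1 hm1).1 _ (mem_filter.1 hm2).1 _ (mem_filter.1 hm3).1
          hd1 hd2 hd3 hrel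
    _ = b * T.card := by rw [sum_const, smul_eq_mul, mul_comm]

/-- The complete probabilistic step: from the totals over `g` (bounds `SG` for the sizes, `BG`
for the bad triples) and the constants `a`, `b` for `h`. -/
theorem exists_pool [Nonempty G] [Nonempty H] (B : Finset α) (A : G → α → Prop)
    (E : H → α → Prop) (Bad Rel : α → α → α → Prop) (a b : ℕ)
    (ha : ∀ u ∈ B, (by classical exact (univ.filter (fun h : H => E h u)).card) = a)
    (hRel : ∀ u ∈ B, ∀ v ∈ B, ∀ w ∈ B, u ≠ v → u ≠ w → v ≠ w →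
      ∀ h : H, E h u → E h v → E h w → Rel u v w)
    (hb : ∀ u ∈ B, ∀ v ∈ B, ∀ w ∈ B, u ≠ v → u ≠ w → v ≠ w → Rel u v w →
      (by classical exact (univ.filter (fun h : H => E h u ∧ E h v ∧ E h w)).card) ≤ b)
    (SG BG : ℝ)
    (hSG : SG * (Fintype.card G : ℝ)
      ≤ ∑ g : G, ((by classical exact (B.filter (fun u => A g u)).card : ℕ) : ℝ))
    (hBG : ∑ g : G, ((by classical exact (badTriples (B.filter (fun u => A g u))
          (fun u v w => Rel u v w ∧ Bad u v w)).card : ℕ) : ℝ) ≤ BG * (Fintype.card G : ℝ))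
    (hmain : (b : ℝ) * BG ≤ (a : ℝ) * SG / 2) :
    ∃ g : G, ∃ h : H, ∃ T ⊆ B, (∀ u ∈ T, A g u ∧ E h u) ∧
      ((a : ℝ) / (Fintype.card H : ℝ)) * SG / 2 ≤ (T.card : ℝ) ∧
      ∀ u ∈ T, ∀ v ∈ T, ∀ w ∈ T, u ≠ v → u ≠ w → v ≠ w → ¬ Bad u v w := by
  classical
  have hH : (0 : ℝ) < (Fintype.card H : ℝ) := by exact_mod_cast Fintype.card_pos
  have hG : (0 : ℝ) < (Fintype.card G : ℝ) := by exact_mod_cast Fintype.card_pos
  have e1 := sum_card_pool (G := G) (H := H) B A E a (by
    intro u hu; simpa using ha u hu)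
  have e2 := sum_bad_pool (G := G) (H := H) B A E Bad Rel b hRel (by
    intro u hu v hv w hw h1 h2 h3 h4
    simpa using hb u hu v hv w hw h1 h2 h3 h4)
  have e1' : ∑ gh : G × H, ((pool B A E gh).card : ℝ)
      = (a : ℝ) * ∑ g : G, ((B.filter (fun u => A g u)).card : ℝ) := by exact_mod_cast e1
  have e2' : ∑ gh : G × H, ((badTriples (pool B A E gh) Bad).card : ℝ)
      ≤ (b : ℝ) * ∑ g : G, ((badTriples (B.filter (fun u => A g u))
          (fun u v w => Rel u v w ∧ Bad u v w)).card : ℝ) := by exact_mod_cast e2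
  have hcard : (Fintype.card (G × H) : ℝ) = (Fintype.card G : ℝ) * (Fintype.card H : ℝ) := by
    rw [Fintype.card_prod]; push_cast; ring
  have key := exists_delete_half (Ω := G × H) (fun gh => pool B A E gh) Bad
    (((a : ℝ) / (Fintype.card H : ℝ)) * SG) (by
      rw [hcard, e1']
      have : (a : ℝ) / (Fintype.card H : ℝ) * SG * ((Fintype.card G : ℝ) * (Fintype.card H : ℝ))
          = (a : ℝ) * (SG * (Fintype.card G : ℝ)) := by
        field_simp
      rw [this]
      refine mul_le_mul_of_nonneg_left ?_ (Nat.cast_nonneg a)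
      exact hSG) (by
      rw [hcard]
      refine e2'.trans ?_
      have h3 : (b : ℝ) * ∑ g : G, ((badTriples (B.filter (fun u => A g u))
          (fun u v w => Rel u v w ∧ Bad u v w)).card : ℝ)
          ≤ (b : ℝ) * (BG * (Fintype.card G : ℝ)) :=
        mul_le_mul_of_nonneg_left hBG (Nat.cast_nonneg b)
      refine h3.trans ?_
      have h4 : (a : ℝ) / (Fintype.card H : ℝ) * SG / 2
          * ((Fintype.card G : ℝ) * (Fintype.card H : ℝ))
          = ((a : ℝ) * SG / 2) * (Fintype.card G : ℝ) := by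
        field_simp
      rw [h4]
      have h5 : (b : ℝ) * (BG * (Fintype.card G : ℝ)) = ((b : ℝ) * BG) * (Fintype.card G : ℝ) := by
        ring
      rw [h5]
      exact mul_le_mul_of_nonneg_right hmain hG.le)
  obtain ⟨⟨g, h⟩, T, hTS, hcardT, hT⟩ := key
  refine ⟨g, h, T, ?_, ?_, hcardT, hT⟩
  · intro u hu
    exact (mem_pool.1 (hTS hu)).1
  · intro u hu
    exact (mem_pool.1 (hTS hu)).2

end TwoFold

end Crest.Agent.R032
end

-- ▼ part R032/CoreStep
section

/-!
Row 32 (Heilbronn), glue, part 1: choice of the density of the cap (helper441).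
-/

set_option autoImplicit false

namespace Crest.Agent.R032

open Finset

open Classical in
/-- The `P`-side in the form needed for the pool. -/
def HSide (W P e : ℕ) : Prop :=
  ∃ (H : Type) (_ : Fintype H) (_ : Nonempty H) (E : H → (Fin 3 → ℤ) → Prop),
    (∀ u : Fin 3 → ℤ, P ^ 3 * (univ.filter (fun h : H => E h u)).card = e * Fintype.card H) ∧
    (∀ u ∈ Box W, ∀ v ∈ Box W, ∀ w ∈ Box W, u ≠ v → u ≠ w → v ≠ w →
      ∀ h : H, E h u → E h v → E h w → crossProduct (v - u) (w - u) ≠ 0) ∧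
    (∀ u ∈ Box W, ∀ v ∈ Box W, ∀ w ∈ Box W, u ≠ v → u ≠ w → v ≠ w →
      (univ.filter (fun h : H => E h u ∧ E h v ∧ E h w)).card * P ^ 9
        ≤ 8 * e ^ 3 * Fintype.card H)

/-- for all admissible parameters -/
def HSideStmt : Prop :=
  ∀ W P e : ℕ, P.Prime → 2 < P → 2 * W < P → e ≤ P ^ 2 → HSide W P e

open Classical in
theorem core_step (hH : HSideStmt) {G : Type*} [Fintype G] [Nonempty G]
    (A : G → (Fin 3 → ℤ) → Prop) (W : ℕ) (hW : 0 < W)
    (Bad : (Fin 3 → ℤ) → (Fin 3 → ℤ) → (Fin 3 → ℤ) → Prop) (SG BG : ℝ)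
    (hSG0 : 0 < SG) (hBG0 : 0 < BG)
    (hSG : SG * (Fintype.card G : ℝ)
      ≤ ∑ g : G, (((Box W).filter (fun u => A g u)).card : ℝ))
    (hBG : ∑ g : G, ((badTriples ((Box W).filter (fun u => A g u))
          (fun u v w => crossProduct (v - u) (w - u) ≠ 0 ∧ Bad u v w)).card : ℝ)
        ≤ BG * (Fintype.card G : ℝ))
    (h1 : (W : ℝ) ^ 2 * SG ≤ BG) (h2 : BG ≤ 4 * (W : ℝ) ^ 6 * SG) :
    ∃ T ⊆ Box W, SG ^ 3 / (256 * BG) ≤ (T.card : ℝ) ^ 2 ∧
      ∀ u ∈ T, ∀ v ∈ T, ∀ w ∈ T, u ≠ v → u ≠ w → v ≠ w → ¬ Bad u v w := by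
  obtain ⟨P, hP, hP1, hP2⟩ := Nat.exists_prime_lt_and_le_two_mul (2 * W) (by omega)
  have hP3 : 2 < P := by omega
  have hWR : (0 : ℝ) < (W : ℝ) := by exact_mod_cast hW
  have hPR : (0 : ℝ) < (P : ℝ) := by exact_mod_cast hP.pos
  have hPlo : 2 * (W : ℝ) ≤ (P : ℝ) := by exact_mod_cast hP1.le
  have hPhi : (P : ℝ) ≤ 4 * (W : ℝ) := by
    have : P ≤ 4 * W := by omega
    exact_mod_cast this
  set x : ℝ := Real.sqrt ((P : ℝ) ^ 6 * SG / (16 * BG)) with hx
  have hx2 : x ^ 2 = (P : ℝ) ^ 6 * SG / (16 * BG) := by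
    rw [hx, Real.sq_sqrt (by positivity)]
  have hx0 : 0 ≤ x := Real.sqrt_nonneg _
  have hx1 : 1 ≤ x := by
    rw [hx]
    apply Real.one_le_sqrt.2
    rw [le_div_iff₀ (by positivity), one_mul]
    have h6 : (2 * (W : ℝ)) ^ 6 ≤ (P : ℝ) ^ 6 := by gcongr
    calc 16 * BG ≤ 16 * (4 * (W : ℝ) ^ 6 * SG) := by linarith
      _ = (2 * (W : ℝ)) ^ 6 * SG := by ring
      _ ≤ (P : ℝ) ^ 6 * SG := by gcongr
  have hxP : x ≤ (P : ℝ) ^ 2 := by
    have : x ^ 2 ≤ ((P : ℝ) ^ 2) ^ 2 := by
      rw [hx2, div_le_iff₀ (by positivity)]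
      have h3 : (P : ℝ) ^ 2 ≤ (4 * (W : ℝ)) ^ 2 := by gcongr
      calc (P : ℝ) ^ 6 * SG = ((P : ℝ) ^ 2) ^ 2 * ((P : ℝ) ^ 2 * SG) := by ring
        _ ≤ ((P : ℝ) ^ 2) ^ 2 * ((4 * (W : ℝ)) ^ 2 * SG) := by gcongr
        _ = ((P : ℝ) ^ 2) ^ 2 * (16 * ((W : ℝ) ^ 2 * SG)) := by ring
        _ ≤ ((P : ℝ) ^ 2) ^ 2 * (16 * BG) := by gcongr
    exact le_of_sq_le_sq this (by positivity)
  set e : ℕ := ⌊x⌋₊ with he
  have heP : e ≤ P ^ 2 := by
    have : (e : ℝ) ≤ (P : ℝ) ^ 2 := (Nat.floor_le hx0).trans hxP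
    exact_mod_cast this
  have hex : (e : ℝ) ≤ x := Nat.floor_le hx0
  have hxe : x ≤ 2 * (e : ℝ) := by
    have h3 : x < (e : ℝ) + 1 := Nat.lt_floor_add_one x
    have h4 : (1 : ℝ) ≤ (e : ℝ) := by
      have : 1 ≤ e := by
        rw [he]
        exact Nat.le_floor (by simpa using hx1)
      exact_mod_cast this
    linarith
  obtain ⟨H, hF, hN, E, hE1, hE2, hE3⟩ := hH W P e hP hP3 hP1 heP
  have hHpos : 0 < Fintype.card H := Fintype.card_pos
  have hHR : (0 : ℝ) < (Fintype.card H : ℝ) := by exact_mod_cast hHpos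
  set a : ℕ := (univ.filter (fun h : H => E h 0)).card with ha
  have haeq : ∀ u : Fin 3 → ℤ, (univ.filter (fun h : H => E h u)).card = a := by
    intro u
    have h3 := hE1 u
    have h4 := hE1 0
    have h5 : P ^ 3 * (univ.filter (fun h : H => E h u)).card = P ^ 3 * a := by
      rw [h3, ha, h4]
    exact Nat.eq_of_mul_eq_mul_left (pow_pos hP.pos 3) h5
  have haR : (P : ℝ) ^ 3 * (a : ℝ) = (e : ℝ) * (Fintype.card H : ℝ) := by
    have := hE1 0
    rw [← ha] at this
    exact_mod_cast this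
  set b : ℕ := 8 * e ^ 3 * Fintype.card H / P ^ 9 with hb
  have hbR : (b : ℝ) * (P : ℝ) ^ 9 ≤ 8 * (e : ℝ) ^ 3 * (Fintype.card H : ℝ) := by
    have : b * P ^ 9 ≤ 8 * e ^ 3 * Fintype.card H := Nat.div_mul_le_self _ _
    exact_mod_cast this
  have hmain : (b : ℝ) * BG ≤ (a : ℝ) * SG / 2 := by
    have hP9 : (0 : ℝ) < (P : ℝ) ^ 9 := by positivity
    rw [← mul_le_mul_iff_of_pos_right hP9]
    have h3 : (e : ℝ) ^ 2 ≤ (P : ℝ) ^ 6 * SG / (16 * BG) := by
      rw [← hx2]; gcongr
    have h4 : (e : ℝ) ^ 2 * (16 * BG) ≤ (P : ℝ) ^ 6 * SG := by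
      rwa [le_div_iff₀ (by positivity)] at h3
    calc (b : ℝ) * BG * (P : ℝ) ^ 9 = ((b : ℝ) * (P : ℝ) ^ 9) * BG := by ring
      _ ≤ (8 * (e : ℝ) ^ 3 * (Fintype.card H : ℝ)) * BG := by gcongr
      _ = ((e : ℝ) ^ 2 * (16 * BG)) * ((e : ℝ) * (Fintype.card H : ℝ)) / 2 := by ring
      _ ≤ ((P : ℝ) ^ 6 * SG) * ((e : ℝ) * (Fintype.card H : ℝ)) / 2 := by gcongr
      _ = ((P : ℝ) ^ 6 * SG) * ((P : ℝ) ^ 3 * (a : ℝ)) / 2 := by rw [haR]
      _ = (a : ℝ) * SG / 2 * (P : ℝ) ^ 9 := by ring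
  obtain ⟨g, h, T, hTB, hTA, hTcard, hT⟩ := exists_pool (G := G) (H := H) (Box W) A E Bad
    (fun u v w => crossProduct (v - u) (w - u) ≠ 0) a b
    (by
      intro u _
      have := haeq u
      convert this)
    (by
      intro u hu v hv w hw huv huw hvw h hu' hv' hw'
      exact hE2 u hu v hv w hw huv huw hvw h hu' hv' hw')
    (by
      intro u hu v hv w hw huv huw hvw _
      have h3 := hE3 u hu v hv w hw huv huw hvw
      have h4 : (univ.filter (fun h : H => E h u ∧ E h v ∧ E h w)).card ≤ b := by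
        rw [hb, Nat.le_div_iff_mul_le (pow_pos hP.pos 9)]
        exact h3
      convert h4)
    SG BG
    (by convert hSG)
    (by convert hBG)
    hmain
  refine ⟨T, hTB, ?_, hT⟩
  have hlow : (e : ℝ) / (P : ℝ) ^ 3 * SG / 2 ≤ (T.card : ℝ) := by
    have : (a : ℝ) / (Fintype.card H : ℝ) = (e : ℝ) / (P : ℝ) ^ 3 := by
      rw [div_eq_div_iff hHR.ne' (by positivity)]
      linarith
    rw [← this]
    exact hTcard
  have hlow2 : x / (2 * (P : ℝ) ^ 3) * SG / 2 ≤ (T.card : ℝ) := by
    refine le_trans ?_ hlow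
    have h5 : x / (2 * (P : ℝ) ^ 3) ≤ (e : ℝ) / (P : ℝ) ^ 3 := by
      rw [div_le_div_iff₀ (by positivity) (by positivity)]
      nlinarith [pow_pos hPR 3]
    gcongr
  have hnn : 0 ≤ x / (2 * (P : ℝ) ^ 3) * SG / 2 := by positivity
  calc SG ^ 3 / (256 * BG) = (x / (2 * (P : ℝ) ^ 3) * SG / 2) ^ 2 := by
        have : (x / (2 * (P : ℝ) ^ 3) * SG / 2) ^ 2 = x ^ 2 * SG ^ 2 / (16 * (P : ℝ) ^ 6) := by
          field_simp
          ring
        rw [this, hx2]
        field_simp
        ring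
    _ ≤ (T.card : ℝ) ^ 2 := by gcongr

end Crest.Agent.R032
end

-- ▼ part R032/Affine
section

/-!
Row 32 (Heilbronn), section 5 of blueprint 10070: random affine maps mod a prime `P`
and caps inside the elliptic paraboloid.  (helper558)
-/

set_option autoImplicit false

namespace Crest.Agent.R032

open Matrix Finset

/-- affine maps of `F_P^3` (linear part, translation) -/
abbrev AffH (P : ℕ) := Matrix (Fin 3) (Fin 3) (ZMod P) × (Fin 3 → ZMod P)

/-- invertible affine maps -/
def AffSet (P : ℕ) [Fact P.Prime] : Finset (AffH P) := Finset.univ.filter fun h => h.1.det ≠ 0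

/-- action -/
def AffH.act {P : ℕ} (h : AffH P) (u : Fin 3 → ZMod P) : Fin 3 → ZMod P := h.1.mulVec u + h.2

/-- no three distinct collinear points -/
def IsCap {P : ℕ} (E : Finset (Fin 3 → ZMod P)) : Prop :=
  ∀ x ∈ E, ∀ y ∈ E, ∀ z ∈ E, x ≠ y → x ≠ z → y ≠ z → crossProduct (y - x) (z - x) ≠ 0

lemma mem_affSet {P : ℕ} [Fact P.Prime] (h : AffH P) : h ∈ AffSet P ↔ h.1.det ≠ 0 := by
  simp [AffSet]

/-- the invertible matrices -/
def GLset (P : ℕ) [Fact P.Prime] : Finset (Matrix (Fin 3) (Fin 3) (ZMod P)) :=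
  Finset.univ.filter fun M => M.det ≠ 0

lemma affSet_eq (P : ℕ) [Fact P.Prime] : AffSet P = GLset P ×ˢ (Finset.univ : Finset (Fin 3 → ZMod P)) := by
  ext h
  simp [AffSet, GLset]

lemma card_vec (P : ℕ) [Fact P.Prime] : (Finset.univ : Finset (Fin 3 → ZMod P)).card = P ^ 3 := by
  simp [ZMod.card]

lemma card_affSet (P : ℕ) [Fact P.Prime] : (AffSet P).card = (GLset P).card * P ^ 3 := by
  rw [affSet_eq, Finset.card_product, card_vec]

lemma card_GLset (P : ℕ) [Fact P.Prime] :
    (GLset P).card = (P ^ 3 - 1) * (P ^ 3 - P) * (P ^ 3 - P ^ 2) := by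
  have h1 : Nat.card (GL (Fin 3) (ZMod P)) = (P ^ 3 - 1) * (P ^ 3 - P) * (P ^ 3 - P ^ 2) := by
    rw [Matrix.card_GL_field]
    simp [Fin.prod_univ_three, ZMod.card]
  rw [← h1]
  have e : GL (Fin 3) (ZMod P) ≃ {M : Matrix (Fin 3) (Fin 3) (ZMod P) // M ∈ GLset P} :=
    { toFun := fun g => ⟨g.1, by
        have : IsUnit (g.1 : Matrix (Fin 3) (Fin 3) (ZMod P)).det :=
          (Matrix.isUnit_iff_isUnit_det _).1 g.isUnit
        simpa [GLset] using this.ne_zero⟩
      invFun := fun M => Matrix.GeneralLinearGroup.mkOfDetNeZero M.1 (Finset.mem_filter.1 M.2).2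
      left_inv := fun g => by
        ext
        rfl
      right_inv := fun M => by
        rfl }
  rw [Nat.card_congr e]
  simp

theorem card_GLset_ge (P : ℕ) [hP : Fact P.Prime] : P ^ 9 ≤ 8 * (GLset P).card := by
  rw [card_GLset]
  have h2 : 2 ≤ P := hP.out.two_le
  have a1 : P ^ 3 ≤ 2 * (P ^ 3 - 1) := by
    have : 2 ≤ P ^ 3 := by nlinarith [Nat.pow_le_pow_left h2 3]
    omega
  have a2 : P ^ 3 ≤ 2 * (P ^ 3 - P) := by
    have : 2 * P ≤ P ^ 3 := by nlinarith [Nat.pow_le_pow_left h2 2, sq_nonneg P]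
    omega
  have a3 : P ^ 3 ≤ 2 * (P ^ 3 - P ^ 2) := by
    have : 2 * P ^ 2 ≤ P ^ 3 := by nlinarith [Nat.pow_le_pow_left h2 2, sq_nonneg P]
    omega
  calc P ^ 9 = P ^ 3 * P ^ 3 * P ^ 3 := by ring
    _ ≤ (2 * (P ^ 3 - 1)) * (2 * (P ^ 3 - P)) * (2 * (P ^ 3 - P ^ 2)) := by gcongr
    _ = 8 * ((P ^ 3 - 1) * (P ^ 3 - P) * (P ^ 3 - P ^ 2)) := by ring

theorem card_affSet_ge (P : ℕ) [Fact P.Prime] : P ^ 12 ≤ 8 * (AffSet P).card := by
  rw [card_affSet]
  calc P ^ 12 = P ^ 9 * P ^ 3 := by ring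
    _ ≤ (8 * (GLset P).card) * P ^ 3 := Nat.mul_le_mul_right _ (card_GLset_ge P)
    _ = 8 * ((GLset P).card * P ^ 3) := by ring

/-- (5a) each point is mapped uniformly -/
theorem card_act_mem (P : ℕ) [Fact P.Prime] (u : Fin 3 → ZMod P) (E : Finset (Fin 3 → ZMod P)) :
    P ^ 3 * ((AffSet P).filter fun h => h.act u ∈ E).card = (AffSet P).card * E.card := by
  have key : ((AffSet P).filter fun h => h.act u ∈ E).card = (GLset P).card * E.card := by
    rw [← Finset.card_product]
    refine Finset.card_bij' (fun h _ => (h.1, h.1.mulVec u + h.2))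
      (fun k _ => (k.1, k.2 - k.1.mulVec u)) ?_ ?_ ?_ ?_
    · intro h hh
      rw [Finset.mem_filter, mem_affSet] at hh
      rw [Finset.mem_product]
      exact ⟨by simpa [GLset] using hh.1, hh.2⟩
    · intro k hk
      rw [Finset.mem_product] at hk
      rw [Finset.mem_filter, mem_affSet]
      refine ⟨by simpa [GLset] using hk.1, ?_⟩
      have : k.1.mulVec u + (k.2 - k.1.mulVec u) = k.2 := by abel
      simp only [AffH.act]
      rw [this]
      exact hk.2
    · intro h _
      simp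
    · intro k _
      simp
  rw [key, card_affSet]
  ring

lemma act_sub {P : ℕ} (h : AffH P) (u v : Fin 3 → ZMod P) :
    h.act v - h.act u = h.1.mulVec (v - u) := by
  simp [AffH.act, Matrix.mulVec_sub]

lemma mulVec_inj {P : ℕ} [Fact P.Prime] {M : Matrix (Fin 3) (Fin 3) (ZMod P)} (hM : M.det ≠ 0)
    {u v : Fin 3 → ZMod P} (h : M.mulVec u = M.mulVec v) : u = v := by
  have : M.mulVec (u - v) = 0 := by rw [Matrix.mulVec_sub, h, sub_self]
  have := Matrix.eq_zero_of_mulVec_eq_zero hM this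
  exact sub_eq_zero.1 this

lemma act_ne {P : ℕ} [Fact P.Prime] {h : AffH P} (hh : h ∈ AffSet P) {u v : Fin 3 → ZMod P}
    (huv : u ≠ v) : h.act u ≠ h.act v := by
  intro he
  apply huv
  have : h.1.mulVec u = h.1.mulVec v := by
    simpa [AffH.act] using he
  exact mulVec_inj ((mem_affSet h).1 hh) this

/-- dependent vectors are proportional -/
lemma exists_smul_of_cross {P : ℕ} [Fact P.Prime] {a b : Fin 3 → ZMod P} (ha : a ≠ 0)
    (h : crossProduct a b = 0) : ∃ l : ZMod P, b = l • a := by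
  have h0 := congrFun h 0
  have h1 := congrFun h 1
  have h2 := congrFun h 2
  simp only [cross_apply, Matrix.cons_val_zero, Matrix.cons_val_one, Matrix.cons_val,
    Pi.zero_apply] at h0 h1 h2
  by_cases a0 : a 0 = 0
  · by_cases a1 : a 1 = 0
    · have a2 : a 2 ≠ 0 := by
        intro a2
        apply ha
        ext i
        fin_cases i <;> simp [a0, a1, a2]
      refine ⟨b 2 / a 2, ?_⟩
      ext i
      fin_cases i
      · simp only [Pi.smul_apply, smul_eq_mul, Fin.zero_eta, Fin.isValue]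
        field_simp
        rw [a0] at h1 ⊢
        linear_combination h1
      · simp only [Pi.smul_apply, smul_eq_mul, Fin.mk_one, Fin.isValue]
        field_simp
        linear_combination (-1 : ZMod P) * h0
      · simp only [Pi.smul_apply, smul_eq_mul, Fin.reduceFinMk, Fin.isValue]
        field_simp
    · refine ⟨b 1 / a 1, ?_⟩
      ext i
      fin_cases i
      · simp only [Pi.smul_apply, smul_eq_mul, Fin.zero_eta, Fin.isValue]
        field_simp
        linear_combination (-1 : ZMod P) * h2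
      · simp only [Pi.smul_apply, smul_eq_mul, Fin.mk_one, Fin.isValue]
        field_simp
      · simp only [Pi.smul_apply, smul_eq_mul, Fin.reduceFinMk, Fin.isValue]
        field_simp
        linear_combination h0
  · refine ⟨b 0 / a 0, ?_⟩
    ext i
    fin_cases i
    · simp only [Pi.smul_apply, smul_eq_mul, Fin.zero_eta, Fin.isValue]
      field_simp
    · simp only [Pi.smul_apply, smul_eq_mul, Fin.mk_one, Fin.isValue]
      field_simp
      linear_combination h2
    · simp only [Pi.smul_apply, smul_eq_mul, Fin.reduceFinMk, Fin.isValue]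
      field_simp
      linear_combination (-1 : ZMod P) * h1

lemma cross_self_smul {P : ℕ} (a : Fin 3 → ZMod P) (l : ZMod P) :
    crossProduct a (l • a) = 0 := by
  rw [map_smul, cross_self, smul_zero]

/-- (5c) three distinct collinear points never land in a cap -/
theorem cap_kills (P : ℕ) [Fact P.Prime] {E : Finset (Fin 3 → ZMod P)} (hE : IsCap E) {h : AffH P}
    (hh : h ∈ AffSet P) {u v w : Fin 3 → ZMod P} (huv : u ≠ v) (huw : u ≠ w) (hvw : v ≠ w)
    (hdep : crossProduct (v - u) (w - u) = 0) :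
    ¬ (h.act u ∈ E ∧ h.act v ∈ E ∧ h.act w ∈ E) := by
  rintro ⟨hu, hv, hw⟩
  refine hE _ hu _ hv _ hw (act_ne hh huv) (act_ne hh huw) (act_ne hh hvw) ?_
  rw [act_sub, act_sub]
  obtain ⟨l, hl⟩ := exists_smul_of_cross (sub_ne_zero.2 huv.symm) hdep
  rw [hl, Matrix.mulVec_smul, cross_self_smul]

/-- (5d) independent triples -/
theorem card_act_triple (P : ℕ) [Fact P.Prime] (E : Finset (Fin 3 → ZMod P))
    (u v w : Fin 3 → ZMod P) (hind : crossProduct (v - u) (w - u) ≠ 0) :
    ((AffSet P).filter fun h => h.act u ∈ E ∧ h.act v ∈ E ∧ h.act w ∈ E).card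
      ≤ E.card ^ 3 * P ^ 3 := by
  classical
  -- a third vector
  obtain ⟨i, hi⟩ : ∃ i, crossProduct (v - u) (w - u) i ≠ 0 := by
    by_contra hc
    push Not at hc
    exact hind (funext hc)
  set x : Fin 3 → ZMod P := Pi.single i 1 with hx
  set N : Matrix (Fin 3) (Fin 3) (ZMod P) := Matrix.of ![x, v - u, w - u] with hN
  have hdet : N.det ≠ 0 := by
    have : N.det = x ⬝ᵥ crossProduct (v - u) (w - u) := by
      rw [hN, triple_product_eq_det]
      rfl
    rw [this, hx, single_one_dotProduct]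
    exact hi
  have hcard : (E ×ˢ E ×ˢ E ×ˢ (Finset.univ : Finset (Fin 3 → ZMod P))).card
      = E.card ^ 3 * P ^ 3 := by
    rw [Finset.card_product, Finset.card_product, Finset.card_product, card_vec]
    ring
  rw [← hcard]
  refine Finset.card_le_card_of_injOn (fun h => (h.act u, h.act v, h.act w, h.1.mulVec x)) ?_ ?_
  · intro h hh
    simp only [Finset.coe_filter, Set.mem_ofPred_eq] at hh
    simp only [Finset.coe_product, Set.mem_prod, Finset.mem_coe, Finset.mem_univ, and_true]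
    exact hh.2
  · intro h hh k hk hhk
    simp only [Prod.mk.injEq] at hhk
    obtain ⟨e1, e2, e3, e4⟩ := hhk
    have f2 : h.1.mulVec (v - u) = k.1.mulVec (v - u) := by
      rw [← act_sub, ← act_sub, e1, e2]
    have f3 : h.1.mulVec (w - u) = k.1.mulVec (w - u) := by
      rw [← act_sub, ← act_sub, e1, e3]
    have hM : (h.1 - k.1) * Nᵀ = 0 := by
      ext r s
      have : ((h.1 - k.1) * Nᵀ) r s = ((h.1 - k.1).mulVec (N s)) r := by
        simp [Matrix.mul_apply, Matrix.mulVec, dotProduct]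
      rw [this]
      have : (h.1 - k.1).mulVec (N s) = 0 := by
        rw [Matrix.sub_mulVec]
        fin_cases s
        · exact sub_eq_zero.2 e4
        · exact sub_eq_zero.2 f2
        · exact sub_eq_zero.2 f3
      rw [this]
      rfl
    have hu : IsUnit (Nᵀ).det := by
      rw [Matrix.det_transpose]
      exact hdet.isUnit
    have hM0 : h.1 - k.1 = 0 := by
      have := congrArg (fun A => A * (Nᵀ)⁻¹) hM
      simpa [Matrix.mul_assoc, Matrix.mul_nonsing_inv _ hu] using this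
    have h1 : h.1 = k.1 := sub_eq_zero.1 hM0
    have h2 : h.2 = k.2 := by
      have : h.1.mulVec u + h.2 = k.1.mulVec u + k.2 := e1
      rw [h1] at this
      exact add_left_cancel this
    exact Prod.ext h1 h2

/-- combined (5c)+(5d)+(5e) for distinct residues -/
theorem card_triple_le (P : ℕ) [Fact P.Prime] {E : Finset (Fin 3 → ZMod P)} (hE : IsCap E)
    {u v w : Fin 3 → ZMod P} (huv : u ≠ v) (huw : u ≠ w) (hvw : v ≠ w) :
    ((AffSet P).filter fun h => h.act u ∈ E ∧ h.act v ∈ E ∧ h.act w ∈ E).card * P ^ 9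
      ≤ 8 * (AffSet P).card * E.card ^ 3 := by
  by_cases hc : crossProduct (v - u) (w - u) = 0
  · have : ((AffSet P).filter fun h => h.act u ∈ E ∧ h.act v ∈ E ∧ h.act w ∈ E) = ∅ := by
      rw [Finset.filter_eq_empty_iff]
      intro h hh
      exact cap_kills P hE hh huv huw hvw hc
    rw [this]
    simp
  · calc ((AffSet P).filter fun h => h.act u ∈ E ∧ h.act v ∈ E ∧ h.act w ∈ E).card * P ^ 9
        ≤ (E.card ^ 3 * P ^ 3) * P ^ 9 := Nat.mul_le_mul_right _ (card_act_triple P E u v w hc)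
      _ = P ^ 12 * E.card ^ 3 := by ring
      _ ≤ (8 * (AffSet P).card) * E.card ^ 3 := Nat.mul_le_mul_right _ (card_affSet_ge P)

/-! ### caps -/

/-- the elliptic paraboloid -/
def Parab (P : ℕ) [Fact P.Prime] (g : ZMod P) : Finset (Fin 3 → ZMod P) :=
  Finset.univ.filter fun v => v 0 = v 1 ^ 2 - g * v 2 ^ 2

lemma card_parab (P : ℕ) [Fact P.Prime] (g : ZMod P) : (Parab P g).card = P ^ 2 := by
  have : (Parab P g).card = (Finset.univ : Finset (Fin 2 → ZMod P)).card := by
    refine Finset.card_bij' (fun v _ => ![v 1, v 2])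
      (fun w _ => ![w 0 ^ 2 - g * w 1 ^ 2, w 0, w 1]) ?_ ?_ ?_ ?_
    · intro v _
      simp
    · intro w _
      simp [Parab]
    · intro v hv
      simp only [Parab, Finset.mem_filter, Finset.mem_univ, true_and] at hv
      ext i
      fin_cases i
      · simp [hv]
      · simp
      · simp
    · intro w _
      ext i
      fin_cases i <;> simp
  rw [this]
  simp [ZMod.card]

lemma isCap_parab (P : ℕ) [Fact P.Prime] (g : ZMod P) (hg : ¬ IsSquare g) : IsCap (Parab P g) := by
  intro x hx y hy z hz hxy hxz hyz hc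
  simp only [Parab, Finset.mem_filter, Finset.mem_univ, true_and] at hx hy hz
  obtain ⟨l, hl⟩ := exists_smul_of_cross (sub_ne_zero.2 hxy.symm) hc
  have l0 : l ≠ 0 := by
    rintro rfl
    rw [zero_smul, sub_eq_zero] at hl
    exact hxz hl.symm
  have l1 : l - 1 ≠ 0 := by
    intro h
    have : l = 1 := sub_eq_zero.1 h
    rw [this, one_smul] at hl
    exact hyz (sub_left_injective hl).symm
  set d0 := y 0 - x 0 with hd0
  set d1 := y 1 - x 1 with hd1
  set d2 := y 2 - x 2 with hd2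
  have z0 : z 0 = x 0 + l * d0 := by
    have := congrFun hl 0
    simp only [Pi.sub_apply, Pi.smul_apply, smul_eq_mul] at this
    linear_combination this
  have z1 : z 1 = x 1 + l * d1 := by
    have := congrFun hl 1
    simp only [Pi.sub_apply, Pi.smul_apply, smul_eq_mul] at this
    linear_combination this
  have z2 : z 2 = x 2 + l * d2 := by
    have := congrFun hl 2
    simp only [Pi.sub_apply, Pi.smul_apply, smul_eq_mul] at this
    linear_combination this
  have y0 : y 0 = x 0 + d0 := by rw [hd0]; ring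
  have y1 : y 1 = x 1 + d1 := by rw [hd1]; ring
  have y2 : y 2 = x 2 + d2 := by rw [hd2]; ring
  set A := 2 * x 1 * d1 - 2 * g * x 2 * d2 - d0 with hA
  set B := d1 ^ 2 - g * d2 ^ 2 with hB
  have e1 : A + B = 0 := by
    rw [y0, y1, y2] at hy
    rw [hA, hB]
    linear_combination hx - hy
  have e2 : l * A + l ^ 2 * B = 0 := by
    rw [z0, z1, z2] at hz
    rw [hA, hB]
    linear_combination hx - hz
  have e3 : A + l * B = 0 := by
    have : l * (A + l * B) = 0 := by linear_combination e2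
    exact (mul_eq_zero.1 this).resolve_left l0
  have B0 : B = 0 := by
    have : (l - 1) * B = 0 := by linear_combination e3 - e1
    exact (mul_eq_zero.1 this).resolve_left l1
  have A0 : A = 0 := by rw [B0, add_zero] at e1; exact e1
  have d20 : d2 = 0 := by
    by_contra h2
    apply hg
    refine ⟨d1 / d2, ?_⟩
    field_simp
    linear_combination (-1 : ZMod P) * B0
  have d10 : d1 = 0 := by
    have : d1 ^ 2 = 0 := by
      have := B0
      rw [hB, d20] at this
      linear_combination this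
    exact pow_eq_zero_iff (two_ne_zero) |>.1 this
  have d00 : d0 = 0 := by
    have := A0
    rw [hA, d10, d20] at this
    linear_combination (-1 : ZMod P) * this
  apply hxy
  ext i
  fin_cases i
  · simp only [Fin.zero_eta, Fin.isValue]
    rw [y0, d00, add_zero]
  · simp only [Fin.mk_one, Fin.isValue]
    rw [y1, d10, add_zero]
  · simp only [Fin.reduceFinMk, Fin.isValue]
    rw [y2, d20, add_zero]

lemma exists_nonsquare (P : ℕ) [Fact P.Prime] (hP : 2 < P) : ∃ g : ZMod P, ¬ IsSquare g := by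
  apply FiniteField.exists_nonsquare
  rw [ZMod.ringChar_zmod_n]
  omega

/-- (5b) caps of any size up to `P^2` -/
theorem exists_cap (P : ℕ) [Fact P.Prime] (hP : 2 < P) (s : ℕ) (hs : s ≤ P ^ 2) :
    ∃ E : Finset (Fin 3 → ZMod P), E.card = s ∧ IsCap E := by
  obtain ⟨g, hg⟩ := exists_nonsquare P hP
  rw [← card_parab P g] at hs
  obtain ⟨E, hE, hEc⟩ := Finset.exists_subset_card_eq hs
  refine ⟨E, hEc, ?_⟩
  intro x hx y hy z hz
  exact isCap_parab P g hg x (hE hx) y (hE hy) z (hE hz)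

/-! ### integer points -/

/-- reduction mod `P` of an integer point -/
def red (P : ℕ) (u : Fin 3 → ℤ) : Fin 3 → ZMod P := fun i => ((u i : ℤ) : ZMod P)

/-- integer points with coordinates differing by less than `P` are distinct mod `P` -/
lemma red_ne {P : ℕ} {u v : Fin 3 → ℤ} (hd : ∀ i, |u i - v i| < P) (h : u ≠ v) :
    red P u ≠ red P v := by
  intro he
  apply h
  ext i
  have h1 : ((u i : ℤ) : ZMod P) = ((v i : ℤ) : ZMod P) := congrFun he i
  have h2 : (P : ℤ) ∣ u i - v i := by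
    have := (ZMod.intCast_eq_intCast_iff_dvd_sub (v i) (u i) P).1 h1.symm
    exact this
  have h3 : u i - v i = 0 := Int.eq_zero_of_abs_lt_dvd h2 (hd i)
  linarith

/-- The final form used by the assembly: for integer points pairwise at coordinate distance `< P`,
the number of affine maps sending three distinct points into a cap. -/
theorem box_card_triple (P : ℕ) [Fact P.Prime] {E : Finset (Fin 3 → ZMod P)} (hE : IsCap E)
    {u v w : Fin 3 → ℤ} (duv : ∀ i, |u i - v i| < P) (duw : ∀ i, |u i - w i| < P)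
    (dvw : ∀ i, |v i - w i| < P) (huv : u ≠ v) (huw : u ≠ w) (hvw : v ≠ w) :
    ((AffSet P).filter fun h => h.act (red P u) ∈ E ∧ h.act (red P v) ∈ E ∧
        h.act (red P w) ∈ E).card * P ^ 9
      ≤ 8 * (AffSet P).card * E.card ^ 3 :=
  card_triple_le P hE (red_ne duv huv) (red_ne duw huw) (red_ne dvw hvw)

lemma red_cross (P : ℕ) (u v w : Fin 3 → ℤ) (h : crossProduct (v - u) (w - u) = 0) :
    crossProduct (red P v - red P u) (red P w - red P u) = 0 := by
  have h0 := congrFun h 0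
  have h1 := congrFun h 1
  have h2 := congrFun h 2
  simp only [cross_apply, Matrix.cons_val_zero, Matrix.cons_val_one, Matrix.cons_val,
    Pi.zero_apply, Pi.sub_apply] at h0 h1 h2
  ext i
  fin_cases i
  · simp only [cross_apply, Matrix.cons_val_zero, Fin.zero_eta, Pi.zero_apply, Pi.sub_apply, red]
    exact_mod_cast congrArg (Int.cast : ℤ → ZMod P) h0
  · simp only [cross_apply, Matrix.cons_val_one, Fin.mk_one, Pi.zero_apply, Pi.sub_apply, red]
    exact_mod_cast congrArg (Int.cast : ℤ → ZMod P) h1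
  · simp only [cross_apply, Matrix.cons_val, Fin.reduceFinMk, Pi.zero_apply, Pi.sub_apply, red]
    exact_mod_cast congrArg (Int.cast : ℤ → ZMod P) h2

/-- affinely dependent integer triples of distinct points are never mapped into a cap -/
theorem box_kills (P : ℕ) [Fact P.Prime] {E : Finset (Fin 3 → ZMod P)} (hE : IsCap E)
    {h : AffH P} (hh : h ∈ AffSet P)
    {u v w : Fin 3 → ℤ} (duv : ∀ i, |u i - v i| < P) (duw : ∀ i, |u i - w i| < P)
    (dvw : ∀ i, |v i - w i| < P) (huv : u ≠ v) (huw : u ≠ w) (hvw : v ≠ w)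
    (hdep : crossProduct (v - u) (w - u) = 0) :
    ¬ (h.act (red P u) ∈ E ∧ h.act (red P v) ∈ E ∧ h.act (red P w) ∈ E) :=
  cap_kills P hE hh (red_ne duv huv) (red_ne duw huw) (red_ne dvw hvw) (red_cross P u v w hdep)

end Crest.Agent.R032
end

-- ▼ part R032/HSide

/-!
Row 32 (Heilbronn), glue, part 2: the `P`-side from `Affine.lean` (helper441).
-/

set_option autoImplicit false

namespace Crest.Agent.R032

open Finset

theorem box_sub_lt {W : ℕ} {u v : Fin 3 → ℤ} (hu : u ∈ Box W) (hv : v ∈ Box W) (i : Fin 3) :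
    |u i - v i| < (W : ℤ) := by
  obtain ⟨⟨a1, a2⟩, ⟨a3, a4⟩, a5, a6⟩ := mem_Box.1 hu
  obtain ⟨⟨b1, b2⟩, ⟨b3, b4⟩, b5, b6⟩ := mem_Box.1 hv
  fin_cases i <;> simp only [Fin.zero_eta, Fin.mk_one, Fin.reduceFinMk] <;> rw [abs_lt] <;>
    constructor <;> linarith

open Classical in
theorem card_filter_sub {α : Type*} (S : Finset α) (p : α → Prop) :
    (univ.filter (fun h : {x // x ∈ S} => p h.1)).card = (S.filter p).card := by
  rw [← card_map (Function.Embedding.subtype _)]
  congr 1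
  ext x
  simp only [mem_map, mem_filter, mem_univ, true_and, Function.Embedding.coe_subtype,
    Subtype.exists, exists_and_left, exists_prop, exists_eq_right_right]
  tauto

theorem hSide_holds : HSideStmt := by
  classical
  intro W P e hP hP2 hWP he
  haveI : Fact P.Prime := ⟨hP⟩
  obtain ⟨E, hEc, hE⟩ := exists_cap P hP2 e he
  have hpos : 0 < (AffSet P).card := by
    have := card_affSet_ge P
    have h2 : 0 < P ^ 12 := pow_pos hP.pos 12
    omega
  obtain ⟨h0, hh0⟩ := card_pos.1 hpos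
  have hcard : Fintype.card {h : AffH P // h ∈ AffSet P} = (AffSet P).card := by
    simp
  refine ⟨{h : AffH P // h ∈ AffSet P}, inferInstance, ⟨⟨h0, hh0⟩⟩,
    fun h u => h.1.act (red P u) ∈ E, ?_, ?_, ?_⟩
  · intro u
    rw [hcard]
    have h1 := card_act_mem P (red P u) E
    rw [hEc, mul_comm (AffSet P).card] at h1
    have h2 := card_filter_sub (AffSet P) (fun h => h.act (red P u) ∈ E)
    rw [← h1]
    congr 1
    convert h2
  · intro u hu v hv w hw huv huw hvw h h1 h2 h3 hdep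
    have d : ∀ {a b : Fin 3 → ℤ}, a ∈ Box W → b ∈ Box W → ∀ i, |a i - b i| < (P : ℤ) := by
      intro a b ha hb i
      have := box_sub_lt ha hb i
      have h4 : (W : ℤ) ≤ P := by exact_mod_cast (by omega : W ≤ P)
      linarith
    exact box_kills P hE h.2 (d hu hv) (d hu hw) (d hv hw) huv huw hvw hdep ⟨h1, h2, h3⟩
  · intro u hu v hv w hw huv huw hvw
    rw [hcard]
    have d : ∀ {a b : Fin 3 → ℤ}, a ∈ Box W → b ∈ Box W → ∀ i, |a i - b i| < (P : ℤ) := by
      intro a b ha hb i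
      have := box_sub_lt ha hb i
      have h4 : (W : ℤ) ≤ P := by exact_mod_cast (by omega : W ≤ P)
      linarith
    have h1 := box_card_triple P hE (d hu hv) (d hu hw) (d hv hw) huv huw hvw
    have h2 := card_filter_sub (AffSet P)
      (fun h => h.act (red P u) ∈ E ∧ h.act (red P v) ∈ E ∧ h.act (red P w) ∈ E)
    rw [hEc] at h1
    calc _ = ((AffSet P).filter fun h => h.act (red P u) ∈ E ∧ h.act (red P v) ∈ E ∧
          h.act (red P w) ∈ E).card * P ^ 9 := by
          congr 1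
          convert h2
      _ ≤ 8 * (AffSet P).card * e ^ 3 := h1
      _ = _ := by ring

end Crest.Agent.R032
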