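import Crest.Agent.R032.PlanePts

set_option autoImplicit false

namespace Crest.Agent.R032

open Filter

/-- sections 1-5 of the proof together: for all primes `p ≥ p₀`, `Q ≥ p^C1` and multiples
`W ≥ Q^C2` of `Q` there are many integer points in the box all whose determinants are large. -/
def Core : Prop := ∃ C1 C2 : ℕ, ∃ c : ℝ, 0 < c ∧ ∃ p₀ : ℕ, ∀ p Q W : ℕ, p.Prime → Q.Prime →
  p₀ ≤ p → p ^ C1 ≤ Q → Q ∣ W → Q ^ C2 ≤ W → 0 < W → ∃ S : Finset (Fin 3 → ℤ),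
    (∀ u ∈ S, 0 ≤ u 0 ∧ u 0 < W ∧ 0 ≤ u 1 ∧ u 1 < W ∧ (W : ℤ) ≤ u 2 ∧ u 2 < 2 * W) ∧
    c * (p : ℝ) ^ 3 * (W : ℝ) ^ 3 / ((Q : ℝ) * ((Nat.log 2 W : ℝ) + 1)) ≤ (S.card : ℝ) ^ 2 ∧
    ∀ u ∈ S, ∀ v ∈ S, ∀ w ∈ S, u ≠ v → u ≠ w → v ≠ w →
      (Q : ℤ) < 2 * p * |Matrix.det (Matrix.of ![u, v, w])|

private lemma eventually_log (C : ℝ) (hC : 0 < C) (B : ℕ) (hB : 0 < B) :
    ∀ᶠ n : ℕ in atTop, 2 * Real.log (C * n) + 1 ≤ (n : ℝ) ^ ((1 : ℝ) / B) := by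
  have hB' : (0 : ℝ) < (1 : ℝ) / B := by positivity
  have h1 : (fun x : ℝ => 2 * Real.log (C * x) + 1) =o[atTop] fun x : ℝ => x ^ ((1 : ℝ) / B) := by
    have h2 := isLittleO_log_rpow_atTop hB'
    have h3 : (fun x : ℝ => (1 : ℝ)) =o[atTop] fun x : ℝ => x ^ ((1 : ℝ) / B) := by
      rw [Asymptotics.isLittleO_const_left]
      right
      exact (tendsto_norm_atTop_atTop.comp (tendsto_rpow_atTop hB'))
    have h4 : (fun x : ℝ => 2 * Real.log x + (2 * Real.log C + 1) * 1) =o[atTop]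
        fun x : ℝ => x ^ ((1 : ℝ) / B) := (h2.const_mul_left 2).add (h3.const_mul_left _)
    refine h4.congr' ?_ (EventuallyEq.refl _ _)
    filter_upwards [eventually_gt_atTop 0] with x hx
    rw [Real.log_mul hC.ne' hx.ne']
    ring
  have h5 := h1.bound (one_pos)
  have h6 : ∀ᶠ n : ℕ in atTop, ‖2 * Real.log (C * n) + 1‖ ≤ 1 * ‖(n : ℝ) ^ ((1 : ℝ) / B)‖ :=
    tendsto_natCast_atTop_atTop.eventually h5
  filter_upwards [h6] with n hn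
  rw [one_mul, Real.norm_of_nonneg (by positivity : (0 : ℝ) ≤ (n : ℝ) ^ ((1 : ℝ) / B))] at hn
  exact (le_abs_self _).trans hn

set_option maxHeartbeats 2000000 in
theorem core_final (h : Core) :
    ∃ η : ℝ, 0 < η ∧ ∃ c : ℝ, 0 < c ∧ ∃ n₀ : ℕ, ∀ n : ℕ, n₀ ≤ n →
      ∃ P : Finset (ℝ × ℝ), P.card = n ∧
        (∀ p ∈ P, 0 ≤ p.1 ∧ p.1 ≤ 1 ∧ 0 ≤ p.2 ∧ p.2 ≤ 1) ∧
        ∀ p ∈ P, ∀ q ∈ P, ∀ r ∈ P, p ≠ q → p ≠ r → q ≠ r →
          c * (n : ℝ) ^ (-2 + η) ≤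
            |(q.1 - p.1) * (r.2 - p.2) - (q.2 - p.2) * (r.1 - p.1)| / 2 := by
  classical
  obtain ⟨C1, C2, c, hc, p₀, H⟩ := h
  set B : ℕ := 2 + (C1 + 1) * (3 * C2 + 2) with hB
  have hBpos : 0 < B := by omega
  have hBR : (0 : ℝ) < B := by exact_mod_cast hBpos
  set C4 : ℝ := 8 * 2 ^ B / c with hC4
  have hC4pos : 0 < C4 := by positivity
  have hev1 := eventually_log (C4 + 1) (by positivity) B hBpos
  have hev2 : ∀ᶠ n : ℕ in atTop, (p₀ : ℝ) ≤ (n : ℝ) ^ ((1 : ℝ) / B) :=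
    (((tendsto_rpow_atTop (by positivity : (0 : ℝ) < (1 : ℝ) / B)).comp
      tendsto_natCast_atTop_atTop).eventually (eventually_ge_atTop (p₀ : ℝ)))
  have hev3 : ∀ᶠ n : ℕ in atTop, c * 2 ^ B ≤ (n : ℝ) :=
    tendsto_natCast_atTop_atTop.eventually (eventually_ge_atTop _)
  have hev4 : ∀ᶠ n : ℕ in atTop, 3 ≤ n := eventually_ge_atTop 3
  obtain ⟨n₀, hn₀⟩ := eventually_atTop.mp (hev1.and (hev2.and (hev3.and hev4)))
  refine ⟨1 / B, by positivity, c / 256, by positivity, n₀, ?_⟩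
  intro n hn
  obtain ⟨e1, e2, e3, e4⟩ := hn₀ n hn
  have hnR : (3 : ℝ) ≤ n := by exact_mod_cast e4
  have hnpos : (0 : ℝ) < n := by linarith
  set x : ℝ := (n : ℝ) ^ ((1 : ℝ) / B) with hx
  have hx1 : 1 ≤ x := Real.one_le_rpow (by linarith) (by positivity)
  have hxB : x ^ B = n := by
    rw [hx, ← Real.rpow_natCast, ← Real.rpow_mul hnpos.le]
    rw [one_div, inv_mul_cancel₀ hBR.ne', Real.rpow_one]
  -- the prime p
  set N : ℕ := ⌊x⌋₊ with hN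
  have hN1 : 1 ≤ N := Nat.le_floor (by simpa using hx1)
  obtain ⟨p, hp, hNp, hp2⟩ := Nat.exists_prime_lt_and_le_two_mul N (by omega)
  have hxp : x < p := (Nat.floor_lt (by linarith)).mp hNp
  have hpx : (p : ℝ) ≤ 2 * x := by
    have h1 : (p : ℝ) ≤ 2 * N := by exact_mod_cast hp2
    have h2 : (N : ℝ) ≤ x := Nat.floor_le (by linarith)
    linarith
  have hp₀ : p₀ ≤ p := by
    have : (p₀ : ℝ) ≤ p := by linarith
    exact_mod_cast this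
  have hpR : (0 : ℝ) < p := by linarith
  have hp1 : (1 : ℝ) ≤ p := by linarith
  -- the prime Q
  obtain ⟨Q, hQ, hpQ, hQ2⟩ := Nat.exists_prime_lt_and_le_two_mul (p ^ C1)
    (pow_pos hp.pos _).ne'
  have hQR : (0 : ℝ) < Q := by exact_mod_cast hQ.pos
  have hQ1 : (1 : ℝ) ≤ Q := by exact_mod_cast hQ.one_lt.le
  have h2x : (1 : ℝ) ≤ 2 * x := by linarith
  have hQx : (Q : ℝ) ≤ (2 * x) ^ (C1 + 1) := by
    calc (Q : ℝ) ≤ 2 * (p : ℝ) ^ C1 := by exact_mod_cast hQ2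
      _ ≤ (2 * x) * (2 * x) ^ C1 := by
          apply mul_le_mul (by linarith) (pow_le_pow_left₀ hpR.le hpx _) (by positivity)
            (by positivity)
      _ = (2 * x) ^ (C1 + 1) := by ring
  have hmain : (p : ℝ) ^ 2 * (Q : ℝ) ^ (3 * C2 + 2) ≤ 2 ^ B * n := by
    calc (p : ℝ) ^ 2 * (Q : ℝ) ^ (3 * C2 + 2)
        ≤ (2 * x) ^ 2 * ((2 * x) ^ (C1 + 1)) ^ (3 * C2 + 2) := by
          apply mul_le_mul (pow_le_pow_left₀ hpR.le hpx _) (pow_le_pow_left₀ hQR.le hQx _)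
            (by positivity) (by positivity)
      _ = (2 * x) ^ B := by rw [← pow_mul, ← pow_add]
      _ = 2 ^ B * n := by rw [mul_pow, hxB]
  -- the ratio
  set R : ℝ := (n : ℝ) ^ 2 / (c * (p : ℝ) ^ 2 * (Q : ℝ) ^ 2) with hR
  have hden : (0 : ℝ) < c * (p : ℝ) ^ 2 * (Q : ℝ) ^ 2 := by positivity
  have hRpos : 0 < R := by positivity
  have hR3 : ((Q : ℝ) ^ C2) ^ 3 ≤ R := by
    rw [hR, le_div_iff₀ hden]
    calc ((Q : ℝ) ^ C2) ^ 3 * (c * (p : ℝ) ^ 2 * (Q : ℝ) ^ 2)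
        = c * ((p : ℝ) ^ 2 * (Q : ℝ) ^ (3 * C2 + 2)) := by ring
      _ ≤ c * (2 ^ B * n) := mul_le_mul_of_nonneg_left hmain hc.le
      _ = (c * 2 ^ B) * n := by ring
      _ ≤ n * n := mul_le_mul_of_nonneg_right e3 hnpos.le
      _ = (n : ℝ) ^ 2 := by ring
  set y : ℝ := R ^ ((1 : ℝ) / 3) with hy
  have hy3 : y ^ 3 = R := by
    rw [hy, ← Real.rpow_natCast, ← Real.rpow_mul hRpos.le]
    norm_num
  have hypos : 0 < y := Real.rpow_pos_of_pos hRpos _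
  have hyQ : (Q : ℝ) ^ C2 ≤ y := by
    have : ((Q : ℝ) ^ C2) ^ 3 ≤ y ^ 3 := by rw [hy3]; exact hR3
    exact le_of_pow_le_pow_left₀ (by norm_num) hypos.le this
  have hy1 : 1 ≤ y := (one_le_pow₀ hQ1).trans hyQ
  set m : ℕ := ⌈y⌉₊ with hm
  have hmy : y ≤ m := Nat.le_ceil y
  have hmy2 : (m : ℝ) ≤ 2 * y := by
    have := Nat.ceil_lt_add_one hypos.le
    rw [← hm] at this
    linarith
  have hmpos : (0 : ℝ) < m := by linarith
  have hm3 : (m : ℝ) ^ 3 ≤ 8 * R := by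
    calc (m : ℝ) ^ 3 ≤ (2 * y) ^ 3 := pow_le_pow_left₀ hmpos.le hmy2 3
      _ = 8 * R := by rw [mul_pow, hy3]; norm_num
  have hm3' : R ≤ (m : ℝ) ^ 3 := by
    rw [← hy3]; exact pow_le_pow_left₀ hypos.le hmy 3
  set W : ℕ := Q * m with hW
  have hWpos : 0 < W := by
    have : 0 < m := by exact_mod_cast hmpos
    exact Nat.mul_pos hQ.pos this
  have hWR : (W : ℝ) = Q * m := by rw [hW]; push_cast; ring
  have hWR0 : (0 : ℝ) < W := by exact_mod_cast hWpos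
  have hQW : Q ^ C2 ≤ W := by
    have h1 : (Q : ℝ) ^ C2 ≤ W := by
      rw [hWR]
      calc (Q : ℝ) ^ C2 ≤ m := hyQ.trans hmy
        _ ≤ Q * m := by nlinarith
    exact_mod_cast h1
  have hQn : (Q : ℝ) ≤ 2 ^ B * n := by
    refine le_trans ?_ hmain
    have h1 : (Q : ℝ) ≤ (Q : ℝ) ^ (3 * C2 + 2) := by
      calc (Q : ℝ) = (Q : ℝ) ^ 1 := (pow_one _).symm
        _ ≤ _ := pow_le_pow_right₀ hQ1 (by omega)
    have h2 : (1 : ℝ) ≤ (p : ℝ) ^ 2 := one_le_pow₀ hp1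
    nlinarith
  have hW3 : (W : ℝ) ^ 3 ≤ ((C4 + 1) * n) ^ 3 := by
    calc (W : ℝ) ^ 3 = (Q : ℝ) ^ 3 * (m : ℝ) ^ 3 := by rw [hWR]; ring
      _ ≤ (Q : ℝ) ^ 3 * (8 * R) := mul_le_mul_of_nonneg_left hm3 (by positivity)
      _ = 8 / c * (n : ℝ) ^ 2 * Q / (p : ℝ) ^ 2 := by
          rw [hR]; field_simp
      _ ≤ 8 / c * (n : ℝ) ^ 2 * Q := div_le_self (by positivity) (one_le_pow₀ hp1)
      _ ≤ 8 / c * (n : ℝ) ^ 2 * (2 ^ B * n) := mul_le_mul_of_nonneg_left hQn (by positivity)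
      _ = C4 * (n : ℝ) ^ 3 := by rw [hC4]; ring
      _ ≤ (C4 + 1) ^ 3 * (n : ℝ) ^ 3 := by
          apply mul_le_mul_of_nonneg_right _ (by positivity)
          have h1 : C4 + 1 ≤ (C4 + 1) ^ 3 := le_self_pow₀ (by linarith) (by norm_num)
          linarith
      _ = ((C4 + 1) * n) ^ 3 := by ring
  have hWn : (W : ℝ) ≤ (C4 + 1) * n := le_of_pow_le_pow_left₀ (by norm_num) (by positivity) hW3
  have hL : ((Nat.log 2 W : ℝ) + 1) ≤ p := by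
    have h1 : (Nat.log 2 W : ℝ) ≤ Real.logb 2 W := by
      have h2 : ((2 : ℝ)) ^ (Nat.log 2 W) ≤ W := by
        exact_mod_cast Nat.pow_log_le_self 2 hWpos.ne'
      rw [Real.le_logb_iff_rpow_le (by norm_num) hWR0, Real.rpow_natCast]
      exact h2
    have h3 : Real.logb 2 W ≤ 2 * Real.log ((C4 + 1) * n) := by
      rw [Real.logb, div_le_iff₀ (Real.log_pos (by norm_num))]
      have h4 : Real.log W ≤ Real.log ((C4 + 1) * n) := Real.log_le_log hWR0 hWn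
      have h5 : (1 : ℝ) / 2 ≤ Real.log 2 := by
        have := Real.log_two_gt_d9; linarith
      have h6 : 0 ≤ Real.log ((C4 + 1) * n) := Real.log_nonneg (by nlinarith)
      nlinarith
    linarith
  have hLpos : (0 : ℝ) < (Nat.log 2 W : ℝ) + 1 := by positivity
  obtain ⟨S, hSbox, hScard, hSdet⟩ := H p Q W hp hQ hp₀ hpQ.le (Dvd.intro _ hW.symm) hQW hWpos
  have hcard : n ≤ S.card := by
    have h1 : (n : ℝ) ^ 2 ≤ (S.card : ℝ) ^ 2 := by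
      refine le_trans ?_ hScard
      rw [le_div_iff₀ (by positivity)]
      calc (n : ℝ) ^ 2 * ((Q : ℝ) * ((Nat.log 2 W : ℝ) + 1))
          ≤ (n : ℝ) ^ 2 * ((Q : ℝ) * p) := by gcongr
        _ = c * (p : ℝ) ^ 3 * (Q : ℝ) ^ 3 * R := by rw [hR]; field_simp
        _ ≤ c * (p : ℝ) ^ 3 * (Q : ℝ) ^ 3 * (m : ℝ) ^ 3 := by gcongr
        _ = c * (p : ℝ) ^ 3 * (W : ℝ) ^ 3 := by rw [hWR]; ring
    have h2 : (n : ℝ) ≤ S.card := by
      exact le_of_pow_le_pow_left₀ (by norm_num) (by positivity) h1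
    exact_mod_cast h2
  obtain ⟨S', hS', hS'card⟩ := Finset.exists_subset_card_eq hcard
  have hKdet : ∀ u ∈ S', ∀ v ∈ S', ∀ w ∈ S', u ≠ v → u ≠ w → v ≠ w →
      (Q : ℝ) / (2 * p) < |((Matrix.det (Matrix.of ![u, v, w]) : ℤ) : ℝ)| := by
    intro u hu v hv w hw h1 h2 h3
    have h4 := hSdet u (hS' hu) v (hS' hv) w (hS' hw) h1 h2 h3
    have h5 : (Q : ℝ) < 2 * p * |((Matrix.det (Matrix.of ![u, v, w]) : ℤ) : ℝ)| := by
      exact_mod_cast h4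
    rw [div_lt_iff₀ (by positivity)]
    linarith
  obtain ⟨P, hPcard, hPbox, hParea⟩ := plane_points W hWpos ((Q : ℝ) / (2 * p)) (by positivity) S'
    (by omega) (fun u hu => hSbox u (hS' hu)) hKdet
  refine ⟨P, by rw [hPcard, hS'card], hPbox, ?_⟩
  intro a ha b hb d hd hab had hbd
  refine le_trans ?_ (hParea a ha b hb d hd hab had hbd)
  rw [le_div_iff₀ (by positivity), le_div_iff₀ (by positivity)]
  have hpow : (n : ℝ) ^ (-2 + 1 / (B : ℝ)) = x / (n : ℝ) ^ 2 := by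
    rw [Real.rpow_add hnpos, ← hx, Real.rpow_neg hnpos.le]
    norm_num
    ring
  rw [hpow]
  calc c / 256 * (x / (n : ℝ) ^ 2) * (16 * (W : ℝ) ^ 3) * (2 * p)
      = c * x * p * (Q : ℝ) ^ 3 * (m : ℝ) ^ 3 / (8 * (n : ℝ) ^ 2) := by
        rw [hWR]; ring
    _ ≤ c * x * p * (Q : ℝ) ^ 3 * (8 * R) / (8 * (n : ℝ) ^ 2) := by gcongr
    _ = Q * (x / p) := by rw [hR]; field_simp
    _ ≤ Q * 1 := by
        apply mul_le_mul_of_nonneg_left _ hQR.le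
        rw [div_le_one hpR]; exact hxp.le
    _ = Q := mul_one _



end Crest.Agent.R032
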