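import Mathlib
import Crest.Agent.R032.RDefs
import Crest.Agent.R032.HSide
import Crest.Agent.R032.Params
import Crest.Agent.R032.FirstMom

-- ▼ part R032/CoreGlue
section

/-!
Row 32 (Heilbronn), glue, part 3: `RealStmt → GSideStmt → Core` (helper441).
-/

set_option autoImplicit false

namespace Crest.Agent.R032

open Finset

/-- bad determinant -/
def BadDet (p Q : ℕ) (u v w : Fin 3 → ℤ) : Prop :=
  2 * (p : ℤ) * |Matrix.det (Matrix.of ![u, v, w])| ≤ Q

open Classical in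
/-- The `Q`-side: to be proved from FirstMom, SL3, CountA, CountB, CountC. -/
def GSideStmt : Prop :=
  ∃ C : ℝ, 0 < C ∧ ∀ (p Q N : ℕ) (x y z : Fin (p ^ 3) → ℤ), p.Prime → Q.Prime →
    LabSet p Q N x y z → ∀ W : ℕ, 0 < W → Q ∣ W →
      ∃ (G : Type) (_ : Fintype G) (_ : Nonempty G) (A : G → (Fin 3 → ℤ) → Prop),
        (∀ g, ((Box W).filter (fun u => A g u)).card = p ^ 3 * N * (W / Q) ^ 3) ∧
        (∑ g : G, ((badTriples ((Box W).filter (fun u => A g u))
          (fun u v w => crossProduct (v - u) (w - u) ≠ 0 ∧ BadDet p Q u v w)).card : ℝ)) *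
            (Q : ℝ) ^ 8
          ≤ C * (p : ℝ) ^ 6 * (N : ℝ) ^ 3 * (W : ℝ) ^ 6 * ((Nat.log 2 W : ℝ) + 1) *
            (Fintype.card G : ℝ)

theorem core_of (hR : RealStmt) (hG : GSideStmt) : Core := by
  classical
  obtain ⟨A₀, hA₀⟩ := hR
  obtain ⟨C₀, hC₀, hG⟩ := hG
  set C : ℝ := max C₀ 1 with hC
  have hC1 : 1 ≤ C := le_max_right _ _
  have hCpos : 0 < C := by linarith
  refine ⟨A₀ + 3, 8, 1 / (256 * C), by positivity, max 4 ⌈C⌉₊, ?_⟩
  intro p Q W hp hQ hp₀ hpQ hQW hQ8 hW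
  have hp4 : 4 ≤ p := le_trans (le_max_left _ _) hp₀
  have hpC : C ≤ (p : ℝ) := by
    have h1 : ⌈C⌉₊ ≤ p := le_trans (le_max_right _ _) hp₀
    exact (Nat.le_ceil C).trans (by exact_mod_cast h1)
  have hp1 : 1 ≤ p := by omega
  have hpA : p ^ A₀ ≤ Q := le_trans (Nat.pow_le_pow_right hp1 (by omega)) hpQ
  have hp3 : p ^ 3 ≤ Q := le_trans (Nat.pow_le_pow_right hp1 (by omega)) hpQ
  obtain ⟨N, x, y, z, hL⟩ := hA₀ p hp (by omega) Q hpA
  obtain ⟨G, hF, hN, A, h1, h2⟩ := hG p Q N x y z hp hQ hL W hW hQW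
  -- real numbers
  have hQpos : 0 < Q := hQ.pos
  have hNpos : 0 < N := hL.N_pos
  have hpR : (4 : ℝ) ≤ (p : ℝ) := by exact_mod_cast hp4
  have hpR0 : (0 : ℝ) < (p : ℝ) := by linarith
  have hQR : (0 : ℝ) < (Q : ℝ) := by exact_mod_cast hQpos
  have hWR : (0 : ℝ) < (W : ℝ) := by exact_mod_cast hW
  have hNR : (0 : ℝ) < (N : ℝ) := by exact_mod_cast hNpos
  have hNQ : (N : ℝ) ≤ (Q : ℝ) := by exact_mod_cast hL.N_le
  have hp3Q : (p : ℝ) ^ 3 ≤ (Q : ℝ) := by exact_mod_cast hp3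
  have hpQ' : (p : ℝ) ≤ (Q : ℝ) := by
    refine le_trans ?_ hp3Q
    nlinarith [sq_nonneg ((p : ℝ))]
  have hQ1 : (1 : ℝ) ≤ (Q : ℝ) := by exact_mod_cast hQpos
  have hN1 : (1 : ℝ) ≤ (N : ℝ) := by exact_mod_cast hNpos
  have hQ8R : (Q : ℝ) ^ 8 ≤ (W : ℝ) := by exact_mod_cast hQ8
  set L : ℝ := (Nat.log 2 W : ℝ) + 1 with hLdef
  have hL1 : 1 ≤ L := by
    have : (0 : ℝ) ≤ (Nat.log 2 W : ℝ) := Nat.cast_nonneg _
    linarith
  have hLW : L ≤ (W : ℝ) := by
    have h3 : Nat.log 2 W < W := Nat.log_lt_of_lt_pow hW.ne' (Nat.lt_two_pow_self)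
    have h4 : Nat.log 2 W + 1 ≤ W := h3
    rw [hLdef]
    exact_mod_cast h4
  have hLpos : 0 < L := by linarith
  set SG : ℝ := (p : ℝ) ^ 3 * N * W ^ 3 / Q ^ 3 with hSGdef
  set BG : ℝ := C * (p : ℝ) ^ 6 * (N : ℝ) ^ 3 * (W : ℝ) ^ 6 * L / (Q : ℝ) ^ 8 with hBGdef
  have hSG0 : 0 < SG := by positivity
  have hBG0 : 0 < BG := by positivity
  have hGR : (0 : ℝ) < (Fintype.card G : ℝ) := by exact_mod_cast Fintype.card_pos
  have hSG : SG * (Fintype.card G : ℝ) ≤ ∑ g : G, (((Box W).filter (fun u => A g u)).card : ℝ) := by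
    have h3 : ∀ g : G, (((Box W).filter (fun u => A g u)).card : ℝ) = SG := by
      intro g
      rw [h1 g]
      obtain ⟨k, rfl⟩ := hQW
      rw [Nat.mul_div_cancel_left _ hQpos, hSGdef]
      push_cast
      field_simp
    rw [sum_congr rfl (fun g _ => h3 g), sum_const, card_univ, nsmul_eq_mul, mul_comm]
  have hBG : ∑ g : G, ((badTriples ((Box W).filter (fun u => A g u))
          (fun u v w => crossProduct (v - u) (w - u) ≠ 0 ∧ BadDet p Q u v w)).card : ℝ)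
        ≤ BG * (Fintype.card G : ℝ) := by
    have h3 : BG * (Fintype.card G : ℝ) = (C * (p : ℝ) ^ 6 * (N : ℝ) ^ 3 * (W : ℝ) ^ 6 * L *
        (Fintype.card G : ℝ)) / (Q : ℝ) ^ 8 := by
      rw [hBGdef]; ring
    rw [h3, le_div_iff₀ (by positivity)]
    refine h2.trans ?_
    have h4 : C₀ ≤ C := le_max_left _ _
    gcongr
  have hcond1 : (W : ℝ) ^ 2 * SG ≤ BG := by
    rw [hSGdef, hBGdef, le_div_iff₀ (by positivity)]
    have e1 : (W : ℝ) ^ 2 * ((p : ℝ) ^ 3 * N * W ^ 3 / Q ^ 3) * (Q : ℝ) ^ 8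
        = ((p : ℝ) ^ 3 * N * W ^ 5) * (Q : ℝ) ^ 5 := by
      field_simp
    rw [e1]
    have e2 : (Q : ℝ) ^ 5 ≤ (W : ℝ) := by
      refine le_trans ?_ hQ8R
      exact pow_le_pow_right₀ hQ1 (by norm_num)
    have e3 : (1 : ℝ) ≤ (p : ℝ) ^ 3 := one_le_pow₀ (by linarith)
    have e4 : (1 : ℝ) ≤ (N : ℝ) ^ 2 := one_le_pow₀ hN1
    calc ((p : ℝ) ^ 3 * N * W ^ 5) * (Q : ℝ) ^ 5 ≤ ((p : ℝ) ^ 3 * N * W ^ 5) * W := by gcongr
      _ = (1 * 1 * 1 * 1) * ((p : ℝ) ^ 3 * N * W ^ 6) := by ring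
      _ ≤ (C * (p : ℝ) ^ 3 * (N : ℝ) ^ 2 * L) * ((p : ℝ) ^ 3 * N * W ^ 6) := by gcongr
      _ = C * (p : ℝ) ^ 6 * (N : ℝ) ^ 3 * (W : ℝ) ^ 6 * L := by ring
  have hcond2 : BG ≤ 4 * (W : ℝ) ^ 6 * SG := by
    rw [hSGdef, hBGdef, div_le_iff₀ (by positivity)]
    have e1 : 4 * (W : ℝ) ^ 6 * ((p : ℝ) ^ 3 * N * W ^ 3 / Q ^ 3) * (Q : ℝ) ^ 8
        = (4 * Q ^ 5 * W ^ 3) * ((p : ℝ) ^ 3 * N * W ^ 6) := by
      field_simp
    rw [e1]
    have e2 : C * (p : ℝ) ^ 3 * (N : ℝ) ^ 2 * L ≤ 4 * (Q : ℝ) ^ 5 * (W : ℝ) ^ 3 := by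
      have e3 : (1 : ℝ) ≤ (W : ℝ) := by exact_mod_cast hW
      calc C * (p : ℝ) ^ 3 * (N : ℝ) ^ 2 * L ≤ Q * Q * (Q : ℝ) ^ 2 * W := by
            have : C ≤ (Q : ℝ) := hpC.trans hpQ'
            gcongr
        _ = 1 * ((Q : ℝ) ^ 4 * 1) * (W * 1) := by ring
        _ ≤ 4 * ((Q : ℝ) ^ 4 * Q) * (W * W ^ 2) := by
            have : (1 : ℝ) ≤ (W : ℝ) ^ 2 := one_le_pow₀ e3
            gcongr
            norm_num
        _ = 4 * (Q : ℝ) ^ 5 * (W : ℝ) ^ 3 := by ring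
    calc C * (p : ℝ) ^ 6 * (N : ℝ) ^ 3 * (W : ℝ) ^ 6 * L
        = (C * (p : ℝ) ^ 3 * (N : ℝ) ^ 2 * L) * ((p : ℝ) ^ 3 * N * W ^ 6) := by ring
      _ ≤ (4 * Q ^ 5 * W ^ 3) * ((p : ℝ) ^ 3 * N * W ^ 6) := by gcongr
  obtain ⟨T, hTB, hTc, hT⟩ := core_step hSide_holds A W hW (BadDet p Q) SG BG hSG0 hBG0
    hSG hBG hcond1 hcond2
  refine ⟨T, ?_, ?_, ?_⟩
  · intro u hu
    obtain ⟨⟨a1, a2⟩, ⟨a3, a4⟩, a5, a6⟩ := mem_Box.1 (hTB hu)
    exact ⟨a1, a2, a3, a4, a5, a6⟩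
  · refine le_trans (le_of_eq ?_) hTc
    rw [hSGdef, hBGdef]
    field_simp
  · intro u hu v hv w hw huv huw hvw
    have := hT u hu v hv w hw huv huw hvw
    unfold BadDet at this
    exact not_le.1 this

end Crest.Agent.R032
end

-- ▼ part R032/Sums
section

/-!
Row 32 (S0042), section 3 of note 10070: dyadic sums `∑ 1 / H(ν)^3` over integer vectors.
-/

set_option autoImplicit false

namespace Crest.Agent.R032

/-- The height of an integer vector. -/
def H (ν : Fin 3 → ℤ) : ℕ := Finset.univ.sup fun i => (ν i).natAbs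

theorem natAbs_le_H (ν : Fin 3 → ℤ) (i : Fin 3) : (ν i).natAbs ≤ H ν :=
  Finset.le_sup (f := fun i => (ν i).natAbs) (Finset.mem_univ i)

theorem abs_le_H (ν : Fin 3 → ℤ) (i : Fin 3) : |ν i| ≤ (H ν : ℤ) := by
  have := natAbs_le_H ν i
  rw [Int.abs_eq_natAbs]
  exact_mod_cast this

theorem H_le_iff {ν : Fin 3 → ℤ} {n : ℕ} : H ν ≤ n ↔ ∀ i, (ν i).natAbs ≤ n := by
  unfold H
  simp [Finset.sup_le_iff]

theorem H_lt_iff {ν : Fin 3 → ℤ} {n : ℕ} (hn : 0 < n) : H ν < n ↔ ∀ i, (ν i).natAbs < n := by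
  unfold H
  rw [Finset.sup_lt_iff (by simpa using hn)]
  simp

theorem H_pos {ν : Fin 3 → ℤ} (h : ν ≠ 0) : 0 < H ν := by
  rcases Nat.eq_zero_or_pos (H ν) with h0 | h0
  · exfalso
    apply h
    funext i
    have := natAbs_le_H ν i
    rw [h0] at this
    simpa using this
  · exact h0

/-- Dyadic summation. -/
theorem dyadic {ι : Type*} (s : Finset ι) (h : ι → ℕ) (T : ℕ) (A : ℝ)
    (hpos : ∀ x ∈ s, 0 < h x) (hT : ∀ x ∈ s, h x ≤ T)
    (hA : ∀ k : ℕ, ((s.filter fun x => 2 ^ k ≤ h x ∧ h x < 2 ^ (k + 1)).card : ℝ) ≤ A * 8 ^ k) :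
    ∑ x ∈ s, (1 : ℝ) / (h x : ℝ) ^ 3 ≤ A * ((Nat.log 2 T : ℝ) + 1) := by
  classical
  have hmaps : ∀ x ∈ s, Nat.log 2 (h x) ∈ Finset.range (Nat.log 2 T + 1) := by
    intro x hx
    rw [Finset.mem_range]
    have := Nat.log_mono_right (b := 2) (hT x hx)
    omega
  rw [← Finset.sum_fiberwise_of_maps_to hmaps]
  have hle : ∀ k ∈ Finset.range (Nat.log 2 T + 1),
      ∑ x ∈ s with Nat.log 2 (h x) = k, (1 : ℝ) / (h x : ℝ) ^ 3 ≤ A := by
    intro k _
    have h1 : ∀ x ∈ s.filter (fun x => Nat.log 2 (h x) = k),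
        (1 : ℝ) / (h x : ℝ) ^ 3 ≤ 1 / 8 ^ k := by
      intro x hx
      rw [Finset.mem_filter] at hx
      have hx0 := hpos x hx.1
      have hpow : 2 ^ k ≤ h x := by
        rw [← hx.2]
        exact Nat.pow_log_le_self 2 (by omega)
      have hpow' : (2 : ℝ) ^ k ≤ (h x : ℝ) := by exact_mod_cast hpow
      have h8 : (8 : ℝ) ^ k ≤ (h x : ℝ) ^ 3 := by
        calc (8 : ℝ) ^ k = ((2 : ℝ) ^ k) ^ 3 := by
              rw [← pow_mul, mul_comm, pow_mul]; norm_num
          _ ≤ _ := by gcongr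
      exact one_div_le_one_div_of_le (by positivity) h8
    calc ∑ x ∈ s with Nat.log 2 (h x) = k, (1 : ℝ) / (h x : ℝ) ^ 3
        ≤ ∑ x ∈ s with Nat.log 2 (h x) = k, (1 : ℝ) / 8 ^ k := Finset.sum_le_sum h1
      _ = ((s.filter fun x => Nat.log 2 (h x) = k).card : ℝ) * (1 / 8 ^ k) := by
          rw [Finset.sum_const, nsmul_eq_mul]
      _ ≤ (A * 8 ^ k) * (1 / 8 ^ k) := by
          gcongr
          refine le_trans ?_ (hA k)
          have : s.filter (fun x => Nat.log 2 (h x) = k) ⊆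
              s.filter (fun x => 2 ^ k ≤ h x ∧ h x < 2 ^ (k + 1)) := by
            intro x hx
            rw [Finset.mem_filter] at hx ⊢
            refine ⟨hx.1, ?_⟩
            have hx0 := hpos x hx.1
            exact (Nat.log_eq_iff (Or.inr ⟨by norm_num, by omega⟩)).1 hx.2
          exact_mod_cast Finset.card_le_card this
      _ = A := by field_simp
  calc ∑ k ∈ Finset.range (Nat.log 2 T + 1),
        ∑ x ∈ s with Nat.log 2 (h x) = k, (1 : ℝ) / (h x : ℝ) ^ 3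
      ≤ ∑ k ∈ Finset.range (Nat.log 2 T + 1), A := Finset.sum_le_sum hle
    _ = A * ((Nat.log 2 T : ℝ) + 1) := by
        rw [Finset.sum_const, Finset.card_range, nsmul_eq_mul]
        push_cast
        ring

/-- The box of integer vectors of height `< n`. -/
theorem card_box_le (n : ℕ) (hn : 0 < n) (s : Finset (Fin 3 → ℤ)) (hs : ∀ ν ∈ s, H ν < n) :
    s.card ≤ (2 * n - 1) ^ 3 := by
  classical
  have hsub : s ⊆ Fintype.piFinset (fun _ : Fin 3 => Finset.Ioo (-(n : ℤ)) n) := by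
    intro ν hν
    rw [Fintype.mem_piFinset]
    intro i
    have := (H_lt_iff hn).1 (hs ν hν) i
    rw [Finset.mem_Ioo]
    omega
  refine (Finset.card_le_card hsub).trans ?_
  rw [Fintype.card_piFinset]
  simp only [Int.card_Ioo, Finset.prod_const, Finset.card_univ, Fintype.card_fin]
  apply Nat.pow_le_pow_left
  omega

theorem S1 (T : ℕ) (s : Finset (Fin 3 → ℤ)) (hs : ∀ ν ∈ s, ν ≠ 0 ∧ H ν ≤ T) :
    ∑ ν ∈ s, (1 : ℝ) / (H ν : ℝ) ^ 3 ≤ 64 * ((Nat.log 2 T : ℝ) + 1) := by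
  refine dyadic s H T 64 (fun ν hν => H_pos (hs ν hν).1) (fun ν hν => (hs ν hν).2) ?_
  intro k
  have h1 := card_box_le (2 ^ (k + 1)) (by positivity)
    (s.filter fun x => 2 ^ k ≤ H x ∧ H x < 2 ^ (k + 1))
    (fun ν hν => (Finset.mem_filter.1 hν).2.2)
  have h2 : (2 * 2 ^ (k + 1) - 1) ^ 3 ≤ (4 * 2 ^ k) ^ 3 := by
    apply Nat.pow_le_pow_left
    rw [pow_succ]
    omega
  have h3 : (4 * 2 ^ k) ^ 3 = 64 * 8 ^ k := by
    rw [mul_pow, ← pow_mul, mul_comm k 3, pow_mul]; norm_num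
  have h4 := h1.trans (h2.trans_eq h3)
  exact_mod_cast h4

/-- Integers in `(-n, n)` in a fixed residue class mod `Q`. -/
theorem card_residue_le (Q n : ℕ) (hQ : 0 < Q) (r : ZMod Q) :
    (((Finset.Ioo (-(n : ℤ)) n).filter fun x : ℤ => (x : ZMod Q) = r).card : ℝ)
      ≤ 2 * n / Q + 1 := by
  have : NeZero Q := ⟨hQ.ne'⟩
  have hr : ((r.val : ℤ) : ZMod Q) = r := by simp
  have heq : ((Finset.Ioo (-(n : ℤ)) n).filter fun x : ℤ => (x : ZMod Q) = r) ⊆
      ((Finset.Ico (-(n : ℤ)) n).filter fun x : ℤ => x ≡ (r.val : ℤ) [ZMOD (Q : ℤ)]) := by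
    intro x hx
    rw [Finset.mem_filter, Finset.mem_Ioo] at hx
    rw [Finset.mem_filter, Finset.mem_Ico]
    refine ⟨⟨hx.1.1.le, hx.1.2⟩, ?_⟩
    rw [← ZMod.intCast_eq_intCast_iff, hr]
    exact hx.2
  have h1 : ((((Finset.Ico (-(n : ℤ)) n).filter fun x : ℤ => x ≡ (r.val : ℤ) [ZMOD (Q : ℤ)]).card : ℤ) : ℝ)
      ≤ 2 * n / Q + 1 := by
    rw [Int.Ico_filter_modEq_card _ _ (by exact_mod_cast hQ)]
    have hQ' : (0 : ℝ) < Q := by exact_mod_cast hQ
    rw [Int.cast_max]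
    apply max_le
    · push_cast
      have e1 : (⌈((n : ℤ) - (r.val : ℤ) : ℚ) / ((Q : ℤ) : ℚ)⌉ : ℝ) < ((n : ℝ) - r.val) / Q + 1 := by
        have := Int.ceil_lt_add_one (((n : ℤ) - (r.val : ℤ) : ℚ) / ((Q : ℤ) : ℚ))
        have h' : ((⌈((n : ℤ) - (r.val : ℤ) : ℚ) / ((Q : ℤ) : ℚ)⌉ : ℚ) : ℝ) < ((((n : ℤ) - (r.val : ℤ) : ℚ) / ((Q : ℤ) : ℚ) + 1 : ℚ) : ℝ) := by
          exact_mod_cast this
        push_cast at h'
        simpa using h'
      have e2 : ((-(n : ℝ)) - r.val) / Q ≤ (⌈((-(n : ℤ) : ℤ) - (r.val : ℤ) : ℚ) / ((Q : ℤ) : ℚ)⌉ : ℝ) := by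
        have := Int.le_ceil ((((-(n : ℤ) : ℤ) : ℚ) - (r.val : ℤ) : ℚ) / ((Q : ℤ) : ℚ))
        have h' : ((((((-(n : ℤ) : ℤ) : ℚ) - (r.val : ℤ) : ℚ) / ((Q : ℤ) : ℚ)) : ℚ) : ℝ) ≤ ((⌈(((-(n : ℤ) : ℤ) : ℚ) - (r.val : ℤ) : ℚ) / ((Q : ℤ) : ℚ)⌉ : ℚ) : ℝ) := by
          exact_mod_cast this
        push_cast at h'
        simpa using h'
      have e3 : ((n : ℝ) - r.val) / Q + 1 - ((-(n : ℝ)) - r.val) / Q = 2 * n / Q + 1 := by
        field_simp
        ring
      push_cast at e1 e2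
      linarith
    · push_cast
      positivity
  refine le_trans ?_ h1
  have := Finset.card_le_card heq
  push_cast
  exact_mod_cast this

theorem S2 (Q : ℕ) (hQ : 0 < Q) (lam : Fin 3 → ZMod Q) (T : ℕ) (s : Finset (Fin 3 → ℤ))
    (hs : ∀ ν ∈ s, Q ≤ 3 * H ν ∧ H ν ≤ T ∧ ∃ c : ZMod Q, ∀ i, (ν i : ZMod Q) = c * lam i) :
    ∑ ν ∈ s, (1 : ℝ) / (H ν : ℝ) ^ 3 ≤ 1000 / (Q : ℝ) ^ 2 * ((Nat.log 2 T : ℝ) + 1) := by
  classical
  have : NeZero Q := ⟨hQ.ne'⟩
  have hQ' : (0 : ℝ) < Q := by exact_mod_cast hQ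
  refine dyadic s H T (1000 / (Q : ℝ) ^ 2) (fun ν hν => ?_) (fun ν hν => (hs ν hν).2.1) ?_
  · have := (hs ν hν).1
    omega
  intro k
  set n : ℕ := 2 ^ (k + 1) with hn
  by_cases hsmall : 3 * n ≤ Q
  · have : s.filter (fun x => 2 ^ k ≤ H x ∧ H x < 2 ^ (k + 1)) = ∅ := by
      rw [Finset.filter_eq_empty_iff]
      intro ν hν h
      have := (hs ν hν).1
      omega
    rw [this]
    simp only [Finset.card_empty, Nat.cast_zero]
    positivity
  push Not at hsmall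
  -- the union over the residue multipliers
  let box : ZMod Q → Finset (Fin 3 → ℤ) := fun c =>
    Fintype.piFinset (fun i : Fin 3 => (Finset.Ioo (-(n : ℤ)) n).filter
      fun x : ℤ => (x : ZMod Q) = c * lam i)
  have hsub : s.filter (fun x => 2 ^ k ≤ H x ∧ H x < 2 ^ (k + 1)) ⊆
      (Finset.univ : Finset (ZMod Q)).biUnion box := by
    intro ν hν
    rw [Finset.mem_filter] at hν
    obtain ⟨-, -, c, hc⟩ := hs ν hν.1
    rw [Finset.mem_biUnion]
    refine ⟨c, Finset.mem_univ _, ?_⟩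
    rw [Fintype.mem_piFinset]
    intro i
    have h1 := (H_lt_iff (by positivity)).1 hν.2.2 i
    rw [Finset.mem_filter, Finset.mem_Ioo]
    refine ⟨?_, hc i⟩
    omega
  have hbox : ∀ c, ((box c).card : ℝ) ≤ (5 * n / Q) ^ 3 := by
    intro c
    rw [Fintype.card_piFinset]
    push_cast
    have hone : ∀ i : Fin 3, (((Finset.Ioo (-(n : ℤ)) n).filter
        fun x : ℤ => (x : ZMod Q) = c * lam i).card : ℝ) ≤ 5 * n / Q := by
      intro i
      refine (card_residue_le Q n hQ (c * lam i)).trans ?_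
      have h3 : (Q : ℝ) ≤ 3 * n := by exact_mod_cast hsmall.le
      rw [div_add_one hQ'.ne']
      gcongr
      linarith
    calc ∏ i : Fin 3, (((Finset.Ioo (-(n : ℤ)) n).filter
        fun x : ℤ => (x : ZMod Q) = c * lam i).card : ℝ)
        ≤ ∏ i : Fin 3, (5 * n / Q : ℝ) :=
          Finset.prod_le_prod (fun i _ => Nat.cast_nonneg _) (fun i _ => hone i)
      _ = _ := by rw [Finset.prod_const, Finset.card_univ, Fintype.card_fin]
  have hcard : ((s.filter fun x => 2 ^ k ≤ H x ∧ H x < 2 ^ (k + 1)).card : ℝ)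
      ≤ ∑ c : ZMod Q, ((box c).card : ℝ) := by
    have h1 := (Finset.card_le_card hsub).trans Finset.card_biUnion_le
    exact_mod_cast h1
  have h8 : (n : ℝ) ^ 3 = 8 * 8 ^ k := by
    rw [hn]
    push_cast
    rw [← pow_mul, mul_comm (k + 1) 3, pow_mul, pow_succ]
    norm_num
    ring
  calc ((s.filter fun x => 2 ^ k ≤ H x ∧ H x < 2 ^ (k + 1)).card : ℝ)
      ≤ ∑ c : ZMod Q, ((box c).card : ℝ) := hcard
    _ ≤ ∑ c : ZMod Q, (5 * n / Q : ℝ) ^ 3 := Finset.sum_le_sum (fun c _ => hbox c)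
    _ = Q * (5 * n / Q : ℝ) ^ 3 := by
        rw [Finset.sum_const, Finset.card_univ, ZMod.card, nsmul_eq_mul]
    _ = 1000 / (Q : ℝ) ^ 2 * 8 ^ k := by
        rw [div_pow, mul_pow, h8]
        field_simp
        ring

end Crest.Agent.R032
end

-- ▼ part R032/LL
section

/-! Row 32 (Heilbronn), section 3: the lattice lemma (helper707). -/

set_option autoImplicit false

namespace Crest.Agent.R032

theorem exists_H (ν : Fin 3 → ℤ) : ∃ i, H ν = (ν i).natAbs := by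
  obtain ⟨i, -, hi⟩ := Finset.exists_mem_eq_sup Finset.univ Finset.univ_nonempty
    (fun i => (ν i).natAbs)
  exact ⟨i, hi⟩

theorem H_le_iff' (ν : Fin 3 → ℤ) (n : ℕ) : H ν ≤ n ↔ ∀ i, |ν i| ≤ n := by
  rw [H_le_iff]
  refine forall_congr' fun i => ?_
  rw [Int.abs_eq_natAbs]
  exact Nat.cast_le.symm


/-- core of the lattice lemma, for one coordinate `j` -/
theorem LL_core (ν a b w : Fin 3 → ℤ) (i k j : Fin 3)
    (hdot : ∀ x y : Fin 3 → ℤ, ∑ t, x t * y t = x i * y i + x k * y k + x j * y j)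
    (hext : ∀ x y : Fin 3 → ℤ, x i = y i → x k = y k → x j = y j → x = y)
    (B : ℕ) (hw : ∑ t, ν t * w t = 1) (ha : ∑ t, ν t * a t = 0) (hb : ∑ t, ν t * b t = 0)
    (hab : a i * b k - a k * b i ≠ 0) (hj : ν j ≠ 0)
    (haB : ∀ i, |a i| ≤ B) (hbB : ∀ i, |b i| ≤ B) (c : Fin 3 → ℤ) (d : ℤ)
    (s : Finset (Fin 3 → ℤ))
    (hs : ∀ x ∈ s, (∀ i, c i ≤ x i ∧ x i ≤ c i + B) ∧ ∑ i, ν i * x i = d) :
    s.card * (ν j).natAbs ≤ (5 * B + 1) ^ 2 := by
  rw [hdot] at hw ha hb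
  have red : ∀ ρ : ℤ, ∃ r : ℤ × ℤ, |r.1| ≤ 2 * B ∧ |r.2| ≤ 2 * B ∧
      ν j ∣ (ν i * r.1 + ν k * r.2 - ρ) := by
    intro ρ
    set D := a i * b k - a k * b i with hD
    set x := ρ * w i with hx
    set y := ρ * w k with hy
    set N1 := x * b k - y * b i with hN1
    set N2 := a i * y - a k * x with hN2
    have e1 : D * (N1 / D) + N1 % D = N1 := Int.mul_ediv_add_emod N1 D
    have e2 : D * (N2 / D) + N2 % D = N2 := Int.mul_ediv_add_emod N2 D
    have p1 : 0 ≤ N1 % D := Int.emod_nonneg _ hab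
    have p2 : 0 ≤ N2 % D := Int.emod_nonneg _ hab
    have q1 : N1 % D < |D| := Int.emod_lt_abs _ hab
    have q2 : N2 % D < |D| := Int.emod_lt_abs _ hab
    have key : ∀ (u v z : ℤ), |u| ≤ B → |v| ≤ B → D * z = N1 % D * u + N2 % D * v →
        |z| ≤ 2 * B := by
      intro u v z hu hv h
      have hDpos : 0 < |D| := abs_pos.2 hab
      have h1 : |D| * |z| ≤ |D| * (2 * B) := by
        rw [← abs_mul, h]
        calc |N1 % D * u + N2 % D * v| ≤ |N1 % D * u| + |N2 % D * v| := abs_add_le _ _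
          _ = N1 % D * |u| + N2 % D * |v| := by
              rw [abs_mul, abs_mul, abs_of_nonneg p1, abs_of_nonneg p2]
          _ ≤ |D| * B + |D| * B := by
              have hB : (0:ℤ) ≤ B := Int.natCast_nonneg B
              gcongr
          _ = |D| * (2 * B) := by ring
      exact le_of_mul_le_mul_left h1 hDpos
    refine ⟨(x - N1 / D * a i - N2 / D * b i, y - N1 / D * a k - N2 / D * b k), ?_, ?_, ?_⟩
    · refine key (a i) (b i) _ (haB i) (hbB i) ?_
      simp only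
      have : D * (x - N1 / D * a i - N2 / D * b i)
          = D * x - (D * (N1 / D)) * a i - (D * (N2 / D)) * b i := by ring
      rw [this, show D * (N1 / D) = N1 - N1 % D by linarith,
        show D * (N2 / D) = N2 - N2 % D by linarith, hN1, hN2, hD]
      ring
    · refine key (a k) (b k) _ (haB k) (hbB k) ?_
      simp only
      have : D * (y - N1 / D * a k - N2 / D * b k)
          = D * y - (D * (N1 / D)) * a k - (D * (N2 / D)) * b k := by ring
      rw [this, show D * (N1 / D) = N1 - N1 % D by linarith,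
        show D * (N2 / D) = N2 - N2 % D by linarith, hN1, hN2, hD]
      ring
    · refine ⟨-(ρ * w j) + N1 / D * a j + N2 / D * b j, ?_⟩
      simp only
      rw [hx, hy]
      linear_combination ρ * hw - N1 / D * ha - N2 / D * hb
  choose r hr1 hr2 hr3 using red
  set n := (ν j).natAbs with hn
  have hnpos : 0 < n := Int.natAbs_pos.2 hj
  have hcard : (Finset.Icc (c i - 2 * B) (c i + 3 * B) ×ˢ
      Finset.Icc (c k - 2 * B) (c k + 3 * B)).card = (5 * B + 1) ^ 2 := by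
    rw [Finset.card_product, Int.card_Icc, Int.card_Icc]
    have h1 : (c i + 3 * (B:ℤ) + 1 - (c i - 2 * B)).toNat = 5 * B + 1 := by
      have : c i + 3 * (B:ℤ) + 1 - (c i - 2 * B) = ((5 * B + 1 : ℕ) : ℤ) := by push_cast; ring
      rw [this, Int.toNat_natCast]
    have h2 : (c k + 3 * (B:ℤ) + 1 - (c k - 2 * B)).toNat = 5 * B + 1 := by
      have : c k + 3 * (B:ℤ) + 1 - (c k - 2 * B) = ((5 * B + 1 : ℕ) : ℤ) := by push_cast; ring
      rw [this, Int.toNat_natCast]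
    rw [h1, h2]; ring
  rw [← hcard, ← Finset.card_range n, ← Finset.card_product]
  refine Finset.card_le_card_of_injOn
    (fun q : (Fin 3 → ℤ) × ℕ => (q.1 i + (r (q.2 : ℤ)).1, q.1 k + (r (q.2 : ℤ)).2)) ?_ ?_
  · rintro ⟨x, ρ⟩ hq
    rw [Finset.mem_coe, Finset.mem_product] at hq
    obtain ⟨hx, hρ⟩ := hq
    have h1 := (hs x hx).1
    have h2 := abs_le.1 (hr1 (ρ : ℤ))
    have h3 := abs_le.1 (hr2 (ρ : ℤ))
    have h4 := h1 i
    have h5 := h1 k
    rw [Finset.mem_coe, Finset.mem_product, Finset.mem_Icc, Finset.mem_Icc]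
    simp only
    refine ⟨⟨?_, ?_⟩, ⟨?_, ?_⟩⟩ <;> linarith [h4.1, h4.2, h5.1, h5.2, h2.1, h2.2, h3.1, h3.2]
  · rintro ⟨x, ρ⟩ hq ⟨x', ρ'⟩ hq' hqq
    rw [Finset.mem_coe, Finset.mem_product] at hq hq'
    obtain ⟨hx, hρ⟩ := hq
    obtain ⟨hx', hρ'⟩ := hq'
    simp only [Prod.mk.injEq] at hqq
    simp only [Finset.mem_range] at hρ hρ'
    obtain ⟨g1, g2⟩ := hqq
    have hd1 := (hs x hx).2
    have hd2 := (hs x' hx').2
    rw [hdot] at hd1 hd2
    have hdvd : ν j ∣ ((ρ : ℤ) - ρ') := by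
      have e1 := hr3 (ρ : ℤ)
      have e2 := hr3 (ρ' : ℤ)
      have e3 : (ρ : ℤ) - ρ' = (ν i * (r (ρ' : ℤ)).1 + ν k * (r (ρ' : ℤ)).2 - ρ')
          - (ν i * (r (ρ : ℤ)).1 + ν k * (r (ρ : ℤ)).2 - ρ) + ν j * (x j - x' j) := by
        linear_combination (ν i) * g1 + (ν k) * g2 - hd1 + hd2
      rw [e3]
      exact dvd_add (dvd_sub e2 e1) (Dvd.intro _ rfl)
    have hρρ : ρ = ρ' := by
      have h1 : (n : ℤ) ∣ ((ρ : ℤ) - ρ') := by rw [hn]; exact Int.natAbs_dvd.2 hdvd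
      have h2 : |(ρ : ℤ) - ρ'| < n := by
        rw [abs_lt]
        constructor
        · have : (ρ' : ℤ) < n := by exact_mod_cast hρ'
          have : (0 : ℤ) ≤ ρ := Int.natCast_nonneg _
          linarith
        · have : (ρ : ℤ) < n := by exact_mod_cast hρ
          have : (0 : ℤ) ≤ ρ' := Int.natCast_nonneg _
          linarith
      have h3 := Int.eq_zero_of_abs_lt_dvd h1 h2
      have : (ρ : ℤ) = ρ' := by linarith
      exact_mod_cast this
    subst hρρ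
    have gi : x i = x' i := by linarith
    have gk : x k = x' k := by linarith
    have gj : x j = x' j := by
      have : ν j * x j = ν j * x' j := by
        rw [gi, gk] at hd1
        linarith
      exact mul_left_cancel₀ hj this
    rw [hext x x' gi gk gj]

theorem bezout (ν : Fin 3 → ℤ) (hprim : Finset.univ.gcd ν = 1) :
    ∃ w : Fin 3 → ℤ, ∑ i, ν i * w i = 1 := by
  have h1 := Int.gcd_eq_gcd_ab (ν 0) (ν 1)
  set g : ℤ := (Int.gcd (ν 0) (ν 1) : ℤ) with hg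
  have h2 := Int.gcd_eq_gcd_ab g (ν 2)
  have h3 : ((Int.gcd g (ν 2) : ℕ) : ℤ) ∣ Finset.univ.gcd ν := by
    refine Finset.dvd_gcd fun i _ => ?_
    have a1 : ((Int.gcd g (ν 2) : ℕ) : ℤ) ∣ g := Int.gcd_dvd_left _ _
    have a2 : ((Int.gcd g (ν 2) : ℕ) : ℤ) ∣ ν 2 := Int.gcd_dvd_right _ _
    have a3 : g ∣ ν 0 := Int.gcd_dvd_left _ _
    have a4 : g ∣ ν 1 := Int.gcd_dvd_right _ _
    fin_cases i
    · exact a1.trans a3
    · exact a1.trans a4
    · exact a2
  rw [hprim] at h3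
  have h4 : ((Int.gcd g (ν 2) : ℕ) : ℤ) = 1 := by
    have := Int.eq_one_of_dvd_one (Int.natCast_nonneg _) h3
    exact this
  rw [h4] at h2
  refine ⟨![Int.gcdA (ν 0) (ν 1) * Int.gcdA g (ν 2), Int.gcdB (ν 0) (ν 1) * Int.gcdA g (ν 2),
    Int.gcdB g (ν 2)], ?_⟩
  rw [Fin.sum_univ_three]
  simp only [Matrix.cons_val_zero, Matrix.cons_val_one, Matrix.cons_val_two, Matrix.head_cons,
    Matrix.tail_cons]
  rw [h2, h1]
  ring


/-- **Lattice lemma**: a plane `ν · x = d` with two independent short vectors in `ν^⊥` contains few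
integer points of a box. -/
theorem LL (ν a b : Fin 3 → ℤ) (B : ℕ) (hprim : Finset.univ.gcd ν = 1)
    (ha : ∑ i, ν i * a i = 0) (hb : ∑ i, ν i * b i = 0) (hab : crossProduct a b ≠ 0)
    (haB : ∀ i, |a i| ≤ B) (hbB : ∀ i, |b i| ≤ B) (c : Fin 3 → ℤ) (d : ℤ)
    (s : Finset (Fin 3 → ℤ))
    (hs : ∀ x ∈ s, (∀ i, c i ≤ x i ∧ x i ≤ c i + B) ∧ ∑ i, ν i * x i = d) :
    s.card * H ν ≤ (5 * B + 1) ^ 2 := by
  obtain ⟨w, hw⟩ := bezout ν hprim
  obtain ⟨j, hj⟩ := exists_H ν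
  rw [hj]
  by_cases h0 : ν j = 0
  · simp [h0]
  have ha' := ha
  have hb' := hb
  rw [Fin.sum_univ_three] at ha' hb'
  have hcr : ∀ m0 m1 m2 : ℤ, a 1 * b 2 - a 2 * b 1 = m0 → a 2 * b 0 - a 0 * b 2 = m1 →
      a 0 * b 1 - a 1 * b 0 = m2 → ¬ (m0 = 0 ∧ m1 = 0 ∧ m2 = 0) := by
    rintro m0 m1 m2 rfl rfl rfl ⟨e0, e1, e2⟩
    apply hab
    rw [cross_apply, e0, e1, e2]
    ext i; fin_cases i <;> rfl
  have hne := hcr _ _ _ rfl rfl rfl
  fin_cases j
  · refine LL_core ν a b w 1 2 0 (fun x y => by rw [Fin.sum_univ_three]; ring)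
      (fun x y h1 h2 h3 => by ext t; fin_cases t <;> assumption) B hw ha hb ?_ h0 haB hbB c d s hs
    intro hz
    apply hne
    have f0 : ν 0 ≠ 0 := h0
    refine ⟨hz, ?_, ?_⟩
    · apply (mul_eq_zero.1 (?_ : ν 0 * (a 2 * b 0 - a 0 * b 2) = 0)).resolve_left f0
      linear_combination a 2 * hb' - b 2 * ha' + ν 1 * hz
    · apply (mul_eq_zero.1 (?_ : ν 0 * (a 0 * b 1 - a 1 * b 0) = 0)).resolve_left f0
      linear_combination b 1 * ha' - a 1 * hb' + ν 2 * hz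
  · refine LL_core ν a b w 2 0 1 (fun x y => by rw [Fin.sum_univ_three]; ring)
      (fun x y h1 h2 h3 => by ext t; fin_cases t <;> assumption) B hw ha hb ?_ h0 haB hbB c d s hs
    intro hz
    apply hne
    have f0 : ν 1 ≠ 0 := h0
    refine ⟨?_, hz, ?_⟩
    · apply (mul_eq_zero.1 (?_ : ν 1 * (a 1 * b 2 - a 2 * b 1) = 0)).resolve_left f0
      linear_combination b 2 * ha' - a 2 * hb' + ν 0 * hz
    · apply (mul_eq_zero.1 (?_ : ν 1 * (a 0 * b 1 - a 1 * b 0) = 0)).resolve_left f0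
      linear_combination a 0 * hb' - b 0 * ha' + ν 2 * hz
  · refine LL_core ν a b w 0 1 2 (fun x y => by rw [Fin.sum_univ_three])
      (fun x y h1 h2 h3 => by ext t; fin_cases t <;> assumption) B hw ha hb ?_ h0 haB hbB c d s hs
    intro hz
    apply hne
    have f0 : ν 2 ≠ 0 := h0
    refine ⟨?_, ?_, hz⟩
    · apply (mul_eq_zero.1 (?_ : ν 2 * (a 1 * b 2 - a 2 * b 1) = 0)).resolve_left f0
      linear_combination a 1 * hb' - b 1 * ha' + ν 0 * hz
    · apply (mul_eq_zero.1 (?_ : ν 2 * (a 2 * b 0 - a 0 * b 2) = 0)).resolve_left f0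
      linear_combination b 0 * ha' - a 0 * hb' + ν 1 * hz

/-- primitive vectors -/
theorem exists_prim (v : Fin 3 → ℤ) (hv : v ≠ 0) :
    ∃ (g : ℤ) (ν : Fin 3 → ℤ), 0 < g ∧ Finset.univ.gcd ν = 1 ∧ v = g • ν := by
  obtain ⟨ν, h1, h2⟩ := Finset.extract_gcd v Finset.univ_nonempty
  have hg0 : 0 ≤ Finset.univ.gcd v := by
    have : Finset.univ.gcd v = normalize (Finset.univ.gcd v) := Finset.normalize_gcd.symm
    rw [this, ← Int.abs_eq_normalize]
    exact abs_nonneg _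
  have hgne : Finset.univ.gcd v ≠ 0 := by
    intro h
    apply hv
    rw [Finset.gcd_eq_zero_iff] at h
    funext i
    exact h i (Finset.mem_univ i)
  refine ⟨Finset.univ.gcd v, ν, lt_of_le_of_ne hg0 (Ne.symm hgne), h2, ?_⟩
  funext i
  rw [Pi.smul_apply, smul_eq_mul]
  exact h1 i (Finset.mem_univ i)

theorem H_le_of_smul {g : ℤ} (hg : 0 < g) (ν : Fin 3 → ℤ) : H ν ≤ H (g • ν) := by
  rw [H_le_iff]
  intro i
  have h1 := natAbs_le_H (g • ν) i
  rw [Pi.smul_apply, smul_eq_mul, Int.natAbs_mul] at h1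
  have h2 : 1 ≤ g.natAbs := Int.natAbs_pos.2 hg.ne'
  nlinarith

theorem H_cross_le (a b : Fin 3 → ℤ) (B : ℕ) (haB : ∀ i, |a i| ≤ B) (hbB : ∀ i, |b i| ≤ B) :
    H (crossProduct a b) ≤ 2 * B ^ 2 := by
  rw [H_le_iff']
  have key : ∀ i j k l : Fin 3, |a i * b j - a k * b l| ≤ ((2 * B ^ 2 : ℕ) : ℤ) := by
    intro i j k l
    have hB : (0:ℤ) ≤ B := Int.natCast_nonneg B
    calc |a i * b j - a k * b l| ≤ |a i * b j| + |a k * b l| := abs_sub _ _
      _ = |a i| * |b j| + |a k| * |b l| := by rw [abs_mul, abs_mul]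
      _ ≤ B * B + B * B := by
          gcongr
          · exact haB i
          · exact hbB j
          · exact haB k
          · exact hbB l
      _ = ((2 * B ^ 2 : ℕ) : ℤ) := by push_cast; ring
  intro i
  rw [cross_apply]
  fin_cases i
  · exact key 1 2 2 1
  · exact key 2 0 0 2
  · exact key 0 1 1 0

end Crest.Agent.R032
end

-- ▼ part R032/CountA
section

/-! Row 32 (Heilbronn), section 3, count (A): triples of the box with given nonzero determinant
(helper707). -/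

set_option autoImplicit false

namespace Crest.Agent.R032

open Classical in
/-- the positive content and the primitive part of an integer vector -/
noncomputable def prPart (v : Fin 3 → ℤ) : ℤ × (Fin 3 → ℤ) :=
  if hv : v ≠ 0 then ((exists_prim v hv).choose, (exists_prim v hv).choose_spec.choose) else (1, 0)

theorem prPart_spec {v : Fin 3 → ℤ} (hv : v ≠ 0) :
    0 < (prPart v).1 ∧ Finset.univ.gcd (prPart v).2 = 1 ∧ v = (prPart v).1 • (prPart v).2 := by
  unfold prPart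
  rw [dif_pos hv]
  exact (exists_prim v hv).choose_spec.choose_spec

theorem ne_zero_of_gcd {ν : Fin 3 → ℤ} (h : Finset.univ.gcd ν = 1) : ν ≠ 0 := by
  rintro rfl
  obtain ⟨w, hw⟩ := bezout 0 h
  simp at hw

/-- the `j`-th coordinates of the three points -/
def col (j : Fin 3) (U : Fin 3 → Fin 3 → ℤ) : Fin 3 → ℤ := fun i => U i j

theorem det_eq_cols (U : Fin 3 → Fin 3 → ℤ) :
    Matrix.det (Matrix.of U) = ∑ i, col 0 U i * crossProduct (col 1 U) (col 2 U) i := by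
  rw [Matrix.det_fin_three, Fin.sum_univ_three, cross_apply]
  simp only [col, Matrix.of_apply, Matrix.cons_val_zero, Matrix.cons_val_one, Matrix.cons_val]
  ring

theorem dot_cross_left (y z : Fin 3 → ℤ) : ∑ i, crossProduct y z i * y i = 0 := by
  rw [Fin.sum_univ_three, cross_apply]
  simp only [Matrix.cons_val_zero, Matrix.cons_val_one, Matrix.cons_val]
  ring

theorem dot_cross_right (y z : Fin 3 → ℤ) : ∑ i, crossProduct y z i * z i = 0 := by
  rw [Fin.sum_univ_three, cross_apply]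
  simp only [Matrix.cons_val_zero, Matrix.cons_val_one, Matrix.cons_val]
  ring

theorem dot_of_smul {g : ℤ} (hg : 0 < g) {ν x : Fin 3 → ℤ} {d : ℤ}
    (h : ∑ i, (g • ν) i * x i = d) : g * ∑ i, ν i * x i = d := by
  rw [← h, Finset.mul_sum]
  refine Finset.sum_congr rfl fun i _ => ?_
  rw [Pi.smul_apply, smul_eq_mul]
  ring

theorem countA (B : ℕ) (hB : 1 ≤ B) (d : ℤ) (hd : d ≠ 0) (T : Finset (Fin 3 → Fin 3 → ℤ))
    (hbox : ∀ U ∈ T, ∀ i j, 0 ≤ U i j ∧ U i j < B)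
    (hdet : ∀ U ∈ T, Matrix.det (Matrix.of U) = d) :
    (T.card : ℝ) ≤ 64 * 6 ^ 6 * (B : ℝ) ^ 6 * ((Nat.log 2 (2 * B ^ 2) : ℝ) + 1) := by
  classical
  set cr : (Fin 3 → Fin 3 → ℤ) → (Fin 3 → ℤ) := fun U => crossProduct (col 1 U) (col 2 U) with hcr
  have hcr0 : ∀ U ∈ T, cr U ≠ 0 := by
    intro U hU h0
    have h1 := hdet U hU
    rw [det_eq_cols] at h1
    apply hd
    rw [← h1]
    refine Finset.sum_eq_zero fun i _ => ?_
    have : crossProduct (col 1 U) (col 2 U) i = 0 := congrFun h0 i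
    rw [this, mul_zero]
  have habs : ∀ U ∈ T, ∀ j i, |col j U i| ≤ (B : ℤ) := by
    intro U hU j i
    have h1 := hbox U hU i j
    rw [abs_le]
    have hB' : (0 : ℤ) ≤ B := Int.natCast_nonneg B
    exact ⟨by change -(B:ℤ) ≤ U i j; linarith [h1.1], h1.2.le⟩
  set pr : (Fin 3 → Fin 3 → ℤ) → (Fin 3 → ℤ) := fun U => (prPart (cr U)).2 with hpr
  set V := T.image pr with hV
  have hVspec : ∀ ν ∈ V, Finset.univ.gcd ν = 1 ∧ H ν ≤ 2 * B ^ 2 := by
    intro ν hν
    rw [hV, Finset.mem_image] at hν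
    obtain ⟨U, hU, rfl⟩ := hν
    obtain ⟨h1, h2, h3⟩ := prPart_spec (hcr0 U hU)
    refine ⟨h2, ?_⟩
    calc H (prPart (cr U)).2 ≤ H ((prPart (cr U)).1 • (prPart (cr U)).2) := H_le_of_smul h1 _
      _ = H (cr U) := by rw [← h3]
      _ ≤ 2 * B ^ 2 := H_cross_le _ _ B (habs U hU 1) (habs U hU 2)
  -- the fibres
  have hfib : ∀ ν ∈ V, (T.filter fun U => pr U = ν).card * H ν ^ 3 ≤ ((5 * B + 1) ^ 2) ^ 3 := by
    intro ν hν
    obtain ⟨hg, -⟩ := hVspec ν hν
    set F := T.filter fun U => pr U = ν with hF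
    obtain ⟨U₀, hU₀, hU₀ν⟩ := Finset.mem_image.1 hν
    have hFT : ∀ U ∈ F, U ∈ T ∧ pr U = ν := fun U hU => by
      rw [hF, Finset.mem_filter] at hU; exact hU
    have horth : ∀ U ∈ F, (∑ i, ν i * col 1 U i = 0) ∧ (∑ i, ν i * col 2 U i = 0) := by
      intro U hU
      obtain ⟨hUT, hUν⟩ := hFT U hU
      obtain ⟨h1, h2, h3⟩ := prPart_spec (hcr0 U hUT)
      have hUν' : (prPart (cr U)).2 = ν := hUν
      rw [hUν'] at h3
      constructor
      · have := dot_of_smul h1 (ν := ν) (x := col 1 U) (d := 0)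
          (by rw [← h3]; exact dot_cross_left _ _)
        exact (mul_eq_zero.1 this).resolve_left h1.ne'
      · have := dot_of_smul h1 (ν := ν) (x := col 2 U) (d := 0)
          (by rw [← h3]; exact dot_cross_right _ _)
        exact (mul_eq_zero.1 this).resolve_left h1.ne'
    have hU₀F : U₀ ∈ F := by rw [hF, Finset.mem_filter]; exact ⟨hU₀, hU₀ν⟩
    have hLL := fun (c : Fin 3 → ℤ) (d : ℤ) (s : Finset (Fin 3 → ℤ)) =>
      LL ν (col 1 U₀) (col 2 U₀) B hg (horth U₀ hU₀F).1 (horth U₀ hU₀F).2 (hcr0 U₀ hU₀)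
        (habs U₀ hU₀ 1) (habs U₀ hU₀ 2) c d s
    have hbox' : ∀ U ∈ F, ∀ j i, (0 : Fin 3 → ℤ) i ≤ col j U i ∧
        col j U i ≤ (0 : Fin 3 → ℤ) i + B := by
      intro U hU j i
      have := hbox U (hFT U hU).1 i j
      refine ⟨this.1, ?_⟩
      simp only [Pi.zero_apply, zero_add]
      exact this.2.le
    set P := F.image (col 1) ∪ F.image (col 2) with hP
    have hPcard : P.card * H ν ≤ (5 * B + 1) ^ 2 := by
      refine hLL 0 0 P ?_
      intro x hx
      rw [hP, Finset.mem_union, Finset.mem_image, Finset.mem_image] at hx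
      rcases hx with ⟨U, hU, rfl⟩ | ⟨U, hU, rfl⟩
      · exact ⟨hbox' U hU 1, (horth U hU).1⟩
      · exact ⟨hbox' U hU 2, (horth U hU).2⟩
    have hS : ∀ q ∈ P ×ˢ P, (F.filter fun U => (col 1 U, col 2 U) = q).card * H ν
        ≤ (5 * B + 1) ^ 2 := by
      rintro ⟨y, z⟩ _
      set G := F.filter fun U => (col 1 U, col 2 U) = (y, z) with hG
      rcases G.eq_empty_or_nonempty with h0 | ⟨U₁, hU₁⟩
      · rw [h0]; simp
      have hGF : ∀ U ∈ G, U ∈ F ∧ col 1 U = y ∧ col 2 U = z := fun U hU => by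
        rw [hG, Finset.mem_filter, Prod.mk.injEq] at hU; exact hU
      have hinj : Set.InjOn (col 0) (G : Set (Fin 3 → Fin 3 → ℤ)) := by
        intro U hU U' hU' h
        obtain ⟨-, e1, e2⟩ := hGF U hU
        obtain ⟨-, e1', e2'⟩ := hGF U' hU'
        funext i j
        fin_cases j
        · exact congrFun h i
        · exact congrFun (e1.trans e1'.symm) i
        · exact congrFun (e2.trans e2'.symm) i
      rw [← Finset.card_image_of_injOn hinj]
      obtain ⟨h1, h2, h3⟩ := prPart_spec (hcr0 U₁ (hFT U₁ (hGF U₁ hU₁).1).1)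
      refine hLL 0 (∑ i, ν i * col 0 U₁ i) _ ?_
      intro x hx
      rw [Finset.mem_image] at hx
      obtain ⟨U, hU, rfl⟩ := hx
      obtain ⟨hUF, e1, e2⟩ := hGF U hU
      obtain ⟨hU₁F, e1', e2'⟩ := hGF U₁ hU₁
      refine ⟨hbox' U hUF 0, ?_⟩
      have hcrU : cr U = cr U₁ := by simp only [hcr, e1, e2, e1', e2']
      have hν1 : (prPart (cr U₁)).2 = ν := (hFT U₁ hU₁F).2
      have d1 := hdet U (hFT U hUF).1
      have d2 := hdet U₁ (hFT U₁ hU₁F).1
      rw [det_eq_cols] at d1 d2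
      have f1 : ∑ i, cr U₁ i * col 0 U i = d := by
        rw [← d1, ← hcrU]
        exact Finset.sum_congr rfl fun i _ => mul_comm _ _
      have f2 : ∑ i, cr U₁ i * col 0 U₁ i = d := by
        rw [← d2]
        exact Finset.sum_congr rfl fun i _ => mul_comm _ _
      rw [h3, hν1] at f1 f2
      have g1 := dot_of_smul h1 f1
      have g2 := dot_of_smul h1 f2
      exact mul_left_cancel₀ h1.ne' (g1.trans g2.symm)
    have hFcard : F.card * H ν ≤ P.card ^ 2 * (5 * B + 1) ^ 2 := by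
      have hmaps : ∀ U ∈ F, (col 1 U, col 2 U) ∈ P ×ˢ P := by
        intro U hU
        rw [Finset.mem_product, hP]
        exact ⟨Finset.mem_union_left _ (Finset.mem_image_of_mem _ hU),
          Finset.mem_union_right _ (Finset.mem_image_of_mem _ hU)⟩
      rw [Finset.card_eq_sum_card_fiberwise hmaps, Finset.sum_mul]
      calc ∑ q ∈ P ×ˢ P, (F.filter fun U => (col 1 U, col 2 U) = q).card * H ν
          ≤ ∑ _q ∈ P ×ˢ P, (5 * B + 1) ^ 2 := Finset.sum_le_sum hS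
        _ = P.card ^ 2 * (5 * B + 1) ^ 2 := by
            rw [Finset.sum_const, Finset.card_product, smul_eq_mul]; ring
    calc F.card * H ν ^ 3 = (F.card * H ν) * H ν ^ 2 := by ring
      _ ≤ (P.card ^ 2 * (5 * B + 1) ^ 2) * H ν ^ 2 := Nat.mul_le_mul_right _ hFcard
      _ = (P.card * H ν) ^ 2 * (5 * B + 1) ^ 2 := by ring
      _ ≤ ((5 * B + 1) ^ 2) ^ 2 * (5 * B + 1) ^ 2 := by gcongr
      _ = ((5 * B + 1) ^ 2) ^ 3 := by ring
  have hfib' : ∀ ν ∈ V, ((T.filter fun U => pr U = ν).card : ℝ) ≤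
      6 ^ 6 * (B : ℝ) ^ 6 * (1 / (H ν : ℝ) ^ 3) := by
    intro ν hν
    have hpos : 0 < H ν := H_pos (ne_zero_of_gcd (hVspec ν hν).1)
    have h1 : ((T.filter fun U => pr U = ν).card : ℝ) * (H ν : ℝ) ^ 3
        ≤ (((5 * (B:ℝ) + 1) ^ 2) ^ 3) := by exact_mod_cast hfib ν hν
    have h2 : ((5 * (B:ℝ) + 1) ^ 2) ^ 3 ≤ 6 ^ 6 * (B : ℝ) ^ 6 := by
      have hB' : (1:ℝ) ≤ B := by exact_mod_cast hB
      have : 5 * (B:ℝ) + 1 ≤ 6 * B := by linarith
      calc ((5 * (B:ℝ) + 1) ^ 2) ^ 3 = (5 * (B:ℝ) + 1) ^ 6 := by ring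
        _ ≤ (6 * (B:ℝ)) ^ 6 := by gcongr
        _ = 6 ^ 6 * (B : ℝ) ^ 6 := by ring
    have hposR : (0:ℝ) < (H ν : ℝ) ^ 3 := by positivity
    rw [mul_one_div, le_div_iff₀ hposR]
    exact h1.trans h2
  have hsum := S1 (2 * B ^ 2) V fun ν hν => ⟨ne_zero_of_gcd (hVspec ν hν).1, (hVspec ν hν).2⟩
  have hT : (T.card : ℝ) = ∑ ν ∈ V, ((T.filter fun U => pr U = ν).card : ℝ) := by
    rw [hV, Finset.card_eq_sum_card_image pr T]
    push_cast
    rfl
  rw [hT]
  calc ∑ ν ∈ V, ((T.filter fun U => pr U = ν).card : ℝ)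
      ≤ ∑ ν ∈ V, 6 ^ 6 * (B : ℝ) ^ 6 * (1 / (H ν : ℝ) ^ 3) := Finset.sum_le_sum hfib'
    _ = 6 ^ 6 * (B : ℝ) ^ 6 * ∑ ν ∈ V, 1 / (H ν : ℝ) ^ 3 := by rw [Finset.mul_sum]
    _ ≤ 6 ^ 6 * (B : ℝ) ^ 6 * (64 * ((Nat.log 2 (2 * B ^ 2) : ℝ) + 1)) := by gcongr
    _ = _ := by ring

end Crest.Agent.R032
end

-- ▼ part R032/CountB
section

/-!
Row 32 (S0042), section 3(B) of note 10070: triples of rank two with a prescribed relation line
modulo `Q`.
-/

set_option autoImplicit false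

namespace Crest.Agent.R032

open Matrix

/-- A singular integer matrix has a primitive relation between its rows. -/
theorem exists_prim_relation (U : Fin 3 → Fin 3 → ℤ) (hdet : Matrix.det (Matrix.of U) = 0) :
    ∃ μ : Fin 3 → ℤ, Finset.univ.gcd μ = 1 ∧ ∀ j, ∑ i, μ i * U i j = 0 := by
  obtain ⟨v, hv, hvM⟩ := Matrix.exists_vecMul_eq_zero_iff.mpr hdet
  obtain ⟨g, ν, hg, hprim, hgv⟩ := exists_prim v hv
  refine ⟨ν, hprim, fun j => ?_⟩
  have h1 : ∑ i, v i * U i j = 0 := by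
    have := congrFun hvM j
    simpa [Matrix.vecMul, dotProduct] using this
  rw [hgv] at h1
  simp only [Pi.smul_apply, smul_eq_mul, mul_assoc] at h1
  rw [← Finset.mul_sum] at h1
  exact (mul_eq_zero.1 h1).resolve_left hg.ne'

/-- The cross product of two vectors orthogonal to a primitive vector is a multiple of it. -/
theorem cross_eq_smul_prim (ν a b : Fin 3 → ℤ) (hprim : Finset.univ.gcd ν = 1)
    (ha : ∑ i, ν i * a i = 0) (hb : ∑ i, ν i * b i = 0) :
    ∃ c : ℤ, crossProduct a b = c • ν := by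
  obtain ⟨w, hw⟩ := bezout ν hprim
  refine ⟨∑ i, w i * crossProduct a b i, ?_⟩
  rw [Fin.sum_univ_three] at ha hb hw
  rw [Fin.sum_univ_three]
  funext k
  rw [Pi.smul_apply, smul_eq_mul]
  fin_cases k
  · simp [crossProduct]
    linear_combination (-(a 1 * b 2 - a 2 * b 1)) * hw - w 1 * (a 2 * hb - b 2 * ha)
      + w 2 * (a 1 * hb - b 1 * ha)
  · simp [crossProduct]
    linear_combination (-(a 2 * b 0 - a 0 * b 2)) * hw - w 2 * (a 0 * hb - b 0 * ha)
      + w 0 * (a 2 * hb - b 2 * ha)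
  · simp [crossProduct]
    linear_combination (-(a 0 * b 1 - a 1 * b 0)) * hw - w 0 * (a 1 * hb - b 1 * ha)
      + w 1 * (a 0 * hb - b 0 * ha)

/-- Height bound for a primitive normal. -/
theorem H_prim_le (ν a b : Fin 3 → ℤ) (B : ℕ) (hprim : Finset.univ.gcd ν = 1)
    (ha : ∑ i, ν i * a i = 0) (hb : ∑ i, ν i * b i = 0) (hab : crossProduct a b ≠ 0)
    (haB : ∀ i, |a i| ≤ B) (hbB : ∀ i, |b i| ≤ B) : H ν ≤ 2 * B ^ 2 := by
  obtain ⟨c, hc⟩ := cross_eq_smul_prim ν a b hprim ha hb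
  have hc0 : c ≠ 0 := by
    rintro rfl
    exact hab (by simpa using hc)
  refine le_trans ?_ (H_cross_le a b B haB hbB)
  rw [H_le_iff]
  intro i
  refine le_trans ?_ (natAbs_le_H (crossProduct a b) i)
  rw [hc, Pi.smul_apply, smul_eq_mul, Int.natAbs_mul]
  exact Nat.le_mul_of_pos_left _ (Int.natAbs_pos.2 hc0)

/-- Bridge between the two forms of affine independence. -/
theorem aff_iff (U : Fin 3 → Fin 3 → ℤ) :
    (∀ c : Fin 3 → ℤ, ∑ i, c i = 0 → (∀ j, ∑ i, c i * U i j = 0) → c = 0) ↔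
      crossProduct (U 1 - U 0) (U 2 - U 0) ≠ 0 := by
  constructor
  · intro h hcross
    have hc0 := congrFun hcross 0
    have hc1 := congrFun hcross 1
    have hc2 := congrFun hcross 2
    simp [crossProduct] at hc0 hc1 hc2
    by_cases hx : ∀ k, U 1 k - U 0 k = 0
    · have h1 := h ![-1, 1, 0] (by simp [Fin.sum_univ_three]) (fun j => by
        have := hx j
        simp [Fin.sum_univ_three]
        linarith)
      have := congrFun h1 1
      simp at this
    · push Not at hx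
      obtain ⟨k, hk⟩ := hx
      have h1 := h ![-((U 2 k - U 0 k) - (U 1 k - U 0 k)), U 2 k - U 0 k, -(U 1 k - U 0 k)]
        (by simp [Fin.sum_univ_three]) (fun j => by
          simp only [Fin.sum_univ_three, Matrix.cons_val_zero, Matrix.cons_val_one,
            Matrix.cons_val]
          fin_cases k <;> fin_cases j <;> simp <;> linarith)
      have h2 := congrFun h1 2
      simp only [Matrix.cons_val, Pi.zero_apply] at h2
      exact hk (by linarith)
  · intro h c hsum hrel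
    rw [Fin.sum_univ_three] at hsum
    have e : ∀ j, c 1 * (U 1 j - U 0 j) + c 2 * (U 2 j - U 0 j) = 0 := by
      intro j
      have := hrel j
      rw [Fin.sum_univ_three] at this
      linear_combination this - U 0 j * hsum
    have h1 : c 1 = 0 := by
      by_contra hc
      apply h
      funext k
      have : c 1 * crossProduct (U 1 - U 0) (U 2 - U 0) k = 0 := by
        fin_cases k <;> simp [crossProduct, -mul_eq_zero]
        · linear_combination (U 2 2 - U 0 2) * e 1 - (U 2 1 - U 0 1) * e 2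
        · linear_combination (U 2 0 - U 0 0) * e 2 - (U 2 2 - U 0 2) * e 0
        · linear_combination (U 2 1 - U 0 1) * e 0 - (U 2 0 - U 0 0) * e 1
      exact (mul_eq_zero.1 this).resolve_left hc
    have h2 : c 2 = 0 := by
      by_contra hc
      apply h
      funext k
      have : c 2 * crossProduct (U 1 - U 0) (U 2 - U 0) k = 0 := by
        fin_cases k <;> simp [crossProduct, -mul_eq_zero]
        · linear_combination (U 1 1 - U 0 1) * e 2 - (U 1 2 - U 0 2) * e 1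
        · linear_combination (U 1 2 - U 0 2) * e 0 - (U 1 0 - U 0 0) * e 2
        · linear_combination (U 1 0 - U 0 0) * e 1 - (U 1 1 - U 0 1) * e 0
      exact (mul_eq_zero.1 this).resolve_left hc
    have h0 : c 0 = 0 := by
      rw [h1, h2] at hsum
      linarith
    funext i
    fin_cases i
    · exact h0
    · exact h1
    · exact h2

/-- Affinely independent rows give two independent columns. -/
theorem exists_cols (U : Fin 3 → Fin 3 → ℤ)
    (h : crossProduct (U 1 - U 0) (U 2 - U 0) ≠ 0) :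
    ∃ j k : Fin 3, crossProduct (fun i => U i j) (fun i => U i k) ≠ 0 := by
  by_contra hcon
  push Not at hcon
  apply h
  have key : ∀ j k : Fin 3, (U 1 j - U 0 j) * (U 2 k - U 0 k) - (U 1 k - U 0 k) * (U 2 j - U 0 j)
      = 0 := by
    intro j k
    have h0 := congrFun (hcon j k) 0
    have h1 := congrFun (hcon j k) 1
    have h2 := congrFun (hcon j k) 2
    simp [crossProduct] at h0 h1 h2
    linear_combination h0 + h1 + h2
  funext k
  fin_cases k <;> simp [crossProduct]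
  · linear_combination key 1 2
  · linear_combination key 2 0
  · linear_combination key 0 1

theorem countB (Q B : ℕ) (hQ : 1 < Q) (hB : 1 ≤ B) (lam : Fin 3 → ZMod Q)
    (hlam : ∑ i, lam i = 0) (T : Finset (Fin 3 → Fin 3 → ℤ))
    (hbox : ∀ U ∈ T, ∀ i j, 0 ≤ U i j ∧ U i j < B)
    (hdet : ∀ U ∈ T, Matrix.det (Matrix.of U) = 0)
    (haff : ∀ U ∈ T, ∀ c : Fin 3 → ℤ, ∑ i, c i = 0 → (∀ j, ∑ i, c i * U i j = 0) → c = 0)
    (hker : ∀ U ∈ T, ∀ l : Fin 3 → ZMod Q, (∀ j, ∑ i, l i * (U i j : ZMod Q) = 0) →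
      ∃ c, ∀ i, l i = c * lam i) :
    (T.card : ℝ) * (Q : ℝ) ^ 2 ≤
      (1000 * 6 ^ 6) * (B : ℝ) ^ 6 * ((Nat.log 2 (2 * B ^ 2) : ℝ) + 1) := by
  classical
  -- the primitive relation
  have hex : ∀ U : Fin 3 → Fin 3 → ℤ, ∃ μ : Fin 3 → ℤ, U ∈ T →
      (Finset.univ.gcd μ = 1 ∧ ∀ j, ∑ i, μ i * U i j = 0) := by
    intro U
    by_cases hU : U ∈ T
    · obtain ⟨μ, h1, h2⟩ := exists_prim_relation U (hdet U hU)
      exact ⟨μ, fun _ => ⟨h1, h2⟩⟩
    · exact ⟨0, fun h => absurd h hU⟩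
  choose rel hrel using hex
  set M : Finset (Fin 3 → ℤ) := T.image rel with hM
  -- the rows orthogonal to μ
  let R : (Fin 3 → ℤ) → Finset (Fin 3 → ℤ) := fun μ =>
    (Fintype.piFinset fun _ : Fin 3 => Finset.Ico (0 : ℤ) B).filter
      fun x => ∑ i, μ i * x i = 0
  have hM_prop : ∀ μ ∈ M, (Q ≤ 3 * H μ ∧ H μ ≤ 2 * B ^ 2 ∧
      ∃ c : ZMod Q, ∀ i, (μ i : ZMod Q) = c * lam i) ∧ (R μ).card * H μ ≤ (5 * B + 1) ^ 2 := by
    intro μ hμ
    rw [hM, Finset.mem_image] at hμ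
    obtain ⟨U, hU, rfl⟩ := hμ
    obtain ⟨hprim, hr⟩ := hrel U hU
    obtain ⟨j, k, hjk⟩ := exists_cols U ((aff_iff U).1 (haff U hU))
    have hjB : ∀ j i, |U i j| ≤ (B : ℤ) := by
      intro j i
      have := hbox U hU i j
      rw [abs_of_nonneg this.1]
      exact this.2.le
    have hclass : ∃ c : ZMod Q, ∀ i, ((rel U) i : ZMod Q) = c * lam i := by
      apply hker U hU
      intro j
      have := congrArg (Int.cast : ℤ → ZMod Q) (hr j)
      push_cast at this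
      exact this
    refine ⟨⟨?_, ?_, hclass⟩, ?_⟩
    · obtain ⟨c, hc⟩ := hclass
      have hsum0 : (((∑ i, rel U i : ℤ)) : ZMod Q) = 0 := by
        push_cast
        rw [Finset.sum_congr rfl (fun i _ => hc i), ← Finset.mul_sum, hlam, mul_zero]
      rw [ZMod.intCast_zmod_eq_zero_iff_dvd] at hsum0
      have hne : ∑ i, rel U i ≠ 0 := by
        intro h0
        have h1 := haff U hU (rel U) h0 hr
        rw [h1] at hprim
        revert hprim
        decide
      have hle : (Q : ℤ) ≤ |∑ i, rel U i| := by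
        have := Int.le_of_dvd (abs_pos.2 hne) ((dvd_abs _ _).2 hsum0)
        exact this
      have h3 : |∑ i, rel U i| ≤ 3 * (H (rel U) : ℤ) := by
        calc |∑ i, rel U i| ≤ ∑ i, |rel U i| := Finset.abs_sum_le_sum_abs _ _
          _ ≤ ∑ i : Fin 3, (H (rel U) : ℤ) := Finset.sum_le_sum (fun i _ => abs_le_H _ i)
          _ = _ := by simp
      have := hle.trans h3
      exact_mod_cast this
    · exact H_prim_le (rel U) (fun i => U i j) (fun i => U i k) B hprim (hr j) (hr k) hjk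
        (hjB j) (hjB k)
    · refine LL (rel U) (fun i => U i j) (fun i => U i k) B hprim (hr j) (hr k) hjk
        (hjB j) (hjB k) 0 0 (R (rel U)) ?_
      intro x hx
      rw [Finset.mem_filter, Fintype.mem_piFinset] at hx
      refine ⟨fun i => ?_, hx.2⟩
      have := hx.1 i
      rw [Finset.mem_Ico] at this
      simp only [Pi.zero_apply, zero_add]
      exact ⟨this.1, this.2.le⟩
  have hfib : ∀ μ ∈ M, ((T.filter fun U => rel U = μ).card : ℝ) ≤
      (5 * B + 1 : ℝ) ^ 6 * (1 / (H μ : ℝ) ^ 3) := by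
    intro μ hμ
    obtain ⟨⟨hQH, -, -⟩, hR⟩ := hM_prop μ hμ
    have hHpos : (0 : ℝ) < H μ := by
      have : 0 < H μ := by omega
      exact_mod_cast this
    have h1 : (T.filter fun U => rel U = μ).card ≤ (R μ).card ^ 3 := by
      have h2 : (Fintype.piFinset fun _ : Fin 3 => R μ).card = (R μ).card ^ 3 := by
        rw [Fintype.card_piFinset]
        simp
      rw [← h2]
      apply Finset.card_le_card_of_injOn (fun U => fun j => fun i => U i j)
      · intro U hU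
        rw [Finset.mem_coe, Finset.mem_filter] at hU
        rw [Finset.mem_coe, Fintype.mem_piFinset]
        intro j
        rw [Finset.mem_filter, Fintype.mem_piFinset]
        refine ⟨fun i => ?_, ?_⟩
        · rw [Finset.mem_Ico]
          exact hbox U hU.1 i j
        · rw [← hU.2]
          exact (hrel U hU.1).2 j
      · intro U _ V _ h
        funext i j
        exact congrFun (congrFun h j) i
    have h3 : ((R μ).card : ℝ) ≤ (5 * B + 1) ^ 2 / H μ := by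
      rw [le_div_iff₀ hHpos]
      exact_mod_cast hR
    calc ((T.filter fun U => rel U = μ).card : ℝ) ≤ ((R μ).card : ℝ) ^ 3 := by exact_mod_cast h1
      _ ≤ ((5 * B + 1 : ℝ) ^ 2 / H μ) ^ 3 := by gcongr
      _ = _ := by
          rw [div_pow, ← pow_mul]
          ring
  have hcard : (T.card : ℝ) ≤ (5 * B + 1 : ℝ) ^ 6 * ∑ μ ∈ M, (1 : ℝ) / (H μ : ℝ) ^ 3 := by
    have h1 : T.card = ∑ μ ∈ M, (T.filter fun U => rel U = μ).card :=
      Finset.card_eq_sum_card_fiberwise (fun U hU => by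
        rw [hM]
        exact Finset.mem_coe.2 (Finset.mem_image_of_mem _ hU))
    rw [h1]
    push_cast
    rw [Finset.mul_sum]
    exact Finset.sum_le_sum hfib
  have hS2 := S2 Q (by omega) lam (2 * B ^ 2) M (fun μ hμ => (hM_prop μ hμ).1)
  have hQ' : (0 : ℝ) < Q := by
    have : 0 < Q := by omega
    exact_mod_cast this
  have hB' : (1 : ℝ) ≤ B := by exact_mod_cast hB
  calc (T.card : ℝ) * (Q : ℝ) ^ 2
      ≤ ((5 * B + 1 : ℝ) ^ 6 * ∑ μ ∈ M, (1 : ℝ) / (H μ : ℝ) ^ 3) * (Q : ℝ) ^ 2 := by gcongr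
    _ ≤ ((6 * B : ℝ) ^ 6 * (1000 / (Q : ℝ) ^ 2 * ((Nat.log 2 (2 * B ^ 2) : ℝ) + 1)))
        * (Q : ℝ) ^ 2 := by
        gcongr
        linarith
    _ = _ := by
        field_simp

end Crest.Agent.R032
end

-- ▼ part R032/CountC
section

/-! # Count (C): affinely independent triples of a box, congruent mod Q, with determinant 0
(Row 32, section 3 of note 10070.) -/

set_option autoImplicit false

namespace Crest.Agent.R032

open Finset Matrix

namespace CountC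

lemma natAbs_le_H (ν : Fin 3 → ℤ) (i : Fin 3) : (ν i).natAbs ≤ H ν :=
  Finset.le_sup (f := fun i => (ν i).natAbs) (Finset.mem_univ i)

lemma H_le (ν : Fin 3 → ℤ) (T : ℕ) (h : ∀ i, |ν i| ≤ T) : H ν ≤ T := by
  apply Finset.sup_le
  intro i _
  have := h i
  zify
  exact this

lemma one_le_H (ν : Fin 3 → ℤ) (h : ν ≠ 0) : 1 ≤ H ν := by
  by_contra hc
  have h0 : H ν = 0 := by omega
  apply h
  funext i
  have := natAbs_le_H ν i
  rw [h0] at this
  simpa using this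

lemma prim_ne_zero (ν : Fin 3 → ℤ) (h : Finset.univ.gcd ν = 1) : ν ≠ 0 := by
  rintro rfl
  have : Finset.univ.gcd (0 : Fin 3 → ℤ) = 0 := by
    rw [Finset.gcd_eq_zero_iff]; intro x _; rfl
  rw [this] at h
  exact absurd h (by norm_num)

/-- small symmetric box -/
noncomputable def sbox (B : ℕ) : Finset (Fin 3 → ℤ) :=
  Fintype.piFinset fun _ => Finset.Ico (-(B:ℤ)) (-(B:ℤ) + ((2*B : ℕ) : ℤ))

lemma mem_sbox (B : ℕ) (u : Fin 3 → ℤ) : u ∈ sbox B ↔ ∀ i, -(B:ℤ) ≤ u i ∧ u i < B := by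
  unfold sbox
  rw [Fintype.mem_piFinset]
  refine forall_congr' fun i => ?_
  rw [Finset.mem_Ico]
  push_cast
  constructor <;> rintro ⟨h1, h2⟩ <;> constructor <;> linarith

open Classical in
/-- the covering of the set of triples -/
noncomputable def NN (B : ℕ) : Finset (Fin 3 → ℤ) :=
  (Fintype.piFinset fun _ : Fin 3 => Finset.Icc (-((2*B^2:ℕ):ℤ)) ((2*B^2:ℕ):ℤ)).filter
    (fun ν => Finset.univ.gcd ν = 1 ∧ ∃ a ∈ sbox B, ∃ b ∈ sbox B, ν ⬝ᵥ a = 0 ∧ ν ⬝ᵥ b = 0 ∧ crossProduct a b ≠ 0)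

theorem countC (Q W : ℕ) (hQ : 0 < Q) (hW : 0 < W) (hQW : Q ∣ W) (c : Fin 3 → ℤ)
    (s : Finset (Fin 3 → Fin 3 → ℤ))
    (hbox : ∀ U ∈ s, ∀ i j, c j ≤ U i j ∧ U i j < c j + W)
    (hdvd : ∀ U ∈ s, ∀ i j, (Q:ℤ) ∣ U i j - U 0 j)
    (haff : ∀ U ∈ s, crossProduct (U 1 - U 0) (U 2 - U 0) ≠ 0)
    (hdet : ∀ U ∈ s, Matrix.det (Matrix.of U) = 0) :
    (s.card : ℝ) * (Q:ℝ)^4 ≤ (64 * 36 * 11^4) * (W:ℝ)^6 * ((Nat.log 2 (2 * W^2) : ℝ) + 1) := by
  classical
  obtain ⟨B, hB⟩ := hQW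
  have hB0 : 0 < B := by
    rcases Nat.eq_zero_or_pos B with h | h
    · subst h; simp at hB; omega
    · exact h
  set X : (Fin 3 → ℤ) → Finset (Fin 3 → ℤ) := fun ν =>
    (Fintype.piFinset fun i => Finset.Ico (c i) (c i + W)).filter (fun x => ν ⬝ᵥ x = 0) with hX
  set Y : (Fin 3 → ℤ) → Finset (Fin 3 → ℤ) := fun ν => (sbox B).filter (fun x => ν ⬝ᵥ x = 0) with hY
  set F : (Fin 3 → ℤ) × (Fin 3 → ℤ) × (Fin 3 → ℤ) → (Fin 3 → Fin 3 → ℤ) :=
    fun t => ![t.1, t.1 + (Q:ℤ) • t.2.1, t.1 + (Q:ℤ) • t.2.2] with hF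
  have hsub : s ⊆ (NN B).biUnion (fun ν => ((X ν) ×ˢ ((Y ν) ×ˢ (Y ν))).image F) := by
    intro U hU
    replace hbox := hbox U hU
    replace hdvd := hdvd U hU
    have hcr := haff U hU
    replace hdet := hdet U hU
    choose q hq using hdvd
    have hQ0 : (Q:ℤ) ≠ 0 := by exact_mod_cast hQ.ne'
    have hQpos : (0:ℤ) < Q := by exact_mod_cast hQ
    have ha : U 1 - U 0 = (Q:ℤ) • (q 1) := by funext j; simpa using hq 1 j
    have hb : U 2 - U 0 = (Q:ℤ) • (q 2) := by funext j; simpa using hq 2 j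
    have hW' : (W:ℤ) = Q * B := by exact_mod_cast hB
    have hsm : ∀ i, q i ∈ sbox B := by
      intro i
      rw [mem_sbox]
      intro j
      have h1 := hbox i j
      have h2 := hbox 0 j
      have h3 := hq i j
      have h4 : -(W:ℤ) < U i j - U 0 j ∧ U i j - U 0 j < W := by
        constructor <;> omega
      rw [h3, hW'] at h4
      constructor
      · have := h4.1
        have h5 : (Q:ℤ) * (-(B:ℤ)) < Q * q i j := by linarith
        exact (lt_of_mul_lt_mul_left h5 hQpos.le).le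
      · exact lt_of_mul_lt_mul_left h4.2 hQpos.le
    rw [ha, hb] at hcr
    have hcr' : crossProduct (q 1) (q 2) ≠ 0 := by
      intro h
      apply hcr
      rw [map_smul, map_smul, LinearMap.smul_apply, h, smul_zero, smul_zero]
    obtain ⟨g, ν, hg, hν1, hν⟩ := exists_prim _ hcr'
    have hc : g ≠ 0 := hg.ne'
    have hn1 : ν ⬝ᵥ q 1 = 0 := by
      have : (crossProduct (q 1) (q 2)) ⬝ᵥ q 1 = 0 := by
        rw [dotProduct_comm]; exact dot_self_cross _ _
      rw [hν, smul_dotProduct] at this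
      simpa [hc] using this
    have hn2 : ν ⬝ᵥ q 2 = 0 := by
      have : (crossProduct (q 1) (q 2)) ⬝ᵥ q 2 = 0 := by
        rw [dotProduct_comm]; exact dot_cross_self _ _
      rw [hν, smul_dotProduct] at this
      simpa [hc] using this
    have hn0 : ν ⬝ᵥ U 0 = 0 := by
      have h1 : U 1 = U 0 + (Q:ℤ) • q 1 := by rw [← ha]; abel
      have h2 : U 2 = U 0 + (Q:ℤ) • q 2 := by rw [← hb]; abel
      have h3 : Matrix.det (Matrix.of U) = (Q:ℤ)^2 * ((crossProduct (q 1) (q 2)) ⬝ᵥ U 0) := by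
        rw [Matrix.det_fin_three]
        simp only [Matrix.of_apply]
        rw [h1, h2]
        simp [crossProduct, dotProduct, Fin.sum_univ_three]
        ring
      rw [hdet, hν, smul_dotProduct] at h3
      have h4 := h3.symm
      simpa [hc, hQ0, hQ.ne'] using h4
    rw [Finset.mem_biUnion]
    refine ⟨ν, ?_, ?_⟩
    · unfold NN
      rw [Finset.mem_filter]
      refine ⟨?_, hν1, q 1, hsm 1, q 2, hsm 2, hn1, hn2, hcr'⟩
      rw [Fintype.mem_piFinset]
      intro i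
      rw [Finset.mem_Icc, ← abs_le]
      have h1 : |ν i| ≤ |crossProduct (q 1) (q 2) i| := by
        rw [hν]
        simp only [Pi.smul_apply, smul_eq_mul, abs_mul]
        have : 1 ≤ |g| := Int.one_le_abs hc
        nlinarith [abs_nonneg (ν i)]
      refine h1.trans ?_
      have hq1 : ∀ j, |q 1 j| ≤ B := fun j => abs_le.2 ⟨((mem_sbox B _).1 (hsm 1) j).1, ((mem_sbox B _).1 (hsm 1) j).2.le⟩
      have hq2 : ∀ j, |q 2 j| ≤ B := fun j => abs_le.2 ⟨((mem_sbox B _).1 (hsm 2) j).1, ((mem_sbox B _).1 (hsm 2) j).2.le⟩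
      have key : ∀ j k j' k' , |q 1 j * q 2 k - q 1 j' * q 2 k'| ≤ ((2*B^2:ℕ):ℤ) := by
        intro j k j' k'
        calc |q 1 j * q 2 k - q 1 j' * q 2 k'| ≤ |q 1 j * q 2 k| + |q 1 j' * q 2 k'| := abs_sub _ _
          _ = |q 1 j| * |q 2 k| + |q 1 j'| * |q 2 k'| := by rw [abs_mul, abs_mul]
          _ ≤ B * B + B * B := by
              gcongr
              · exact hq1 j
              · exact hq2 k
              · exact hq1 j'
              · exact hq2 k'
          _ = ((2*B^2:ℕ):ℤ) := by push_cast; ring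
      rw [cross_apply]
      fin_cases i
      · exact key _ _ _ _
      · exact key _ _ _ _
      · exact key _ _ _ _
    · rw [Finset.mem_image]
      refine ⟨(U 0, q 1, q 2), ?_, ?_⟩
      · simp only [Finset.mem_product, hX, hY, Finset.mem_filter]
        refine ⟨⟨?_, hn0⟩, ⟨hsm 1, hn1⟩, hsm 2, hn2⟩
        rw [Fintype.mem_piFinset]
        exact fun i => Finset.mem_Ico.2 (hbox 0 i)
      · funext i
        fin_cases i
        · simp [hF]
        · simp only [hF]; simp [← ha]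
        · simp only [hF]; simp [← hb]
  have hcard : (s.card : ℝ) ≤ ∑ ν ∈ NN B, ((X ν).card : ℝ) * ((Y ν).card : ℝ)^2 := by
    have h1 : s.card ≤ ∑ ν ∈ NN B, (X ν).card * (Y ν).card^2 := by
      refine (Finset.card_le_card hsub).trans (Finset.card_biUnion_le.trans ?_)
      refine Finset.sum_le_sum fun ν _ => ?_
      refine Finset.card_image_le.trans ?_
      rw [Finset.card_product, Finset.card_product, sq]
    exact_mod_cast h1
  have hBW : B ≤ W := by rw [hB]; exact Nat.le_mul_of_pos_left B hQ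
  have hterm : ∀ ν ∈ NN B, ((X ν).card : ℝ) * ((Y ν).card : ℝ)^2 ≤
      (36 * (W:ℝ)^2 * (11 * B)^4) * (1 / (H ν : ℝ)^3) := by
    intro ν hν
    unfold NN at hν
    rw [Finset.mem_filter] at hν
    obtain ⟨_, hν1, a, ha, b, hb, hna, hnb, hab⟩ := hν
    have hHpos : (0:ℝ) < H ν := by
      have := one_le_H ν (prim_ne_zero ν hν1)
      exact_mod_cast this
    have haB : ∀ i, |a i| ≤ B := fun j => abs_le.2 ⟨((mem_sbox B _).1 ha j).1, ((mem_sbox B _).1 ha j).2.le⟩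
    have hbB : ∀ i, |b i| ≤ B := fun j => abs_le.2 ⟨((mem_sbox B _).1 hb j).1, ((mem_sbox B _).1 hb j).2.le⟩
    have e1 : (X ν).card * H ν ≤ (5*W+1)^2 := by
      refine LL ν a b W hν1 hna hnb hab (fun i => (haB i).trans (by exact_mod_cast hBW))
        (fun i => (hbB i).trans (by exact_mod_cast hBW)) c 0 _ ?_
      intro x hx
      simp only [hX, Finset.mem_filter, Fintype.mem_piFinset, Finset.mem_Ico] at hx
      exact ⟨fun i => ⟨(hx.1 i).1, (hx.1 i).2.le⟩, hx.2⟩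
    have e2 : (Y ν).card * H ν ≤ (5*(2*B)+1)^2 := by
      refine LL ν a b (2*B) hν1 hna hnb hab
        (fun i => (haB i).trans (by push_cast; linarith [show (0:ℤ) ≤ B by positivity]))
        (fun i => (hbB i).trans (by push_cast; linarith [show (0:ℤ) ≤ B by positivity]))
        (fun _ => -(B:ℤ)) 0 _ ?_
      intro x hx
      simp only [hY, Finset.mem_filter, mem_sbox] at hx
      refine ⟨fun i => ⟨(hx.1 i).1, ?_⟩, hx.2⟩
      have := (hx.1 i).2
      push_cast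
      linarith
    have hW1 : (1:ℝ) ≤ W := by exact_mod_cast hW
    have hB1 : (1:ℝ) ≤ B := by exact_mod_cast hB0
    have e1' : ((X ν).card : ℝ) * H ν ≤ 36 * (W:ℝ)^2 := by
      have h1 : ((X ν).card : ℝ) * H ν ≤ (5*W+1)^2 := by exact_mod_cast e1
      nlinarith
    have e2' : ((Y ν).card : ℝ) * H ν ≤ (11 * (B:ℝ))^2 := by
      have h1 : ((Y ν).card : ℝ) * H ν ≤ (5*(2*B)+1)^2 := by exact_mod_cast e2
      nlinarith
    have e3 : (((Y ν).card : ℝ) * H ν)^2 ≤ ((11 * (B:ℝ))^2)^2 := by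
      gcongr
    rw [mul_one_div, le_div_iff₀ (by positivity)]
    calc ((X ν).card : ℝ) * ((Y ν).card : ℝ)^2 * (H ν : ℝ)^3
        = (((X ν).card : ℝ) * H ν) * (((Y ν).card : ℝ) * H ν)^2 := by ring
      _ ≤ (36 * (W:ℝ)^2) * ((11 * (B:ℝ))^2)^2 := by gcongr
      _ = 36 * (W:ℝ)^2 * (11 * B)^4 := by ring
  have hsum : ∑ ν ∈ NN B, (1:ℝ) / (H ν : ℝ)^3 ≤ 64 * ((Nat.log 2 (2 * B^2) : ℝ) + 1) := by
    refine S1 (2*B^2) _ ?_
    intro ν hν
    unfold NN at hν
    rw [Finset.mem_filter, Fintype.mem_piFinset] at hν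
    refine ⟨prim_ne_zero ν hν.2.1, H_le _ _ fun i => ?_⟩
    exact abs_le.2 (Finset.mem_Icc.1 (hν.1 i))
  have hlog : ((Nat.log 2 (2 * B^2) : ℝ) + 1) ≤ ((Nat.log 2 (2 * W^2) : ℝ) + 1) := by
    have : Nat.log 2 (2 * B^2) ≤ Nat.log 2 (2 * W^2) := Nat.log_mono_right (by gcongr)
    have : (Nat.log 2 (2 * B^2) : ℝ) ≤ (Nat.log 2 (2 * W^2) : ℝ) := by exact_mod_cast this
    linarith
  calc (s.card : ℝ) * (Q:ℝ)^4 ≤ (∑ ν ∈ NN B, ((X ν).card : ℝ) * ((Y ν).card : ℝ)^2) * (Q:ℝ)^4 := by gcongr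
    _ ≤ (∑ ν ∈ NN B, (36 * (W:ℝ)^2 * (11 * B)^4) * (1 / (H ν : ℝ)^3)) * (Q:ℝ)^4 :=
        mul_le_mul_of_nonneg_right (Finset.sum_le_sum hterm) (by positivity)
    _ = ((36 * (W:ℝ)^2 * (11 * B)^4) * ∑ ν ∈ NN B, (1 / (H ν : ℝ)^3)) * (Q:ℝ)^4 := by
        rw [← Finset.mul_sum]
    _ ≤ ((36 * (W:ℝ)^2 * (11 * B)^4) * (64 * ((Nat.log 2 (2 * W^2) : ℝ) + 1))) * (Q:ℝ)^4 := by
        gcongr
        exact hsum.trans (by gcongr)
    _ = (64 * 36 * 11^4) * ((W:ℝ)^2 * ((Q:ℝ) * B)^4) * ((Nat.log 2 (2 * W^2) : ℝ) + 1) := by ring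
    _ = (64 * 36 * 11^4) * (W:ℝ)^6 * ((Nat.log 2 (2 * W^2) : ℝ) + 1) := by
        have : (W:ℝ) = Q * B := by exact_mod_cast hB
        rw [← this]; ring

end CountC

end Crest.Agent.R032
end

-- ▼ part R032/GSide
section

/-!
Row 32 (Heilbronn), glue, part 4: the `Q`-side (helper441).
-/

set_option autoImplicit false
set_option maxHeartbeats 400000

namespace Crest.Agent.R032

open Finset


/-- the constant of the three counts -/
noncomputable def MC : ℝ := 64 * 1000 * 6 ^ 6 * 6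

theorem MC_pos : 0 < MC := by unfold MC; norm_num

theorem log_bound (W : ℕ) (hW : 0 < W) (B : ℕ) (hB : B ≤ 2 * W) :
    (Nat.log 2 (2 * B ^ 2) : ℝ) + 1 ≤ 6 * ((Nat.log 2 W : ℝ) + 1) := by
  have h1 : W < 2 ^ (Nat.log 2 W + 1) := Nat.lt_pow_succ_log_self (by norm_num) W
  have h2 : 2 * B ^ 2 < 2 ^ (2 * Nat.log 2 W + 5) := by
    calc 2 * B ^ 2 ≤ 2 * (2 * W) ^ 2 := by gcongr
      _ < 2 * (2 * 2 ^ (Nat.log 2 W + 1)) ^ 2 := by gcongr
      _ = 2 ^ (2 * Nat.log 2 W + 5) := by ring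
  have h3 : Nat.log 2 (2 * B ^ 2) < 2 * Nat.log 2 W + 5 := by
    rcases Nat.eq_zero_or_pos B with h0 | h0
    · subst h0; simp
    · exact Nat.log_lt_of_lt_pow (by positivity) h2
  have h4 : Nat.log 2 (2 * B ^ 2) + 1 ≤ 6 * (Nat.log 2 W + 1) := by omega
  exact_mod_cast h4

open Classical in
/-- the set of bad integer triples -/
noncomputable def TT (p Q W : ℕ) : Finset (Fin 3 → Fin 3 → ℤ) :=
  (Fintype.piFinset fun _ : Fin 3 => Box W).filter
    (fun U => crossProduct (U 1 - U 0) (U 2 - U 0) ≠ 0 ∧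
      2 * (p : ℤ) * |Matrix.det (Matrix.of U)| ≤ Q)

theorem mem_TT {p Q W : ℕ} {U : Fin 3 → Fin 3 → ℤ} : U ∈ TT p Q W ↔
    (∀ i, U i ∈ Box W) ∧ crossProduct (U 1 - U 0) (U 2 - U 0) ≠ 0 ∧
      2 * (p : ℤ) * |Matrix.det (Matrix.of U)| ≤ Q := by
  unfold TT
  rw [mem_filter, Fintype.mem_piFinset]

theorem TT_box {p Q W : ℕ} (hW : 0 < W) {U : Fin 3 → Fin 3 → ℤ} (hU : U ∈ TT p Q W) (i j : Fin 3) :
    0 ≤ U i j ∧ U i j < ((2 * W : ℕ) : ℤ) := by
  obtain ⟨⟨a1, a2⟩, ⟨a3, a4⟩, a5, a6⟩ := mem_Box.1 ((mem_TT.1 hU).1 i)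
  have hW0 : (0 : ℤ) < W := by exact_mod_cast hW
  push_cast
  fin_cases j <;> simp only [Fin.zero_eta, Fin.mk_one, Fin.reduceFinMk] <;> constructor <;>
    linarith

open Classical in
theorem badTriples_card_le (p Q W : ℕ) (A : (Fin 3 → ℤ) → Prop) :
    (badTriples ((Box W).filter (fun u => A u))
      (fun u v w => crossProduct (v - u) (w - u) ≠ 0 ∧ BadDet p Q u v w)).card
      ≤ ((TT p Q W).filter fun U => ∀ i, A (U i)).card := by
  refine card_le_card_of_injOn (fun t => ![t.1, t.2.1, t.2.2]) ?_ ?_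
  · intro t ht
    obtain ⟨⟨b1, b2, b3⟩, _, _, _, hcr, hbad⟩ := mem_badTriples.1 (mem_coe.1 ht)
    rw [mem_filter] at b1 b2 b3
    rw [mem_coe, mem_filter, mem_TT]
    refine ⟨⟨?_, ?_, ?_⟩, ?_⟩
    · intro i
      fin_cases i
      · exact b1.1
      · exact b2.1
      · exact b3.1
    · exact hcr
    · exact hbad
    · intro i
      fin_cases i
      · exact b1.2
      · exact b2.2
      · exact b3.2
  · intro t _ s _ hts
    have e0 := congrFun hts 0
    have e1 := congrFun hts 1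
    have e2 := congrFun hts 2
    simp only [Matrix.cons_val_zero, Matrix.cons_val_one, Matrix.cons_val] at e0 e1 e2
    exact Prod.ext e0 (Prod.ext e1 e2)

open Classical in
theorem TT_countA (p Q W : ℕ) (hW : 0 < W) (d : ℤ) (hd : d ≠ 0) :
    (((TT p Q W).filter fun U => Matrix.det (Matrix.of U) = d).card : ℝ)
      ≤ MC * (W : ℝ) ^ 6 * ((Nat.log 2 W : ℝ) + 1) := by
  have hlog1 := log_bound W hW (2 * W) le_rfl
  set L : ℝ := (Nat.log 2 W : ℝ) + 1 with hLdef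
  have hL0 : 0 ≤ L := by positivity
  refine (countA (2 * W) (by omega) d hd _ (fun U hU => TT_box hW (mem_filter.1 hU).1)
    (fun U hU => (mem_filter.1 hU).2)).trans ?_
  have e : (((2 * W : ℕ) : ℝ)) = 2 * (W : ℝ) := by push_cast; ring
  rw [e]
  calc 64 * 6 ^ 6 * (2 * (W : ℝ)) ^ 6 * ((Nat.log 2 (2 * (2 * W) ^ 2) : ℝ) + 1)
      ≤ 64 * 6 ^ 6 * (2 * (W : ℝ)) ^ 6 * (6 * L) := by gcongr
    _ = (64 * 6 ^ 6 * 64 * 6) * (W : ℝ) ^ 6 * L := by ring
    _ ≤ MC * (W : ℝ) ^ 6 * L := by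
        have : (64 * 6 ^ 6 * 64 * 6 : ℝ) ≤ MC := by unfold MC; norm_num
        gcongr

open Classical in
theorem TT_countB (p Q W : ℕ) (hQ : 1 < Q) (hW : 0 < W) (l : Fin 3 → ZMod Q)
    (hl : ∑ i, l i = 0) :
    (((TT p Q W).filter fun U => FM.RelB Q l U).card : ℝ) * (Q : ℝ) ^ 2
      ≤ MC * (W : ℝ) ^ 6 * ((Nat.log 2 W : ℝ) + 1) := by
  have hlog1 := log_bound W hW (2 * W) le_rfl
  set L : ℝ := (Nat.log 2 W : ℝ) + 1 with hLdef
  have hL0 : 0 ≤ L := by positivity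
  refine (countB Q (2 * W) hQ (by omega) l hl _
    (fun U hU => TT_box hW (mem_filter.1 hU).1)
    (fun U hU => (mem_filter.1 hU).2.1)
    (fun U hU => FM.aff_of_cross (mem_TT.1 (mem_filter.1 hU).1).2.1)
    (fun U hU => (mem_filter.1 hU).2.2)).trans ?_
  have e : (((2 * W : ℕ) : ℝ)) = 2 * (W : ℝ) := by push_cast; ring
  rw [e]
  calc (1000 * 6 ^ 6) * (2 * (W : ℝ)) ^ 6 * ((Nat.log 2 (2 * (2 * W) ^ 2) : ℝ) + 1)
      ≤ (1000 * 6 ^ 6) * (2 * (W : ℝ)) ^ 6 * (6 * L) := by gcongr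
    _ = (1000 * 6 ^ 6 * 64 * 6) * (W : ℝ) ^ 6 * L := by ring
    _ ≤ MC * (W : ℝ) ^ 6 * L := by
        have : (1000 * 6 ^ 6 * 64 * 6 : ℝ) ≤ MC := by unfold MC; norm_num
        gcongr

open Classical in
theorem TT_countC (p Q W : ℕ) (hQ : 0 < Q) (hW : 0 < W) (hQW : Q ∣ W) :
    (((TT p Q W).filter fun U => FM.RelC Q U).card : ℝ) * (Q : ℝ) ^ 4
      ≤ MC * (W : ℝ) ^ 6 * ((Nat.log 2 W : ℝ) + 1) := by
  have hlog2 := log_bound W hW W (by omega)
  set L : ℝ := (Nat.log 2 W : ℝ) + 1 with hLdef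
  have hL0 : 0 ≤ L := by positivity
  refine (CountC.countC Q W hQ hW hQW ![0, 0, W] _
    (fun U hU i j => ?_)
    (fun U hU i j => (mem_filter.1 hU).2.dvd i j)
    (fun U hU => (mem_TT.1 (mem_filter.1 hU).1).2.1)
    (fun U hU => (mem_filter.1 hU).2.1)).trans ?_
  · obtain ⟨⟨a1, a2⟩, ⟨a3, a4⟩, a5, a6⟩ := mem_Box.1 ((mem_TT.1 (mem_filter.1 hU).1).1 i)
    fin_cases j
    · simpa using ⟨a1, a2⟩
    · simpa using ⟨a3, a4⟩
    · constructor
      · simpa using a5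
      · have : U i 2 < (W : ℤ) + W := by linarith
        simpa using this
  · calc (64 * 36 * 11 ^ 4) * (W : ℝ) ^ 6 * ((Nat.log 2 (2 * W ^ 2) : ℝ) + 1)
        ≤ (64 * 36 * 11 ^ 4) * (W : ℝ) ^ 6 * (6 * L) := by gcongr
      _ = (64 * 36 * 11 ^ 4 * 6) * (W : ℝ) ^ 6 * L := by ring
      _ ≤ MC * (W : ℝ) ^ 6 * L := by
          have : (64 * 36 * 11 ^ 4 * 6 : ℝ) ≤ MC := by unfold MC; norm_num
          gcongr

/-- pure arithmetic at the end -/
theorem gside_arith (p Q N G M S rep Cc : ℝ) (hp : 1 ≤ p) (hQ : 0 ≤ Q) (hN : 1 ≤ N)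
    (hM : 0 ≤ M) (hG : Q ^ 8 ≤ 8 * G) (hS0 : 0 ≤ S)
    (hS : S ≤ rep * M + Cc * (Q * M)) (hrep : rep ≤ 3 * p ^ 6 * N ^ 3)
    (hCc : Cc = p ^ 3 * N) (hQN : Q ≤ N ^ 2) :
    S * Q ^ 8 ≤ 32 * p ^ 6 * N ^ 3 * M * G := by
  have h3 : (1 : ℝ) ≤ p ^ 3 := one_le_pow₀ hp
  have hCQ : Cc * (Q * M) ≤ p ^ 6 * N ^ 3 * M := by
    rw [hCc]
    calc p ^ 3 * N * (Q * M) = 1 * (p ^ 3 * N * Q * M) := by ring
      _ ≤ p ^ 3 * (p ^ 3 * N * N ^ 2 * M) := by gcongr
      _ = p ^ 6 * N ^ 3 * M := by ring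
  have htot : S ≤ 4 * p ^ 6 * N ^ 3 * M := by
    refine hS.trans ?_
    calc rep * M + Cc * (Q * M) ≤ 3 * p ^ 6 * N ^ 3 * M + p ^ 6 * N ^ 3 * M := by gcongr
      _ = 4 * p ^ 6 * N ^ 3 * M := by ring
  calc S * Q ^ 8 ≤ (4 * p ^ 6 * N ^ 3 * M) * (8 * G) := by gcongr
    _ = 32 * p ^ 6 * N ^ 3 * M * G := by ring

end Crest.Agent.R032
end

-- ▼ part R032/LabC
section

/-!
Row 32 (Heilbronn): from `LabSet` to the labelled finite set `C ⊂ F_Q^3` (helper973).
-/

set_option autoImplicit false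

namespace Crest.Agent.R032.FM

open Finset

variable {p Q N : ℕ} [Fact Q.Prime] {x y z : Fin (p ^ 3) → ℤ}

/-- the point with label `t` and offset `e` -/
def lpt (Q : ℕ) {p : ℕ} (x y z : Fin (p ^ 3) → ℤ) (t : Fin (p ^ 3)) (e : ℕ) : Fin 3 → ZMod Q :=
  ![((x t + e : ℤ) : ZMod Q), ((y t : ℤ) : ZMod Q), ((z t : ℤ) : ZMod Q)]

theorem lpt_lab (h : LabSet p Q N x y z) {t s : Fin (p ^ 3)} {e f : ℕ}
    (heq : lpt Q x y z t e = lpt Q x y z s f) : t = s := by
  by_contra hne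
  apply h.wedge t s hne
  have h1 := congrFun heq 1
  have h2 := congrFun heq 2
  simp only [lpt, Matrix.cons_val_one, Matrix.cons_val_zero, Matrix.cons_val] at h1 h2
  rw [← ZMod.intCast_zmod_eq_zero_iff_dvd]
  push_cast
  rw [h1, h2]
  ring

theorem lpt_off (h : LabSet p Q N x y z) {t : Fin (p ^ 3)} {e f : ℕ} (he : e < N) (hf : f < N)
    (heq : lpt Q x y z t e = lpt Q x y z t f) : e = f := by
  have h0 := congrFun heq 0
  simp only [lpt, Matrix.cons_val_zero] at h0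
  push_cast at h0
  have h1 : (e : ZMod Q) = (f : ZMod Q) := add_left_cancel h0
  rw [ZMod.natCast_eq_natCast_iff'] at h1
  have hN := h.N_le
  rw [Nat.mod_eq_of_lt (by omega), Nat.mod_eq_of_lt (by omega)] at h1
  exact h1

open Classical in
/-- the labelled set -/
noncomputable def labC (Q N : ℕ) {p : ℕ} (x y z : Fin (p ^ 3) → ℤ) : Finset (Fin 3 → ZMod Q) :=
  ((Finset.univ : Finset (Fin (p ^ 3))) ×ˢ Finset.range N).image fun a => lpt Q x y z a.1 a.2

open Classical in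
/-- the label function -/
noncomputable def labF (Q : ℕ) {p : ℕ} (x y z : Fin (p ^ 3) → ℤ) (c : Fin 3 → ZMod Q) :
    Option (Fin (p ^ 3)) :=
  if h : ∃ (t : Fin (p ^ 3)) (e : ℕ), lpt Q x y z t e = c then some h.choose else none

theorem mem_labC {c : Fin 3 → ZMod Q} :
    c ∈ labC Q N x y z ↔ ∃ (t : Fin (p ^ 3)) (e : ℕ), e < N ∧ lpt Q x y z t e = c := by
  simp only [labC, Finset.mem_image, Finset.mem_product, Finset.mem_univ, true_and,
    Finset.mem_range, Prod.exists]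

theorem labF_lpt (h : LabSet p Q N x y z) (t : Fin (p ^ 3)) (e : ℕ) :
    labF Q x y z (lpt Q x y z t e) = some t := by
  have hex : ∃ (t' : Fin (p ^ 3)) (e' : ℕ), lpt Q x y z t' e' = lpt Q x y z t e := ⟨t, e, rfl⟩
  unfold labF
  rw [dif_pos hex]
  obtain ⟨e', he'⟩ := hex.choose_spec
  rw [lpt_lab h he']

theorem card_labC (h : LabSet p Q N x y z) : (labC Q N x y z).card = p ^ 3 * N := by
  unfold labC
  rw [Finset.card_image_of_injOn, Finset.card_product, Finset.card_univ, Fintype.card_fin,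
    Finset.card_range]
  rintro ⟨t, e⟩ ha ⟨s, f⟩ hb hab
  simp only [Finset.coe_product, Finset.coe_range, Set.mem_prod, Set.mem_Iio] at ha hb
  simp only at hab
  have hts := lpt_lab h hab
  subst hts
  rw [lpt_off h ha.2 hb.2 hab]

open Classical in
theorem card_labC_fibre (h : LabSet p Q N x y z) (l : Option (Fin (p ^ 3))) :
    ((labC Q N x y z).filter fun c => labF Q x y z c = l).card ≤ N := by
  cases l with
  | none =>
    have : ((labC Q N x y z).filter fun c => labF Q x y z c = none) = ∅ := by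
      rw [Finset.filter_eq_empty_iff]
      intro c hc hcon
      obtain ⟨t, e, _, rfl⟩ := mem_labC.1 hc
      rw [labF_lpt h] at hcon
      exact Option.some_ne_none _ hcon
    rw [this]
    simp
  | some t =>
    calc ((labC Q N x y z).filter fun c => labF Q x y z c = some t).card
        ≤ ((Finset.range N).image fun e => lpt Q x y z t e).card := by
          apply Finset.card_le_card
          intro c hc
          rw [Finset.mem_filter] at hc
          obtain ⟨s, e, he, rfl⟩ := mem_labC.1 hc.1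
          rw [labF_lpt h] at hc
          have : s = t := Option.some.inj hc.2
          subst this
          exact Finset.mem_image.2 ⟨e, Finset.mem_range.2 he, rfl⟩
      _ ≤ N := by
          refine le_trans Finset.card_image_le ?_
          rw [Finset.card_range]

/-- (i) -/
theorem labC_sep (h : LabSet p Q N x y z) (K : ℤ) (hK : 2 * p * K ≤ Q)
    (c : Fin 3 → Fin 3 → ZMod Q) (hc : ∀ i, c i ∈ labC Q N x y z)
    (hinj : Function.Injective (fun i => labF Q x y z (c i))) (d : ℤ) (hd : |d| ≤ K) :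
    Matrix.det (Matrix.of c) ≠ (d : ZMod Q) := by
  intro hdet
  choose t e he hte using fun i => mem_labC.1 (hc i)
  have htinj : Function.Injective t := by
    intro i j hij
    apply hinj
    simp only
    rw [← hte i, ← hte j, labF_lpt h, labF_lpt h, hij]
  have hs := h.sep t htinj (fun i => (e i : ℤ)) (fun i => ⟨Int.natCast_nonneg _, by
    exact_mod_cast he i⟩)
  set D : ℤ := dt (fun i => x (t i) + (e i : ℤ)) (fun i => y (t i)) (fun i => z (t i)) with hD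
  have hcast : Matrix.det (Matrix.of c) = (D : ZMod Q) := by
    rw [Matrix.det_fin_three]
    simp only [Matrix.of_apply]
    rw [← hte 0, ← hte 1, ← hte 2, hD]
    simp only [lpt, dt, Matrix.cons_val_zero, Matrix.cons_val_one, Matrix.cons_val]
    push_cast
    ring
  rw [hcast] at hdet
  have h1 : ((D - d : ℤ) : ZMod Q) = 0 := by
    rw [Int.cast_sub, hdet, sub_self]
  rw [ZMod.intCast_zmod_eq_zero_iff_dvd] at h1
  obtain ⟨j, hj⟩ := h1
  have h2 := hs j
  have h3 : D - j * Q = d := by linarith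
  rw [h3] at h2
  have hp0 : (0 : ℤ) ≤ 2 * p := by positivity
  have h4 : 2 * (p : ℤ) * |d| ≤ 2 * p * K := mul_le_mul_of_nonneg_left hd hp0
  linarith

/-- (ii) -/
theorem labC_rel (h : LabSet p Q N x y z)
    (c : Fin 3 → Fin 3 → ZMod Q) (hc : ∀ i, c i ∈ labC Q N x y z)
    (hrep : ¬ Function.Injective (fun i => labF Q x y z (c i))) (l : Fin 3 → ZMod Q)
    (hl : ∑ i, l i • c i = 0) : ∑ i, l i = 0 := by
  choose t e he hte using fun i => mem_labC.1 (hc i)
  have hlab : ∀ i, labF Q x y z (c i) = some (t i) := fun i => by rw [← hte i, labF_lpt h]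
  obtain ⟨i, j, hij, hne⟩ : ∃ i j, t i = t j ∧ i ≠ j := by
    by_contra hcon
    push Not at hcon
    apply hrep
    intro i j hij
    simp only [hlab] at hij
    exact hcon i j (Option.some.inj hij)
  obtain ⟨k, hki, hkj, hk⟩ : ∃ k : Fin 3, k ≠ i ∧ k ≠ j ∧ ∀ a : Fin 3, a = i ∨ a = j ∨ a = k := by
    have h3 : ∀ i j : Fin 3, i ≠ j →
        ∃ k : Fin 3, k ≠ i ∧ k ≠ j ∧ ∀ a : Fin 3, a = i ∨ a = j ∨ a = k := by decide
    exact h3 i j hne
  have hsum : ∀ f : Fin 3 → ZMod Q, ∑ a, f a = f i + f j + f k := by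
    intro f
    rw [← Finset.sum_subset (Finset.subset_univ ({i, j, k} : Finset (Fin 3)))]
    · rw [Finset.sum_insert (by simp [hne, hki.symm]), Finset.sum_insert (by simp [hkj.symm]),
        Finset.sum_singleton, add_assoc]
    · intro a _ ha
      exfalso
      apply ha
      rcases hk a with h | h | h <;> simp [h]
  have hy : l i * (y (t i) : ZMod Q) + l j * (y (t j) : ZMod Q) + l k * (y (t k) : ZMod Q)
      = 0 := by
    have h1 := congrFun hl 1
    rw [Finset.sum_apply] at h1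
    simp only [Pi.smul_apply, smul_eq_mul, Pi.zero_apply] at h1
    rw [hsum (fun a => l a * c a 1), ← hte i, ← hte j, ← hte k] at h1
    simpa [lpt] using h1
  have hz : l i * (z (t i) : ZMod Q) + l j * (z (t j) : ZMod Q) + l k * (z (t k) : ZMod Q)
      = 0 := by
    have h1 := congrFun hl 2
    rw [Finset.sum_apply] at h1
    simp only [Pi.smul_apply, smul_eq_mul, Pi.zero_apply] at h1
    rw [hsum (fun a => l a * c a 2), ← hte i, ← hte j, ← hte k] at h1
    simpa [lpt] using h1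
  rw [hsum]
  rw [← hij] at hy hz
  by_cases hks : t k = t i
  · rw [hks] at hy hz
    have hy' : (l i + l j + l k) * (y (t i) : ZMod Q) = 0 := by linear_combination hy
    have hz' : (l i + l j + l k) * (z (t i) : ZMod Q) = 0 := by linear_combination hz
    by_contra hcon
    apply h.nz (t i)
    rw [← ZMod.intCast_zmod_eq_zero_iff_dvd, ← ZMod.intCast_zmod_eq_zero_iff_dvd]
    exact ⟨(mul_eq_zero.1 hy').resolve_left hcon, (mul_eq_zero.1 hz').resolve_left hcon⟩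
  · have hw := h.wedge (t i) (t k) (Ne.symm hks)
    rw [← ZMod.intCast_zmod_eq_zero_iff_dvd] at hw
    push_cast at hw
    have h1 : (l i + l j) * ((y (t i) : ZMod Q) * (z (t k) : ZMod Q)
        - (y (t k) : ZMod Q) * (z (t i) : ZMod Q)) = 0 := by
      linear_combination (z (t k) : ZMod Q) * hy - (y (t k) : ZMod Q) * hz
    have h2 : l k * ((y (t i) : ZMod Q) * (z (t k) : ZMod Q)
        - (y (t k) : ZMod Q) * (z (t i) : ZMod Q)) = 0 := by
      linear_combination (y (t i) : ZMod Q) * hz - (z (t i) : ZMod Q) * hy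
    have h3 := (mul_eq_zero.1 h1).resolve_right hw
    have h4 := (mul_eq_zero.1 h2).resolve_right hw
    rw [h3, h4, add_zero]

open Classical in
/-- packaged form -/
theorem exists_labC (h : LabSet p Q N x y z) (K : ℤ) (hK : 2 * p * K ≤ Q) :
    ∃ (C : Finset (Fin 3 → ZMod Q)) (lab : (Fin 3 → ZMod Q) → Option (Fin (p ^ 3))),
      C.card = p ^ 3 * N ∧
      (∀ l, (C.filter fun c => lab c = l).card ≤ N) ∧
      (∀ c : Fin 3 → Fin 3 → ZMod Q, (∀ i, c i ∈ C) →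
        Function.Injective (fun i => lab (c i)) →
        ∀ d : ℤ, |d| ≤ K → Matrix.det (Matrix.of c) ≠ (d : ZMod Q)) ∧
      (∀ c : Fin 3 → Fin 3 → ZMod Q, (∀ i, c i ∈ C) →
        ¬ Function.Injective (fun i => lab (c i)) →
        ∀ l : Fin 3 → ZMod Q, (∑ i, l i • c i = 0) → ∑ i, l i = 0) :=
  ⟨labC Q N x y z, labF Q x y z, card_labC h, card_labC_fibre h,
    fun c hc hinj d hd => labC_sep h K hK c hc hinj d hd,
    fun c hc hrep l hl => labC_rel h c hc hrep l hl⟩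

end Crest.Agent.R032.FM
end

-- ▼ part R032/GSide2

/-!
Row 32 (Heilbronn), glue, part 5: the `Q`-side, assembly (helper441).
-/

set_option autoImplicit false
set_option maxHeartbeats 400000

namespace Crest.Agent.R032

open Finset

theorem sum_sub_le {α : Type*} (S : Finset α) (F : Fintype {x // x ∈ S}) (f : {x // x ∈ S} → ℝ)
    (g : α → ℝ) (h : ∀ x, f x ≤ g x.1) :
    (∑ x : {x // x ∈ S}, f x) ≤ ∑ x ∈ S, g x := by
  rw [← Finset.sum_coe_sort S g]
  have hF : F = Finset.fintypeCoeSort S := Subsingleton.elim _ _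
  subst hF
  exact sum_le_sum (fun x _ => h x)

theorem card_cast_irrel {α : Type*} (S : Finset α) (P : α → Prop) (i1 i2 : DecidablePred P) :
    (@Finset.filter α P i1 S).card = (@Finset.filter α P i2 S).card := by
  have : i1 = i2 := Subsingleton.elim _ _
  rw [this]

theorem badTriples_card_le' (p Q W : ℕ) (A : (Fin 3 → ℤ) → Prop) (i1 : DecidablePred A)
    (i2 : DecidablePred fun U : Fin 3 → Fin 3 → ℤ => ∀ i, A (U i)) :
    ((badTriples (@Finset.filter _ (fun u => A u) i1 (Box W))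
      (fun u v w => crossProduct (v - u) (w - u) ≠ 0 ∧ BadDet p Q u v w)).card : ℝ)
      ≤ ((@Finset.filter _ (fun U => ∀ i, A (U i)) i2 (TT p Q W)).card : ℝ) := by
  have h := badTriples_card_le p Q W A
  rw [Nat.cast_le]
  convert h

open Classical in
theorem gSide_sum (p Q N : ℕ) [Fact Q.Prime] (x y z : Fin (p ^ 3) → ℤ) (hp : p.Prime)
    (hL : LabSet p Q N x y z) (W : ℕ) (hW : 0 < W) (hQW : Q ∣ W) (K : ℤ)
    (hK1 : 2 * (p : ℤ) * K ≤ Q) (hK2 : ∀ d : ℤ, 2 * (p : ℤ) * |d| ≤ Q → |d| ≤ K)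
    (hKQ : 2 * K < Q) :
    ∃ C : Finset (Fin 3 → ZMod Q), C.card = p ^ 3 * N ∧
      (∑ g ∈ SLset Q, (((TT p Q W).filter fun U => ∀ i, g.mulVec (FM.castv Q (U i)) ∈ C).card : ℝ))
        * (Q : ℝ) ^ 8
        ≤ 32 * (p : ℝ) ^ 6 * (N : ℝ) ^ 3 * (MC * (W : ℝ) ^ 6 * ((Nat.log 2 W : ℝ) + 1)) *
          ((SLset Q).card : ℝ) := by
  obtain ⟨C, lab, hCcard, hfib, hi, hii⟩ := FM.exists_labC hL K hK1
  have hQ : Q.Prime := Fact.out
  refine ⟨C, hCcard, ?_⟩
  have hTK : ∀ U ∈ TT p Q W, |Matrix.det (Matrix.of U)| ≤ K := fun U hU => hK2 _ (mem_TT.1 hU).2.2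
  have hM0 : 0 ≤ MC * (W : ℝ) ^ 6 * ((Nat.log 2 W : ℝ) + 1) := by
    have := MC_pos
    positivity
  have hA := TT_countA p Q W hW
  have hB := fun l hl => TT_countB p Q W hQ.one_lt hW l hl
  have hC := TT_countC p Q W hQ.pos hW hQW
  have hfm := FM.firstMoment K hKQ C lab (TT p Q W) hTK hi hii _ hM0
    (fun d hd => by convert hA d hd)
    (fun l hl => by convert hB l hl)
    (by convert hC)
  have hrep := FM.card_rep_le C lab N (fun t => by convert hfib t)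
  refine gside_arith (p : ℝ) Q N ((SLset Q).card : ℝ) _ _ _ _ ?_ (by positivity) ?_ hM0 ?_
    (by positivity) hfm ?_ ?_ ?_
  · exact_mod_cast hp.one_le
  · exact_mod_cast hL.N_pos
  · exact_mod_cast card_SLset_ge Q
  · have h2 : 3 * (C.card ^ 2 * N) = 3 * p ^ 6 * N ^ 3 := by
      rw [hCcard]; ring
    rw [h2] at hrep
    have h3 := (Nat.cast_le (α := ℝ)).2 hrep
    rw [card_cast_irrel _ _ _ (fun a => Classical.propDecidable _)] at h3
    rw [card_cast_irrel _ _ _ (fun a => Classical.propDecidable _)]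
    refine h3.trans (le_of_eq ?_)
    push_cast
    ring
  · rw [hCcard]; push_cast; ring
  · exact_mod_cast hL.le_N2

theorem gSide : GSideStmt := by
  classical
  refine ⟨32 * MC, by have := MC_pos; positivity, ?_⟩
  intro p Q N x y z hp hQ hL W hW hQW
  haveI : Fact Q.Prime := ⟨hQ⟩
  have hQpos : 0 < Q := hQ.pos
  have hSLpos : 0 < (SLset Q).card := by
    have h1 := card_SLset_ge Q
    have h2 : 0 < Q ^ 8 := pow_pos hQpos 8
    omega
  obtain ⟨g0, hg0⟩ := card_pos.1 hSLpos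
  have hp0 : (0 : ℤ) < 2 * p := by
    have := hp.pos
    positivity
  set K : ℤ := (Q : ℤ) / (2 * p) with hKdef
  have hK1 : 2 * (p : ℤ) * K ≤ Q := by
    rw [hKdef]
    exact Int.mul_ediv_self_le hp0.ne'
  have hK2 : ∀ d : ℤ, 2 * (p : ℤ) * |d| ≤ Q → |d| ≤ K := by
    intro d hd
    rw [hKdef, Int.le_ediv_iff_mul_le hp0]
    linarith
  have hKQ : 2 * K < Q := by
    have hp2 : (2 : ℤ) ≤ p := by exact_mod_cast hp.two_le
    have hK0 : 0 ≤ K := Int.ediv_nonneg (by positivity) hp0.le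
    have hQ0 : (0 : ℤ) < Q := by exact_mod_cast hQpos
    nlinarith
  obtain ⟨C, hCcard, hsum⟩ := gSide_sum p Q N x y z hp hL W hW hQW K hK1 hK2 hKQ
  refine ⟨{g // g ∈ SLset Q}, inferInstance, ⟨⟨g0, hg0⟩⟩,
    fun g u => g.1.mulVec (FM.castv Q u) ∈ C, ?_, ?_⟩
  · intro g
    have h1 := count_box Q W hQW C g.1 g.2
    rw [hCcard] at h1
    rw [card_cast_irrel _ _ _ (fun a => Classical.propDecidable _)] at h1
    rw [card_cast_irrel _ _ _ (fun a => Classical.propDecidable _)]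
    exact h1
  · have hcardG : (Fintype.card {g // g ∈ SLset Q} : ℝ) = ((SLset Q).card : ℝ) := by simp
    rw [hcardG]
    have hstep := sum_sub_le (SLset Q) inferInstance
      (fun g => ((badTriples (@Finset.filter _ (fun u => g.1.mulVec (FM.castv Q u) ∈ C)
          (fun _ => Classical.propDecidable _) (Box W))
          (fun u v w => crossProduct (v - u) (w - u) ≠ 0 ∧ BadDet p Q u v w)).card : ℝ))
      (fun g => (((TT p Q W).filter fun U => ∀ i, g.mulVec (FM.castv Q (U i)) ∈ C).card : ℝ))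
      (by
        intro g
        exact badTriples_card_le' p Q W (fun u => g.1.mulVec (FM.castv Q u) ∈ C) _ _)
    have hQ0 : (0 : ℝ) ≤ (Q : ℝ) ^ 8 := by positivity
    have hfin := (mul_le_mul_of_nonneg_right hstep hQ0).trans hsum
    refine hfin.trans (le_of_eq ?_)
    ring

end Crest.Agent.R032
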