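import Mathlib
import Crest.Agent.R032.RDefs

-- ▼ part R032/Gadget
section

set_option autoImplicit false

namespace Crest.Agent.R032

open Finset

namespace Gadget

/-- index set of the expansion of the determinant of a difference of two `3 × 3` matrices -/
abbrev Ix : Type := Equiv.Perm (Fin 3) × Finset (Fin 3)

/-- left factor -/
def uL {F : Type*} [CommRing F] (A : Matrix (Fin 3) (Fin 3) F) (q : Ix) : F :=
  (Equiv.Perm.sign q.1 : ℤ) * ∏ i ∈ q.2, A (q.1 i) i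

/-- right factor -/
def wR {F : Type*} [CommRing F] (B : Matrix (Fin 3) (Fin 3) F) (q : Ix) : F :=
  ∏ i ∈ q.2ᶜ, (-B (q.1 i) i)

lemma det_sub_eq {F : Type*} [CommRing F] (A B : Matrix (Fin 3) (Fin 3) F) :
    (A - B).det = ∑ q : Ix, uL A q * wR B q := by
  rw [Matrix.det_apply', Fintype.sum_prod_type]
  refine Finset.sum_congr rfl fun σ _ => ?_
  have h : ∏ i, (A - B) (σ i) i = ∑ S : Finset (Fin 3), (∏ i ∈ S, A (σ i) i) * ∏ i ∈ Sᶜ, (-B (σ i) i) := by
    rw [← Fintype.prod_add]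
    refine Finset.prod_congr rfl fun i _ => ?_
    rw [Matrix.sub_apply, sub_eq_add_neg]
  rw [h, Finset.mul_sum]
  refine Finset.sum_congr rfl fun S _ => ?_
  simp only [uL, wR]
  ring

/-- the alternating form `det (M_{t₁} - M_{t₀}) * det (M_{t₂} - M_{t₀}) * det (M_{t₂} - M_{t₁})` -/
def Fo {F : Type*} [CommRing F] (A B C : Matrix (Fin 3) (Fin 3) F) : F :=
  (B - A).det * (C - A).det * (C - B).det

lemma det_swap {F : Type*} [CommRing F] (A B : Matrix (Fin 3) (Fin 3) F) :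
    (A - B).det = - (B - A).det := by
  have : A - B = -(B - A) := by abel
  rw [this, Matrix.det_neg, Fintype.card_fin]
  ring

lemma sum_triple {α F : Type*} [Fintype α] [CommRing F] (u1 u2 u3 w1 w2 w3 : α → F) :
    (∑ q, u1 q * w1 q) * (∑ q, u2 q * w2 q) * (∑ q, u3 q * w3 q) =
      ∑ q : α × α × α, (w1 q.1 * w2 q.2.1) * (u1 q.1 * w3 q.2.2) * (u2 q.2.1 * u3 q.2.2) := by
  rw [Fintype.sum_mul_sum, Finset.sum_mul, Fintype.sum_prod_type]
  refine Finset.sum_congr rfl fun q1 _ => ?_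
  rw [Finset.sum_mul_sum, Fintype.sum_prod_type]
  refine Finset.sum_congr rfl fun q2 _ => ?_
  refine Finset.sum_congr rfl fun q3 _ => ?_
  simp only
  ring

lemma Fo_eq_sum {F : Type*} [CommRing F] (A B C : Matrix (Fin 3) (Fin 3) F) :
    Fo A B C = ∑ q : Ix × Ix × Ix, (wR A q.1 * wR A q.2.1) * (uL B q.1 * wR B q.2.2) *
      (uL C q.2.1 * uL C q.2.2) := by
  rw [Fo, det_sub_eq, det_sub_eq, det_sub_eq, sum_triple]

/-- the antisymmetrisation: the sum of the determinants is `6 * Fo` -/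
lemma sum_dt_eq {F : Type*} [CommRing F] (A : Fin 3 → Matrix (Fin 3) (Fin 3) F) :
    ∑ q : Ix × Ix × Ix, dt (fun i => wR (A i) q.1 * wR (A i) q.2.1)
      (fun i => uL (A i) q.1 * wR (A i) q.2.2) (fun i => uL (A i) q.2.1 * uL (A i) q.2.2)
      = 6 * Fo (A 0) (A 1) (A 2) := by
  have h1 : ∀ q : Ix × Ix × Ix, dt (fun i => wR (A i) q.1 * wR (A i) q.2.1)
      (fun i => uL (A i) q.1 * wR (A i) q.2.2) (fun i => uL (A i) q.2.1 * uL (A i) q.2.2)
      = (wR (A 0) q.1 * wR (A 0) q.2.1) * (uL (A 1) q.1 * wR (A 1) q.2.2) * (uL (A 2) q.2.1 * uL (A 2) q.2.2)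
      - (wR (A 0) q.1 * wR (A 0) q.2.1) * (uL (A 2) q.1 * wR (A 2) q.2.2) * (uL (A 1) q.2.1 * uL (A 1) q.2.2)
      - (wR (A 1) q.1 * wR (A 1) q.2.1) * (uL (A 0) q.1 * wR (A 0) q.2.2) * (uL (A 2) q.2.1 * uL (A 2) q.2.2)
      + (wR (A 1) q.1 * wR (A 1) q.2.1) * (uL (A 2) q.1 * wR (A 2) q.2.2) * (uL (A 0) q.2.1 * uL (A 0) q.2.2)
      + (wR (A 2) q.1 * wR (A 2) q.2.1) * (uL (A 0) q.1 * wR (A 0) q.2.2) * (uL (A 1) q.2.1 * uL (A 1) q.2.2)
      - (wR (A 2) q.1 * wR (A 2) q.2.1) * (uL (A 1) q.1 * wR (A 1) q.2.2) * (uL (A 0) q.2.1 * uL (A 0) q.2.2) := by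
    intro q
    simp only [dt]
    ring
  rw [Finset.sum_congr rfl fun q _ => h1 q]
  simp only [Finset.sum_sub_distrib, Finset.sum_add_distrib]
  rw [← Fo_eq_sum, ← Fo_eq_sum, ← Fo_eq_sum, ← Fo_eq_sum, ← Fo_eq_sum, ← Fo_eq_sum]
  simp only [Fo]
  rw [det_swap (A 0) (A 1), det_swap (A 0) (A 2), det_swap (A 1) (A 2)]
  ring

end Gadget

open Gadget in
/-- SECTION 1 -/
theorem gadget : GadgetStmt := by
  classical
  refine ⟨Fintype.card (Ix × Ix × Ix), ?_⟩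
  intro p hp hp3
  have : Fact p.Prime := ⟨hp⟩
  -- the field and its regular representation
  let L := GaloisField p 3
  have hfr : Module.finrank (ZMod p) L = 3 := GaloisField.finrank p (by norm_num)
  let bs : Module.Basis (Fin 3) (ZMod p) L := Module.finBasisOfFinrankEq (ZMod p) L hfr
  let M : L → Matrix (Fin 3) (Fin 3) (ZMod p) := fun x => Algebra.leftMulMatrix bs x
  have hcard : Nat.card L = p ^ 3 := GaloisField.card p 3 (by norm_num)
  let e : L ≃ Fin (p ^ 3) := Finite.equivFinOfCardEq hcard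
  have hdet : ∀ x y : L, x ≠ y → (M x - M y).det ≠ 0 := by
    intro x y hxy h0
    have hne : x - y ≠ 0 := sub_ne_zero.mpr hxy
    have h1 : M x - M y = Algebra.leftMulMatrix bs (x - y) := by
      simp only [M, map_sub]
    have h2 : Algebra.leftMulMatrix bs (x - y) * Algebra.leftMulMatrix bs (x - y)⁻¹ = 1 := by
      rw [← map_mul, mul_inv_cancel₀ hne, map_one]
    have h3 := congrArg Matrix.det h2
    rw [Matrix.det_mul, ← h1, h0, zero_mul, Matrix.det_one] at h3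
    exact zero_ne_one h3
  let f := Fintype.equivFin (Ix × Ix × Ix)
  let va : (Ix × Ix × Ix) → Fin (p ^ 3) → ZMod p := fun q t =>
    wR (M (e.symm t)) q.1 * wR (M (e.symm t)) q.2.1
  let vb : (Ix × Ix × Ix) → Fin (p ^ 3) → ZMod p := fun q t =>
    uL (M (e.symm t)) q.1 * wR (M (e.symm t)) q.2.2
  let vc : (Ix × Ix × Ix) → Fin (p ^ 3) → ZMod p := fun q t =>
    uL (M (e.symm t)) q.2.1 * uL (M (e.symm t)) q.2.2
  refine ⟨fun k t => ((va (f.symm k) t).val : ℤ), fun k t => ((vb (f.symm k) t).val : ℤ),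
    fun k t => ((vc (f.symm k) t).val : ℤ), ?_, ?_, ?_, ?_⟩
  · intro k t
    exact ⟨Int.natCast_nonneg _, Int.ofNat_lt.mpr (ZMod.val_lt _)⟩
  · intro k t
    exact ⟨Int.natCast_nonneg _, Int.ofNat_lt.mpr (ZMod.val_lt _)⟩
  · intro k t
    exact ⟨Int.natCast_nonneg _, Int.ofNat_lt.mpr (ZMod.val_lt _)⟩
  · intro t ht hdvd
    rw [← ZMod.intCast_zmod_eq_zero_iff_dvd] at hdvd
    have hcast : ∀ v : ZMod p, (((v.val : ℕ) : ℤ) : ZMod p) = v := by
      intro v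
      simp
    have h1 : ((∑ k, dt (fun i => ((va (f.symm k) (t i)).val : ℤ))
        (fun i => ((vb (f.symm k) (t i)).val : ℤ)) (fun i => ((vc (f.symm k) (t i)).val : ℤ)) : ℤ) : ZMod p)
        = ∑ k, dt (fun i => va (f.symm k) (t i)) (fun i => vb (f.symm k) (t i))
          (fun i => vc (f.symm k) (t i)) := by
      rw [Int.cast_sum]
      refine Finset.sum_congr rfl fun k _ => ?_
      simp only [dt, Int.cast_add, Int.cast_sub, Int.cast_mul, hcast]
    rw [h1] at hdvd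
    rw [Equiv.sum_comp f.symm (fun q => dt (fun i => va q (t i)) (fun i => vb q (t i))
          (fun i => vc q (t i)))] at hdvd
    have h2 := sum_dt_eq (fun i : Fin 3 => M (e.symm (t i)))
    simp only [va, vb, vc] at hdvd
    rw [h2] at hdvd
    have hne : ∀ i j : Fin 3, i ≠ j → e.symm (t i) ≠ e.symm (t j) := by
      intro i j hij h
      exact hij (ht (e.symm.injective h))
    have h6 : (6 : ZMod p) ≠ 0 := by
      intro h
      have h' : ((6 : ℕ) : ZMod p) = 0 := by exact_mod_cast h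
      rw [ZMod.natCast_eq_zero_iff] at h'
      have h5 : p ∣ 2 * 3 := by simpa using h'
      rcases (Nat.Prime.dvd_mul hp).mp h5 with h | h
      · have := Nat.le_of_dvd (by norm_num) h
        omega
      · have := Nat.le_of_dvd (by norm_num) h
        omega
    have hF : Fo (M (e.symm (t 0))) (M (e.symm (t 1))) (M (e.symm (t 2))) ≠ 0 := by
      unfold Fo
      refine mul_ne_zero (mul_ne_zero ?_ ?_) ?_
      · exact hdet _ _ (hne 1 0 (by decide))
      · exact hdet _ _ (hne 2 0 (by decide))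
      · exact hdet _ _ (hne 2 1 (by decide))
    exact (mul_ne_zero h6 hF) hdvd

end Crest.Agent.R032
end

-- ▼ part R032/Real

set_option autoImplicit false

namespace Crest.Agent.R032

namespace Re

theorem dt_left {ι : Type*} (s : Finset ι) (r : ι → ℤ) (A : ι → Fin 3 → ℤ) (u y z : Fin 3 → ℤ) :
    dt (fun i => (∑ k ∈ s, r k * A k i) + u i) y z =
      (∑ k ∈ s, r k * dt (A k) y z) + dt u y z := by
  classical
  induction s using Finset.induction_on with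
  | empty => simp [dt]
  | insert a s ha ih =>
    simp only [Finset.sum_insert ha]
    unfold dt at *
    linear_combination ih

theorem dt_mid {ι : Type*} (s : Finset ι) (r : ι → ℤ) (B : ι → Fin 3 → ℤ) (A u z : Fin 3 → ℤ) :
    dt A (fun i => u i + ∑ l ∈ s, r l * B l i) z = dt A u z + ∑ l ∈ s, r l * dt A (B l) z := by
  classical
  induction s using Finset.induction_on with
  | empty => simp [dt]
  | insert a s ha ih =>
    simp only [Finset.sum_insert ha]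
    unfold dt at *
    linear_combination ih

theorem dt_right {ι : Type*} (s : Finset ι) (r : ι → ℤ) (C : ι → Fin 3 → ℤ) (A y u : Fin 3 → ℤ) :
    dt A y (fun i => u i + ∑ l ∈ s, r l * C l i) = dt A y u + ∑ l ∈ s, r l * dt A y (C l) := by
  classical
  induction s using Finset.induction_on with
  | empty => simp [dt]
  | insert a s ha ih =>
    simp only [Finset.sum_insert ha]
    unfold dt at *
    linear_combination ih

theorem dt_smul_mid (r : ℤ) (A B C : Fin 3 → ℤ) : dt A (fun i => r * B i) C = r * dt A B C := by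
  unfold dt; ring

theorem dt_smul_right (r : ℤ) (A B C : Fin 3 → ℤ) : dt A B (fun i => r * C i) = r * dt A B C := by
  unfold dt; ring

theorem pow3_eq {k l m : ℕ} (h : 3 ^ k + 3 ^ l = 2 * 3 ^ m) : k = m ∧ l = m := by
  have key : ∀ k l m : ℕ, k < l → 3 ^ k + 3 ^ l ≠ 2 * 3 ^ m := by
    intro k l m hkl h
    have hk : 0 < 3 ^ k := by positivity
    rcases Nat.lt_or_ge k m with hm | hm
    · have h1 : 3 ^ (k + 1) ∣ 3 ^ l := pow_dvd_pow 3 hkl
      have h2 : 3 ^ (k + 1) ∣ 2 * 3 ^ m := (pow_dvd_pow 3 hm).mul_left 2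
      rw [← h] at h2
      have h3 := (Nat.dvd_add_left h1).1 h2
      have h4 := Nat.le_of_dvd hk h3
      rw [pow_succ] at h4
      omega
    · have h1 : 3 ^ m ≤ 3 ^ k := Nat.pow_le_pow_right (by norm_num) hm
      have h2 : 3 ^ k * 3 ≤ 3 ^ l := by
        rw [← pow_succ]; exact Nat.pow_le_pow_right (by norm_num) hkl
      omega
  rcases lt_trichotomy k l with h1 | h1 | h1
  · exact absurd h (key k l m h1)
  · subst h1
    have : 3 ^ k = 3 ^ m := by omega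
    have := Nat.pow_right_injective (le_refl 3 |>.trans' (by norm_num : 2 ≤ 3)) this
    exact ⟨this, this⟩
  · exact absurd (by rw [add_comm]; exact h) (key l k m h1)

theorem abs_minor_le {V : ℤ} {a b c d : ℤ} (ha : 0 ≤ a ∧ a ≤ V) (hb : 0 ≤ b ∧ b ≤ V)
    (hc : 0 ≤ c ∧ c ≤ V) (hd : 0 ≤ d ∧ d ≤ V) : |a * b - c * d| ≤ V * V := by
  have h1 : 0 ≤ a * b := mul_nonneg ha.1 hb.1
  have h2 : 0 ≤ c * d := mul_nonneg hc.1 hd.1
  have h3 : a * b ≤ V * V := mul_le_mul ha.2 hb.2 hb.1 (ha.1.trans ha.2)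
  have h4 : c * d ≤ V * V := mul_le_mul hc.2 hd.2 hd.1 (hc.1.trans hc.2)
  rw [abs_le]; constructor <;> linarith

theorem abs_dt_le {U V : ℤ} (x y z : Fin 3 → ℤ) (hx : ∀ i, |x i| ≤ U)
    (hy : ∀ i, 0 ≤ y i ∧ y i ≤ V) (hz : ∀ i, 0 ≤ z i ∧ z i ≤ V) :
    |dt x y z| ≤ 3 * U * (V * V) := by
  have hU : 0 ≤ U := (abs_nonneg _).trans (hx 0)
  have e1 := abs_minor_le (hy 1) (hz 2) (hy 2) (hz 1)
  have e2 := abs_minor_le (hy 0) (hz 2) (hy 2) (hz 0)
  have e3 := abs_minor_le (hy 0) (hz 1) (hy 1) (hz 0)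
  have m1 : |x 0 * (y 1 * z 2 - y 2 * z 1)| ≤ U * (V * V) := by
    rw [abs_mul]; exact mul_le_mul (hx 0) e1 (abs_nonneg _) hU
  have m2 : |x 1 * (y 0 * z 2 - y 2 * z 0)| ≤ U * (V * V) := by
    rw [abs_mul]; exact mul_le_mul (hx 1) e2 (abs_nonneg _) hU
  have m3 : |x 2 * (y 0 * z 1 - y 1 * z 0)| ≤ U * (V * V) := by
    rw [abs_mul]; exact mul_le_mul (hx 2) e3 (abs_nonneg _) hU
  unfold dt
  rw [abs_le] at *
  constructor <;> linarith [m1.1, m1.2, m2.1, m2.2, m3.1, m3.2]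

/-- the main congruence: everything except the diagonal terms is an integer multiple of `p R^D` or
tiny. -/
theorem expand {K0 : ℕ} {p R D : ℕ} (hpR : p ∣ R) (hR : 0 < R) (hD : D = 2 * 3 ^ K0)
    (A B C : Fin K0 → Fin 3 → ℤ) (code : Fin 3 → ℤ)
    (hA : ∀ k i, 0 ≤ A k i ∧ A k i ≤ p) (hB : ∀ k i, 0 ≤ B k i ∧ B k i ≤ p)
    (hC : ∀ k i, 0 ≤ C k i ∧ C k i ≤ p) :
    ∃ J T : ℤ, ∑ k : Fin K0, (R : ℤ) ^ (3 ^ (k : ℕ)) * dt (A k)
        (fun i => (R : ℤ) ^ D + ∑ l : Fin K0, (R : ℤ) ^ (3 ^ (l : ℕ)) * B l i)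
        (fun i => (R : ℤ) ^ (D + 1) * code i +
          ∑ m : Fin K0, (R : ℤ) ^ (D - 2 * 3 ^ (m : ℕ)) * C m i) =
      p * R ^ D * J + R ^ D * (∑ k, dt (A k) (B k) (C k)) + T ∧
      |T| ≤ K0 ^ 3 * (3 * p ^ 3 * R ^ (D - 1)) := by
  obtain ⟨R', hR'⟩ := hpR
  have hRz : (R : ℤ) = p * R' := by exact_mod_cast hR'
  -- powers of `R` above `D` are multiples of `p R^D`
  have hpow : ∀ e : ℕ, D + 1 ≤ e → ∃ j : ℤ, (R : ℤ) ^ e = p * R ^ D * j := by
    intro e he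
    refine ⟨R' * R ^ (e - (D + 1)), ?_⟩
    have : e = D + 1 + (e - (D + 1)) := by omega
    conv_lhs => rw [this, pow_add, pow_succ]
    rw [hRz]; ring
  have h3 : ∀ m : Fin K0, 2 * 3 ^ (m : ℕ) * 3 ≤ D := by
    intro m
    rw [hD]
    have : 3 ^ (m : ℕ) * 3 ≤ 3 ^ K0 := by
      rw [← pow_succ]; exact Nat.pow_le_pow_right (by norm_num) m.2
    omega
  have hm1 : ∀ m : ℕ, 1 ≤ 3 ^ m := fun m => Nat.one_le_pow _ _ (by norm_num)
  -- triple terms
  have htrip : ∀ k l m : Fin K0, ∃ j τ : ℤ,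
      (R : ℤ) ^ (3 ^ (k : ℕ)) * ((R : ℤ) ^ (3 ^ (l : ℕ)) *
        ((R : ℤ) ^ (D - 2 * 3 ^ (m : ℕ)) * dt (A k) (B l) (C m))) =
      p * R ^ D * j + (if l = k ∧ m = k then (R : ℤ) ^ D * dt (A k) (B l) (C m) else 0) + τ ∧
      |τ| ≤ 3 * p ^ 3 * R ^ (D - 1) := by
    intro k l m
    have hdm := h3 m
    have hexp : (R : ℤ) ^ (3 ^ (k : ℕ)) * ((R : ℤ) ^ (3 ^ (l : ℕ)) *
        ((R : ℤ) ^ (D - 2 * 3 ^ (m : ℕ)) * dt (A k) (B l) (C m))) =
        (R : ℤ) ^ (3 ^ (k : ℕ) + 3 ^ (l : ℕ) + (D - 2 * 3 ^ (m : ℕ))) * dt (A k) (B l) (C m) := by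
      rw [pow_add, pow_add]; ring
    rw [hexp]
    have hnn : (0 : ℤ) ≤ 3 * p ^ 3 * R ^ (D - 1) := by positivity
    rcases lt_trichotomy (3 ^ (k : ℕ) + 3 ^ (l : ℕ)) (2 * 3 ^ (m : ℕ)) with h | h | h
    · -- tiny
      refine ⟨0, (R : ℤ) ^ (3 ^ (k : ℕ) + 3 ^ (l : ℕ) + (D - 2 * 3 ^ (m : ℕ))) *
        dt (A k) (B l) (C m), ?_, ?_⟩
      · rw [if_neg]
        · ring
        · rintro ⟨rfl, rfl⟩; omega
      · rw [abs_mul, abs_of_nonneg (by positivity : (0 : ℤ) ≤ (R : ℤ) ^ _)]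
        have h1 : |dt (A k) (B l) (C m)| ≤ 3 * p * (p * p) := by
          apply abs_dt_le
          · intro i; rw [abs_of_nonneg (hA k i).1]; exact (hA k i).2
          · exact hB l
          · exact hC m
        have h2 : (R : ℤ) ^ (3 ^ (k : ℕ) + 3 ^ (l : ℕ) + (D - 2 * 3 ^ (m : ℕ))) ≤ R ^ (D - 1) := by
          apply pow_le_pow_right₀
          · exact_mod_cast hR
          · omega
        calc (R : ℤ) ^ (3 ^ (k : ℕ) + 3 ^ (l : ℕ) + (D - 2 * 3 ^ (m : ℕ))) *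
              |dt (A k) (B l) (C m)| ≤ R ^ (D - 1) * (3 * p * (p * p)) :=
              mul_le_mul h2 h1 (abs_nonneg _) (by positivity)
          _ = 3 * p ^ 3 * R ^ (D - 1) := by ring
    · -- diagonal
      obtain ⟨h1, h2⟩ := pow3_eq h
      have hk : k = m := Fin.ext h1
      have hl : l = m := Fin.ext h2
      subst hk; subst hl
      refine ⟨0, 0, ?_, by simpa using hnn⟩
      rw [if_pos ⟨rfl, rfl⟩]
      have : 3 ^ (l : ℕ) + 3 ^ (l : ℕ) + (D - 2 * 3 ^ (l : ℕ)) = D := by omega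
      rw [this]; ring
    · -- multiple of `p R^D`
      obtain ⟨j, hj⟩ := hpow (3 ^ (k : ℕ) + 3 ^ (l : ℕ) + (D - 2 * 3 ^ (m : ℕ))) (by omega)
      refine ⟨j * dt (A k) (B l) (C m), 0, ?_, by simpa using hnn⟩
      rw [if_neg]
      · rw [hj]; ring
      · rintro ⟨rfl, rfl⟩; omega
  choose jt τ hjt hτ using htrip
  -- other terms
  choose jp hjp using hpow
  have hrest : ∀ k : Fin K0, ∃ j : ℤ,
      (R : ℤ) ^ (3 ^ (k : ℕ)) * dt (A k)
        (fun i => (R : ℤ) ^ D + ∑ l : Fin K0, (R : ℤ) ^ (3 ^ (l : ℕ)) * B l i)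
        (fun i => (R : ℤ) ^ (D + 1) * code i +
          ∑ m : Fin K0, (R : ℤ) ^ (D - 2 * 3 ^ (m : ℕ)) * C m i) =
      p * R ^ D * j + ∑ l : Fin K0, ∑ m : Fin K0, (R : ℤ) ^ (3 ^ (k : ℕ)) *
        ((R : ℤ) ^ (3 ^ (l : ℕ)) * ((R : ℤ) ^ (D - 2 * 3 ^ (m : ℕ)) * dt (A k) (B l) (C m))) := by
    intro k
    rw [dt_mid, dt_right]
    simp only [dt_right]
    have hone : (fun _ : Fin 3 => (R : ℤ) ^ D) = fun i : Fin 3 => (R : ℤ) ^ D * (fun _ => 1) i := by
      ext; simp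
    rw [hone]
    simp only [dt_smul_mid, dt_smul_right]
    obtain ⟨j1, hj1⟩ : ∃ j1 : ℤ, (R : ℤ) ^ (3 ^ (k : ℕ)) * ((R : ℤ) ^ D * ((R : ℤ) ^ (D + 1) *
        dt (A k) (fun _ => 1) code)) = p * R ^ D * j1 := by
      have := hjp (3 ^ (k : ℕ) + D + (D + 1)) (by have := hm1 k; omega)
      refine ⟨jp (3 ^ (k : ℕ) + D + (D + 1)) (by have := hm1 k; omega) *
        dt (A k) (fun _ => 1) code, ?_⟩
      rw [← mul_assoc, ← mul_assoc, ← mul_assoc, ← pow_add, ← pow_add, this]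
    obtain ⟨j2, hj2⟩ : ∃ j2 : ℤ, (R : ℤ) ^ (3 ^ (k : ℕ)) * (∑ m : Fin K0,
        (R : ℤ) ^ (D - 2 * 3 ^ (m : ℕ)) * ((R : ℤ) ^ D * dt (A k) (fun _ => 1) (C m))) =
        p * R ^ D * j2 := by
      have : ∀ m : Fin K0, (R : ℤ) ^ (3 ^ (k : ℕ)) * ((R : ℤ) ^ (D - 2 * 3 ^ (m : ℕ)) *
          ((R : ℤ) ^ D * dt (A k) (fun _ => 1) (C m))) =
          p * R ^ D * (jp (3 ^ (k : ℕ) + (D - 2 * 3 ^ (m : ℕ)) + D)
            (by have := hm1 k; omega) * dt (A k) (fun _ => 1) (C m)) := by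
        intro m
        have := hjp (3 ^ (k : ℕ) + (D - 2 * 3 ^ (m : ℕ)) + D) (by have := hm1 k; omega)
        rw [← mul_assoc, ← mul_assoc, ← mul_assoc, ← pow_add, ← pow_add, this]
      refine ⟨∑ m : Fin K0, jp (3 ^ (k : ℕ) + (D - 2 * 3 ^ (m : ℕ)) + D)
            (by have := hm1 k; omega) * dt (A k) (fun _ => 1) (C m), ?_⟩
      rw [Finset.mul_sum, Finset.mul_sum]
      exact Finset.sum_congr rfl fun m _ => this m
    obtain ⟨j3, hj3⟩ : ∃ j3 : ℤ, (R : ℤ) ^ (3 ^ (k : ℕ)) * (∑ l : Fin K0,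
        (R : ℤ) ^ (3 ^ (l : ℕ)) * ((R : ℤ) ^ (D + 1) * dt (A k) (B l) code)) =
        p * R ^ D * j3 := by
      have : ∀ l : Fin K0, (R : ℤ) ^ (3 ^ (k : ℕ)) * ((R : ℤ) ^ (3 ^ (l : ℕ)) *
          ((R : ℤ) ^ (D + 1) * dt (A k) (B l) code)) =
          p * R ^ D * (jp (3 ^ (k : ℕ) + 3 ^ (l : ℕ) + (D + 1))
            (by have := hm1 k; have := hm1 l; omega) * dt (A k) (B l) code) := by
        intro l
        have := hjp (3 ^ (k : ℕ) + 3 ^ (l : ℕ) + (D + 1))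
          (by have := hm1 k; have := hm1 l; omega)
        rw [← mul_assoc, ← mul_assoc, ← mul_assoc, ← pow_add, ← pow_add, this]
      refine ⟨∑ l : Fin K0, jp (3 ^ (k : ℕ) + 3 ^ (l : ℕ) + (D + 1))
            (by have := hm1 k; have := hm1 l; omega) * dt (A k) (B l) code, ?_⟩
      rw [Finset.mul_sum, Finset.mul_sum]
      exact Finset.sum_congr rfl fun m _ => this m
    refine ⟨j1 + j2 + j3, ?_⟩
    simp only [Finset.mul_sum, mul_add, Finset.sum_add_distrib] at hj2 hj3 ⊢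
    linear_combination hj1 + hj2 + hj3
  choose jr hjr using hrest
  refine ⟨∑ k, (jr k + ∑ l, ∑ m, jt k l m), ∑ k, ∑ l, ∑ m, τ k l m, ?_, ?_⟩
  · have hdiag : ∀ k : Fin K0, ∑ l : Fin K0, ∑ m : Fin K0,
        (if l = k ∧ m = k then (R : ℤ) ^ D * dt (A k) (B l) (C m) else 0) =
        R ^ D * dt (A k) (B k) (C k) := by
      intro k
      rw [Finset.sum_eq_single k, Finset.sum_eq_single k]
      · simp
      · intro m _ hm; simp [hm]
      · simp
      · intro l _ hl; simp [hl]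
      · simp
    calc _ = ∑ k : Fin K0, (p * R ^ D * jr k + ∑ l : Fin K0, ∑ m : Fin K0,
          (p * R ^ D * jt k l m +
            (if l = k ∧ m = k then (R : ℤ) ^ D * dt (A k) (B l) (C m) else 0) + τ k l m)) := by
          refine Finset.sum_congr rfl fun k _ => ?_
          rw [hjr k]
          simp only [hjt]
      _ = ∑ k : Fin K0, (p * R ^ D * (jr k + ∑ l, ∑ m, jt k l m) +
            R ^ D * dt (A k) (B k) (C k) + ∑ l, ∑ m, τ k l m) := by
          refine Finset.sum_congr rfl fun k _ => ?_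
          rw [← hdiag k]
          simp only [Finset.sum_add_distrib, Finset.mul_sum, mul_add]
          ring
      _ = _ := by
          simp only [Finset.sum_add_distrib, Finset.mul_sum, mul_add]
  · calc |∑ k, ∑ l, ∑ m, τ k l m| ≤ ∑ k : Fin K0, ∑ l : Fin K0, ∑ m : Fin K0, |τ k l m| := by
          refine (Finset.abs_sum_le_sum_abs _ _).trans (Finset.sum_le_sum fun k _ => ?_)
          refine (Finset.abs_sum_le_sum_abs _ _).trans (Finset.sum_le_sum fun l _ => ?_)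
          exact Finset.abs_sum_le_sum_abs _ _
      _ ≤ ∑ k : Fin K0, ∑ l : Fin K0, ∑ m : Fin K0, (3 * (p : ℤ) ^ 3 * R ^ (D - 1)) :=
          Finset.sum_le_sum fun k _ => Finset.sum_le_sum fun l _ => Finset.sum_le_sum fun m _ =>
            hτ k l m
      _ = _ := by
          simp only [Finset.sum_const, Finset.card_univ, Fintype.card_fin, nsmul_eq_mul]
          ring

/-! ### numerical lemmas -/

/-- `y t = P + b` is between `0` and `V` -/
theorem y_bound {K p R W P V b : ℤ} (hK : 0 ≤ K) (hp : 1 ≤ p) (hW : 0 < W)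
    (hPR : P = W * R) (hV : V = P * R * R) (hR : 128 * ((K + 1) * p ^ 4) ≤ R)
    (hb : 0 ≤ b ∧ b ≤ K * (W * p)) : (0 ≤ b ∧ 128 * b ≤ P) ∧ 0 ≤ P + b ∧ P + b ≤ V := by
  have hp4 : p ≤ p ^ 4 := le_self_pow₀ hp (by norm_num)
  have hR1 : 128 ≤ R := by nlinarith [mul_nonneg hK (by positivity : (0:ℤ) ≤ p ^ 4)]
  have h1 : 128 * (K * p) ≤ R := by nlinarith
  have h2 : 128 * b ≤ P := by
    calc 128 * b ≤ 128 * (K * (W * p)) := by linarith [hb.2]
      _ = W * (128 * (K * p)) := by ring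
      _ ≤ W * R := mul_le_mul_of_nonneg_left h1 hW.le
      _ = P := hPR.symm
  have hP : 0 < P := by rw [hPR]; positivity
  refine ⟨⟨hb.1, h2⟩, by linarith [hb.1], ?_⟩
  have h3 : 2 * P ≤ P * R := by nlinarith
  have h4 : P * R ≤ P * R * R := by nlinarith [mul_pos hP (by linarith : (0:ℤ) < R)]
  rw [hV]; linarith [hb.1]

/-- `z t = P R t + c` is between `0` and `V` -/
theorem z_bound {K p R W P V b t : ℤ} (hK : 0 ≤ K) (hp : 1 ≤ p) (hW : 0 < W)
    (hPR : P = W * R) (hV : V = P * R * R) (hR : 128 * ((K + 1) * p ^ 4) ≤ R)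
    (hb : 0 ≤ b ∧ b ≤ K * (W * p)) (ht : 0 ≤ t ∧ t < p ^ 3) :
    0 ≤ P * R * t + b ∧ P * R * t + b ≤ V := by
  have h0 := y_bound hK hp hW hPR hV hR hb
  have hp4 : p ^ 3 ≤ p ^ 4 := pow_le_pow_right₀ hp (by norm_num)
  have hR1 : 128 ≤ R := by nlinarith [mul_nonneg hK (by positivity : (0:ℤ) ≤ p ^ 4)]
  have hP : 0 < P := by rw [hPR]; positivity
  have h1 : t + 1 ≤ R := by nlinarith [mul_nonneg hK (by positivity : (0:ℤ) ≤ p ^ 4)]
  have hPR0 : 0 < P * R := by positivity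
  refine ⟨add_nonneg (mul_nonneg hPR0.le ht.1) hb.1, ?_⟩
  calc P * R * t + b ≤ P * R * t + P * R := by
        have : P ≤ P * R := by nlinarith
        linarith [h0.1.2, hb.1]
    _ = P * R * (t + 1) := by ring
    _ ≤ P * R * R := mul_le_mul_of_nonneg_left h1 hPR0.le
    _ = V := hV.symm

/-- the wedge is nonzero -/
theorem wedge_ne {K p R W P V b b' c c' t s : ℤ} (hK : 0 ≤ K) (hp : 1 ≤ p) (hW : 0 < W)
    (hPR : P = W * R) (hV : V = P * R * R) (hR : 128 * ((K + 1) * p ^ 4) ≤ R)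
    (hb : 0 ≤ b ∧ b ≤ K * (W * p)) (hb' : 0 ≤ b' ∧ b' ≤ K * (W * p))
    (hc : 0 ≤ c ∧ c ≤ K * (W * p)) (hc' : 0 ≤ c' ∧ c' ≤ K * (W * p))
    (ht : 0 ≤ t ∧ t < p ^ 3) (hts : t < s) :
    0 < (P + b) * (P * R * s + c') - (P + b') * (P * R * t + c) := by
  have hp3 : 0 < p ^ 3 := by positivity
  have hp4 : 0 < p ^ 4 := by positivity
  have hR1 : 128 ≤ R := by nlinarith [mul_nonneg hK hp4.le]
  have hP : 0 < P := by rw [hPR]; positivity
  have hyc := y_bound hK hp hW hPR hV hR hc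
  have hyb' := y_bound hK hp hW hPR hV hR hb'
  -- `b' t` is small
  have h1 : 128 * (b' * t) ≤ P := by
    have e1 : b' * t ≤ K * (W * p) * p ^ 3 :=
      mul_le_mul hb'.2 ht.2.le ht.1 (hb'.1.trans hb'.2)
    have e2 : K * (W * p) * p ^ 3 = W * (K * p ^ 4) := by ring
    have e3 : 128 * (K * p ^ 4) ≤ R := by nlinarith
    calc 128 * (b' * t) ≤ W * (128 * (K * p ^ 4)) := by linarith
      _ ≤ W * R := mul_le_mul_of_nonneg_left e3 hW.le
      _ = P := hPR.symm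
  have h2 : 128 * c ≤ P := hyc.1.2
  have h3 : 128 * b' ≤ P := hyb'.1.2
  -- expand
  have hst : t + 1 ≤ s := hts
  have e1 : P * (P * R * (t + 1)) ≤ (P + b) * (P * R * s + c') := by
    have a1 : P * R * (t + 1) ≤ P * R * s + c' := by
      have : P * R * (t + 1) ≤ P * R * s := mul_le_mul_of_nonneg_left hst (by positivity)
      linarith [hc'.1]
    have a2 : 0 ≤ P * R * (t + 1) := by
      have := ht.1; positivity
    exact mul_le_mul (by linarith [hb.1]) a1 a2 (by linarith [hb.1])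
  have e2 : (P + b') * (P * R * t + c) < P * (P * R * (t + 1)) := by
    have a1 : 128 * (R * P * (b' * t)) ≤ R * P * P := by
      have := mul_le_mul_of_nonneg_left h1 (by positivity : 0 ≤ R * P)
      linarith
    have a2 : (P + b') * c ≤ (2 * P) * P := by
      apply mul_le_mul (by linarith [hb'.1]) (by linarith [hc.1]) hc.1 (by linarith)
    have a3 : 128 * (P * P) ≤ P * P * R := by nlinarith [mul_pos hP hP]
    have a4 : 0 < P * P := by positivity
    have e3 : (P + b') * (P * R * t + c) = P * P * R * t + R * P * (b' * t) + (P + b') * c := by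
      ring
    have e4 : P * (P * R * (t + 1)) = P * P * R * t + P * P * R := by ring
    rw [e3, e4]
    nlinarith
  linarith

/-- numerical consequences for `Q` -/
theorem q_facts {K p V Q : ℤ} (hK : 0 ≤ K) (hp : 1 ≤ p) (hV : 1 ≤ V)
    (h : 1024 * ((K + 1) * p ^ 2 * V ^ 4) ≤ Q) :
    1024 * ((K + 1) * p ^ 2 * V ^ 2) ≤ Q ∧ 1024 * (p ^ 2 * V ^ 4) ≤ Q ∧
      1024 * (p * V ^ 2) ≤ Q ∧ V * V < Q ∧ V < Q := by
  have hV24 : V ^ 2 ≤ V ^ 4 := pow_le_pow_right₀ hV (by norm_num)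
  have hp12 : p ≤ p ^ 2 := le_self_pow₀ hp (by norm_num)
  have hV2 : 0 < V ^ 2 := by positivity
  have hp2 : 0 < p ^ 2 := by positivity
  have hA : (K + 1) * p ^ 2 * V ^ 2 ≤ (K + 1) * p ^ 2 * V ^ 4 :=
    mul_le_mul_of_nonneg_left hV24 (by positivity)
  have hB : p ^ 2 * V ^ 4 ≤ (K + 1) * p ^ 2 * V ^ 4 := by
    have : 0 ≤ K * (p ^ 2 * V ^ 4) := by positivity
    linarith
  have hC : p ^ 2 * V ^ 2 ≤ (K + 1) * p ^ 2 * V ^ 2 := by
    have : 0 ≤ K * (p ^ 2 * V ^ 2) := by positivity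
    linarith
  have hD : p * V ^ 2 ≤ p ^ 2 * V ^ 2 := mul_le_mul_of_nonneg_right hp12 hV2.le
  have hE : V ^ 2 ≤ p * V ^ 2 := by
    have := mul_le_mul_of_nonneg_right hp hV2.le
    linarith
  have hF : V ≤ V ^ 2 := le_self_pow₀ hV (by norm_num)
  have hG : V * V = V ^ 2 := by ring
  refine ⟨by linarith, by linarith, by linarith, by linarith, by linarith⟩

/-- final inequality -/
theorem sep_final {p Q P M err d : ℤ} (hp : 0 < p) (hQ : 0 < Q) (hP : 0 < P) (hM : M ≠ 0)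
    (h : p * P * d = Q * P * M + err) (herr : 2 * |err| < Q * P) : Q < 2 * p * |d| := by
  have h1 : 1 ≤ |M| := Int.one_le_abs hM
  have h2 : |p * P * d| = p * P * |d| := by
    rw [abs_mul, abs_of_pos (by positivity : 0 < p * P)]
  have h3 : |Q * P * M| = Q * P * |M| := by
    rw [abs_mul, abs_of_pos (by positivity : 0 < Q * P)]
  have h4 : Q * P ≤ Q * P * |M| := by
    have : 0 < Q * P := by positivity
    nlinarith
  have h5 : |Q * P * M| ≤ |p * P * d| + |err| := by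
    have : Q * P * M = p * P * d - err := by linarith
    rw [this]; exact abs_sub _ _
  rw [h2, h3] at h5
  have h6 : P * Q < P * (2 * p * |d|) := by nlinarith
  exact lt_of_mul_lt_mul_left h6 hP.le

end Re

open Re in
set_option maxHeartbeats 2000000 in
/-- the realisation for given sizes -/
theorem real_aux {K0 p : ℕ} (hp2 : 2 ≤ p)
    (a b c : Fin K0 → Fin (p ^ 3) → ℤ)
    (ha : ∀ k t, 0 ≤ a k t ∧ a k t < p) (hb : ∀ k t, 0 ≤ b k t ∧ b k t < p)
    (hc : ∀ k t, 0 ≤ c k t ∧ c k t < p)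
    (hdt : ∀ t : Fin 3 → Fin (p ^ 3), Function.Injective t →
      ¬ (p : ℤ) ∣ ∑ k, dt (fun i => a k (t i)) (fun i => b k (t i)) (fun i => c k (t i)))
    (D R V Q : ℕ) (hD : D = 2 * 3 ^ K0) (hpR : p ∣ R)
    (hR : 128 * ((K0 + 1) ^ 3 * p ^ 4) ≤ R) (hV : V = R ^ (D + 2))
    (hQ : 1024 * ((K0 + 1) * p ^ 2 * V ^ 4) ≤ Q) :
    ∃ (N : ℕ) (x y z : Fin (p ^ 3) → ℤ), LabSet p Q N x y z := by
  have hp1 : 1 ≤ p := by omega
  have hR1 : 1 ≤ R := by
    refine le_trans ?_ hR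
    exact Nat.one_le_iff_ne_zero.2 (by positivity)
  have hV1 : 1 ≤ V := by rw [hV]; exact Nat.one_le_pow _ _ hR1
  have hQpos : 0 < Q := lt_of_lt_of_le (by positivity) hQ
  have hD2 : 2 ≤ D := by
    rw [hD]; have : 1 ≤ 3 ^ K0 := Nat.one_le_pow _ _ (by norm_num)
    omega
  -- integer quantities
  obtain ⟨Rz, hRz⟩ : ∃ r : ℤ, r = (R : ℤ) := ⟨_, rfl⟩
  obtain ⟨Kz, hKz⟩ : ∃ r : ℤ, r = (K0 : ℤ) := ⟨_, rfl⟩
  obtain ⟨pz, hpz⟩ : ∃ r : ℤ, r = (p : ℤ) := ⟨_, rfl⟩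
  obtain ⟨Vz, hVz⟩ : ∃ r : ℤ, r = (V : ℤ) := ⟨_, rfl⟩
  obtain ⟨Qz, hQz⟩ : ∃ r : ℤ, r = (Q : ℤ) := ⟨_, rfl⟩
  obtain ⟨P, hP⟩ : ∃ r : ℤ, r = Rz ^ D := ⟨_, rfl⟩
  obtain ⟨W, hW⟩ : ∃ r : ℤ, r = Rz ^ (D - 1) := ⟨_, rfl⟩
  have hRz1 : 1 ≤ Rz := by rw [hRz]; exact_mod_cast hR1
  have hK : 0 ≤ Kz := by rw [hKz]; positivity
  have hpz1 : 1 ≤ pz := by rw [hpz]; exact_mod_cast hp1
  have hWpos : 0 < W := by rw [hW]; positivity
  have hPpos : 0 < P := by rw [hP]; positivity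
  have hPR : P = W * Rz := by
    rw [hP, hW, ← pow_succ]; congr 1; omega
  have hVP : Vz = P * Rz * Rz := by
    rw [hVz, hV, hP, hRz]; push_cast; ring
  have hVz1 : 1 ≤ Vz := by rw [hVz]; exact_mod_cast hV1
  have hVpos : 0 < Vz := by linarith
  have hQzpos : 0 < Qz := by rw [hQz]; exact_mod_cast hQpos
  have hRK3 : 128 * ((Kz + 1) ^ 3 * pz ^ 4) ≤ Rz := by
    rw [hRz, hKz, hpz]; exact_mod_cast hR
  have hRK : 128 * ((Kz + 1) * pz ^ 4) ≤ Rz := by
    refine le_trans ?_ hRK3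
    have h1 : Kz + 1 ≤ (Kz + 1) ^ 3 := le_self_pow₀ (by linarith) (by norm_num)
    have h2 : 0 < pz ^ 4 := by positivity
    have h3 := mul_le_mul_of_nonneg_right h1 h2.le
    linarith
  have hQK : 1024 * ((Kz + 1) * pz ^ 2 * Vz ^ 4) ≤ Qz := by
    rw [hQz, hKz, hpz, hVz]; exact_mod_cast hQ
  -- definitions
  obtain ⟨N, hN⟩ : ∃ N : ℕ, N = Q / (16 * p * V ^ 2) := ⟨_, rfl⟩
  obtain ⟨X, hX⟩ : ∃ X : Fin K0 → ℕ, ∀ k, X k = Q * R ^ (3 ^ (k : ℕ)) / (p * R ^ D) :=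
    ⟨_, fun _ => rfl⟩
  let bt : Fin (p ^ 3) → ℤ := fun t => ∑ l : Fin K0, Rz ^ (3 ^ (l : ℕ)) * b l t
  let ct : Fin (p ^ 3) → ℤ := fun t => ∑ m : Fin K0, Rz ^ (D - 2 * 3 ^ (m : ℕ)) * c m t
  -- bounds of `bt`, `ct`
  have h3K : ∀ l : Fin K0, 3 ^ (l : ℕ) ≤ D - 1 := by
    intro l
    have h1 : 3 ^ (l : ℕ) * 3 ≤ 3 ^ K0 := by
      rw [← pow_succ]; exact Nat.pow_le_pow_right (by norm_num) l.2
    have h2 : 1 ≤ 3 ^ (l : ℕ) := Nat.one_le_pow _ _ (by norm_num)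
    omega
  have hbt : ∀ t, 0 ≤ bt t ∧ bt t ≤ Kz * (W * pz) := by
    intro t
    constructor
    · exact Finset.sum_nonneg fun l _ => mul_nonneg (by positivity) (hb l t).1
    · calc bt t ≤ ∑ l : Fin K0, W * pz := by
            refine Finset.sum_le_sum fun l _ => ?_
            rw [hW, hpz]
            exact mul_le_mul (pow_le_pow_right₀ hRz1 (h3K l)) (hb l t).2.le (hb l t).1
              (by positivity)
        _ = Kz * (W * pz) := by simp [hKz]
  have hct : ∀ t, 0 ≤ ct t ∧ ct t ≤ Kz * (W * pz) := by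
    intro t
    constructor
    · exact Finset.sum_nonneg fun l _ => mul_nonneg (by positivity) (hc l t).1
    · calc ct t ≤ ∑ l : Fin K0, W * pz := by
            refine Finset.sum_le_sum fun l _ => ?_
            rw [hW, hpz]
            refine mul_le_mul (pow_le_pow_right₀ hRz1 ?_) (hc l t).2.le (hc l t).1
              (by positivity)
            have h2 : 1 ≤ 3 ^ (l : ℕ) := Nat.one_le_pow _ _ (by norm_num)
            omega
        _ = Kz * (W * pz) := by simp [hKz]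
  have ht3 : ∀ t : Fin (p ^ 3), 0 ≤ (((t : ℕ) : ℤ)) ∧ ((t : ℕ) : ℤ) < pz ^ 3 := by
    intro t
    refine ⟨by positivity, ?_⟩
    rw [hpz]; exact_mod_cast t.2
  let y : Fin (p ^ 3) → ℤ := fun t => P + bt t
  let z : Fin (p ^ 3) → ℤ := fun t => P * Rz * ((t : ℕ) : ℤ) + ct t
  have hyV : ∀ t, 0 ≤ y t ∧ y t ≤ Vz := fun t =>
    (y_bound hK hpz1 hWpos hPR hVP hRK (hbt t)).2
  have hzV : ∀ t, 0 ≤ z t ∧ z t ≤ Vz := fun t =>
    z_bound hK hpz1 hWpos hPR hVP hRK (hct t) (ht3 t)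
  -- consequences for `Q`
  obtain ⟨hQa, hQb, hQc, hVQ, hVQ1⟩ := q_facts hK hpz1 hVz1 hQK
  -- bounds for `N`
  have hden : 0 < 16 * p * V ^ 2 := by positivity
  have hQcn : 16 * p * V ^ 2 ≤ Q := by
    have : (16 * p * V ^ 2 : ℤ) ≤ Q := by
      rw [← hpz, ← hVz, ← hQz]
      have : 0 < pz * Vz ^ 2 := by positivity
      linarith
    exact_mod_cast this
  have hN16 : N * (16 * p * V ^ 2) ≤ Q := by rw [hN]; exact Nat.div_mul_le_self _ _
  have hNpos : 0 < N := by rw [hN]; exact Nat.div_pos hQcn hden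
  have hN1 : Q < (N + 1) * (16 * p * V ^ 2) := by
    rw [hN]; exact (Nat.div_lt_iff_lt_mul hden).1 (Nat.lt_succ_self _)
  obtain ⟨Nz, hNz⟩ : ∃ r : ℤ, r = (N : ℤ) := ⟨_, rfl⟩
  have hNz1 : 1 ≤ Nz := by rw [hNz]; exact_mod_cast hNpos
  have hNz16 : 16 * (Nz * (pz * Vz ^ 2)) ≤ Qz := by
    have : (N * (16 * p * V ^ 2) : ℤ) ≤ Q := by exact_mod_cast hN16
    rw [← hpz, ← hVz, ← hQz, ← hNz] at this
    linarith
  have hNzl : Qz < 16 * ((Nz + 1) * (pz * Vz ^ 2)) := by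
    have : (Q : ℤ) < (N + 1) * (16 * p * V ^ 2) := by exact_mod_cast hN1
    rw [← hpz, ← hVz, ← hQz, ← hNz] at this
    linarith
  refine ⟨N, fun t => ∑ k, (X k : ℤ) * a k t, y, z, hNpos, ?_, ?_, ?_, ?_, ?_⟩
  · rw [hN]; exact Nat.div_le_self _ _
  · -- `Q ≤ N^2`
    have h1 : Qz < 32 * (Nz * (pz * Vz ^ 2)) := by
      have h0 : 0 < pz * Vz ^ 2 := by positivity
      have h3 := mul_le_mul_of_nonneg_right hNz1 h0.le
      linarith
    have h2 : Qz * Qz < (32 * (Nz * (pz * Vz ^ 2))) * (32 * (Nz * (pz * Vz ^ 2))) :=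
      mul_lt_mul'' h1 h1 hQzpos.le hQzpos.le
    have h3 : Qz * (1024 * (pz ^ 2 * Vz ^ 4)) ≤ Qz * Qz := mul_le_mul_of_nonneg_left hQb hQzpos.le
    have h4 : (1024 * (pz ^ 2 * Vz ^ 4)) * Qz < (1024 * (pz ^ 2 * Vz ^ 4)) * Nz ^ 2 := by
      calc (1024 * (pz ^ 2 * Vz ^ 4)) * Qz = Qz * (1024 * (pz ^ 2 * Vz ^ 4)) := by ring
        _ ≤ Qz * Qz := h3
        _ < _ := h2
        _ = _ := by ring
    have h5 : Qz < Nz ^ 2 := lt_of_mul_lt_mul_left h4 (by positivity)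
    rw [hQz, hNz] at h5
    exact_mod_cast h5.le
  · -- (i)
    intro t ht e he j
    obtain ⟨J, T, hJ, hT⟩ := expand (K0 := K0) hpR hR1 hD
      (fun k i => a k (t i)) (fun k i => b k (t i)) (fun k i => c k (t i))
      (fun i => (((t i : ℕ)) : ℤ))
      (fun k i => ⟨(ha k _).1, (ha k _).2.le⟩) (fun k i => ⟨(hb k _).1, (hb k _).2.le⟩)
      (fun k i => ⟨(hc k _).1, (hc k _).2.le⟩)
    have hYeq : (fun i => (R : ℤ) ^ D + ∑ l : Fin K0, (R : ℤ) ^ (3 ^ (l : ℕ)) * b l (t i)) =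
        fun i => y (t i) := by
      ext i; simp only [y, bt, hP, hRz]
    have hZeq : (fun i => (R : ℤ) ^ (D + 1) * (((t i : ℕ)) : ℤ) +
          ∑ m : Fin K0, (R : ℤ) ^ (D - 2 * 3 ^ (m : ℕ)) * c m (t i)) = fun i => z (t i) := by
      ext i; simp only [z, ct, hP, hRz, pow_succ]
    rw [hYeq, hZeq] at hJ
    set SS : ℤ := ∑ k, dt (fun i => a k (t i)) (fun i => b k (t i)) (fun i => c k (t i)) with hSS
    set Y : Fin 3 → ℤ := fun i => y (t i) with hY
    set Z : Fin 3 → ℤ := fun i => z (t i) with hZ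
    have hYV : ∀ i, 0 ≤ Y i ∧ Y i ≤ Vz := fun i => hyV _
    have hZV : ∀ i, 0 ≤ Z i ∧ Z i ≤ Vz := fun i => hzV _
    -- remainders
    obtain ⟨ρ, hρd⟩ : ∃ ρ : Fin K0 → ℤ, ∀ k,
        ρ k = ((Q * R ^ (3 ^ (k : ℕ)) % (p * R ^ D) : ℕ) : ℤ) := ⟨_, fun _ => rfl⟩
    have hρ : ∀ k, pz * P * (X k : ℤ) = Qz * Rz ^ (3 ^ (k : ℕ)) - ρ k := by
      intro k
      have := Nat.div_add_mod (Q * R ^ (3 ^ (k : ℕ))) (p * R ^ D)
      rw [← hX k] at this
      have h2 : ((p : ℤ) * (R : ℤ) ^ D) * (X k : ℤ) + ρ k = Q * (R : ℤ) ^ (3 ^ (k : ℕ)) := by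
        rw [hρd]; exact_mod_cast this
      rw [hpz, hP, hRz, hQz]; linarith
    have hρb : ∀ k, |ρ k| ≤ pz * P := by
      intro k
      have h1 : (Q * R ^ (3 ^ (k : ℕ)) % (p * R ^ D) : ℕ) < p * R ^ D :=
        Nat.mod_lt _ (by positivity)
      have h2 : ρ k < (p : ℤ) * (R : ℤ) ^ D := by rw [hρd]; exact_mod_cast h1
      have h3 : 0 ≤ ρ k := by rw [hρd]; exact Int.natCast_nonneg _
      rw [abs_of_nonneg h3, hpz, hP, hRz]; exact h2.le
    -- the determinant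
    have hdet : dt (fun i => (∑ k, (X k : ℤ) * a k (t i)) + e i) Y Z =
        (∑ k, (X k : ℤ) * dt (fun i => a k (t i)) Y Z) + dt e Y Z :=
      dt_left Finset.univ (fun k => (X k : ℤ)) (fun k i => a k (t i)) e Y Z
    let err : ℤ := Qz * T - (∑ k, ρ k * dt (fun i => a k (t i)) Y Z) + pz * P * dt e Y Z
    have hmain : pz * P * (dt (fun i => (∑ k, (X k : ℤ) * a k (t i)) + e i) Y Z - j * Qz) =
        Qz * P * (SS - pz * (j - J)) + err := by
      have h1 : pz * P * (∑ k, (X k : ℤ) * dt (fun i => a k (t i)) Y Z) =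
          Qz * (∑ k : Fin K0, Rz ^ (3 ^ (k : ℕ)) * dt (fun i => a k (t i)) Y Z) -
            ∑ k, ρ k * dt (fun i => a k (t i)) Y Z := by
        rw [Finset.mul_sum, Finset.mul_sum, ← Finset.sum_sub_distrib]
        refine Finset.sum_congr rfl fun k _ => ?_
        linear_combination (dt (fun i => a k (t i)) Y Z) * hρ k
      have h2 : ∑ k : Fin K0, Rz ^ (3 ^ (k : ℕ)) * dt (fun i => a k (t i)) Y Z =
          pz * P * J + P * SS + T := by
        rw [hRz, hpz, hP, hRz]; exact hJ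
      rw [hdet]
      simp only [err]
      rw [h2] at h1
      linear_combination h1
    have hM : SS - pz * (j - J) ≠ 0 := by
      intro h0
      apply hdt t ht
      rw [← hSS, ← hpz]
      exact ⟨j - J, by linarith⟩
    -- error bound
    have hTb : 128 * |T| ≤ 3 * P := by
      have h1 : |T| ≤ Kz ^ 3 * (3 * pz ^ 3 * W) := by
        rw [hKz, hpz, hW, hRz]; exact hT
      have h2 : 128 * (Kz ^ 3 * pz ^ 3) ≤ Rz := by
        refine le_trans ?_ hRK3
        have e1 : Kz ^ 3 ≤ (Kz + 1) ^ 3 := pow_le_pow_left₀ hK (by linarith) 3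
        have e2 : pz ^ 3 ≤ pz ^ 4 := pow_le_pow_right₀ hpz1 (by norm_num)
        have e3 : Kz ^ 3 * pz ^ 3 ≤ (Kz + 1) ^ 3 * pz ^ 4 :=
          mul_le_mul e1 e2 (by positivity) (by positivity)
        linarith
      calc 128 * |T| ≤ 128 * (Kz ^ 3 * (3 * pz ^ 3 * W)) := by linarith
        _ = 3 * (W * (128 * (Kz ^ 3 * pz ^ 3))) := by ring
        _ ≤ 3 * (W * Rz) := by
            have := mul_le_mul_of_nonneg_left h2 hWpos.le
            linarith
        _ = 3 * P := by rw [hPR]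
    have hρs : |∑ k, ρ k * dt (fun i => a k (t i)) Y Z| ≤
        Kz * (pz * P * (3 * pz * (Vz * Vz))) := by
      calc |∑ k, ρ k * dt (fun i => a k (t i)) Y Z| ≤
            ∑ k : Fin K0, |ρ k * dt (fun i => a k (t i)) Y Z| := Finset.abs_sum_le_sum_abs _ _
        _ ≤ ∑ k : Fin K0, pz * P * (3 * pz * (Vz * Vz)) := by
            refine Finset.sum_le_sum fun k _ => ?_
            rw [abs_mul]
            refine mul_le_mul (hρb k) ?_ (abs_nonneg _) (by positivity)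
            apply abs_dt_le _ _ _ _ hYV hZV
            intro i
            rw [abs_of_nonneg (ha k _).1, hpz]; exact (ha k _).2.le
        _ = _ := by simp [hKz]
    have heb : |dt e Y Z| ≤ 3 * Nz * (Vz * Vz) := by
      apply abs_dt_le _ _ _ _ hYV hZV
      intro i
      rw [abs_of_nonneg (he i).1, hNz]; exact (he i).2.le
    have herr : 2 * |err| < Qz * P := by
      have h1 : |err| ≤ Qz * |T| + |∑ k, ρ k * dt (fun i => a k (t i)) Y Z| +
          pz * P * |dt e Y Z| := by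
        have e1 : |err| ≤ |Qz * T - (∑ k, ρ k * dt (fun i => a k (t i)) Y Z)| +
            |pz * P * dt e Y Z| := abs_add_le _ _
        have e2 : |Qz * T - (∑ k, ρ k * dt (fun i => a k (t i)) Y Z)| ≤
            |Qz * T| + |∑ k, ρ k * dt (fun i => a k (t i)) Y Z| := abs_sub _ _
        have e3 : |Qz * T| = Qz * |T| := by rw [abs_mul, abs_of_pos hQzpos]
        have e4 : |pz * P * dt e Y Z| = pz * P * |dt e Y Z| := by
          rw [abs_mul, abs_of_pos (by positivity : 0 < pz * P)]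
        linarith
      have hQP : 0 < Qz * P := by positivity
      have b1 : 128 * (Qz * |T|) ≤ 3 * (Qz * P) := by
        have := mul_le_mul_of_nonneg_left hTb hQzpos.le
        linarith
      have b2 : 1024 * (Kz * (pz * P * (3 * pz * (Vz * Vz)))) ≤ 3 * (Qz * P) := by
        have e1 : 1024 * (Kz * pz ^ 2 * Vz ^ 2) ≤ Qz := by
          refine le_trans ?_ hQa
          have : 0 ≤ pz ^ 2 * Vz ^ 2 := by positivity
          linarith
        have := mul_le_mul_of_nonneg_right e1 hPpos.le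
        calc _ = 3 * (1024 * (Kz * pz ^ 2 * Vz ^ 2) * P) := by ring
          _ ≤ _ := by linarith
      have b3 : 16 * (pz * P * |dt e Y Z|) ≤ 3 * (Qz * P) := by
        have e0 : pz * P * |dt e Y Z| ≤ pz * P * (3 * Nz * (Vz * Vz)) :=
          mul_le_mul_of_nonneg_left heb (by positivity)
        have e1 := mul_le_mul_of_nonneg_right hNz16 hPpos.le
        calc 16 * (pz * P * |dt e Y Z|) ≤ 16 * (pz * P * (3 * Nz * (Vz * Vz))) := by linarith
          _ = 3 * (16 * (Nz * (pz * Vz ^ 2)) * P) := by ring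
          _ ≤ _ := by linarith
      linarith
    have := sep_final (by linarith : 0 < pz) hQzpos hPpos hM hmain herr
    rw [hQz, hpz] at this
    exact this
  · -- (ii)
    intro t s hts hdvd
    have key : ∀ t s : Fin (p ^ 3), ((t : ℕ) : ℤ) < ((s : ℕ) : ℤ) → ¬ Qz ∣ y t * z s - y s * z t := by
      intro t s hlt hdvd
      have h1 : 0 < y t * z s - y s * z t :=
        wedge_ne hK hpz1 hWpos hPR hVP hRK (hbt t) (hbt s) (hct t) (hct s) (ht3 t) hlt
      have h2 : |y t * z s - y s * z t| ≤ Vz * Vz := abs_minor_le (hyV t) (hzV s) (hyV s) (hzV t)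
      have h3 := Int.le_of_dvd h1 hdvd
      rw [abs_of_pos h1] at h2
      linarith
    rw [← hQz] at hdvd
    rcases lt_trichotomy (t : ℕ) (s : ℕ) with h | h | h
    · exact key t s (by exact_mod_cast h) hdvd
    · exact hts (Fin.ext h)
    · apply key s t (by exact_mod_cast h)
      have : y s * z t - y t * z s = -(y t * z s - y s * z t) := by ring
      rw [this]; exact (Int.dvd_neg).2 hdvd
  · -- (ii')
    rintro t ⟨hy, -⟩
    rw [← hQz] at hy
    have h1 : 0 < y t := by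
      have := (hbt t).1
      show 0 < P + bt t
      linarith
    have h2 := Int.le_of_dvd h1 hy
    have h3 := (hyV t).2
    linarith

theorem real_of_gadget (h : GadgetStmt) : RealStmt := by
  obtain ⟨K0, hK⟩ := h
  obtain ⟨c1, hc1⟩ : ∃ c, c = 128 * (K0 + 1) ^ 3 := ⟨_, rfl⟩
  obtain ⟨c2, hc2⟩ : ∃ c, c = 1024 * (K0 + 1) := ⟨_, rfl⟩
  obtain ⟨D, hD⟩ : ∃ D, D = 2 * 3 ^ K0 := ⟨_, rfl⟩
  refine ⟨c2 + 2 + 4 * ((c1 + 4) * (D + 2)), ?_⟩
  intro p hp hp3 Q hQ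
  obtain ⟨a, b, c, ha, hb, hc, hdt⟩ := hK p hp hp3
  have hp2 : 2 ≤ p := by omega
  have hpow : ∀ n : ℕ, n ≤ p ^ n := fun n =>
    (Nat.lt_two_pow_self (n := n)).le.trans (Nat.pow_le_pow_left hp2 n)
  refine real_aux hp2 a b c ha hb hc hdt D (c1 * p ^ 4) ((c1 * p ^ 4) ^ (D + 2)) Q hD ?_ ?_ rfl ?_
  · exact (dvd_pow_self p (by norm_num)).mul_left _
  · rw [hc1, mul_assoc]
  · refine le_trans ?_ hQ
    have h1 : c1 * p ^ 4 ≤ p ^ (c1 + 4) := by
      rw [pow_add]; exact Nat.mul_le_mul_right _ (hpow c1)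
    have h2 : (c1 * p ^ 4) ^ (D + 2) ≤ p ^ ((c1 + 4) * (D + 2)) := by
      rw [pow_mul]; exact Nat.pow_le_pow_left h1 _
    have h3 : ((c1 * p ^ 4) ^ (D + 2)) ^ 4 ≤ p ^ (4 * ((c1 + 4) * (D + 2))) := by
      rw [mul_comm 4, pow_mul p]; exact Nat.pow_le_pow_left h2 _
    calc 1024 * ((K0 + 1) * p ^ 2 * ((c1 * p ^ 4) ^ (D + 2)) ^ 4) =
          c2 * p ^ 2 * ((c1 * p ^ 4) ^ (D + 2)) ^ 4 := by rw [hc2]; ring
      _ ≤ p ^ c2 * p ^ 2 * p ^ (4 * ((c1 + 4) * (D + 2))) :=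
          Nat.mul_le_mul (Nat.mul_le_mul_right _ (hpow c2)) h3
      _ = _ := by rw [pow_add, pow_add]

end Crest.Agent.R032
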